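import Crest.Agent.R296.Defs

/-!
Row 296: choice along families of invariant names holds in the system of a frame.
-/

set_option autoImplicit false

namespace Crest.Agent.R296

open Name Cond

/-- A value of `f` at an invariant name can be moved to a value supported by `b`. -/
theorem acwo_dense {F : Frame} (api : CondAPI F) {a b : F.L} (hab : a < b) {z f y : Name (Cond F)}
    (hz : ∀ g : F.G, g • z = z) (hf : F.sys.Supp a f) (hy : F.sys.HS y) {q : Cond F}
    (hq : FMem (opair z y) f q) : ∃ s : Cond F, (Lives (Set.Iic b) s ∧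
      ∃ y', F.sys.HS y' ∧ F.sys.Supp b y' ∧ FMem (opair z y') f s) ∧ Compat q s := by
  obtain ⟨w, hw⟩ := hy.supp
  obtain ⟨a', haa', hwa'⟩ := F.directed a w
  have hya' : F.sys.Supp a' y := hw.mono fun k hk => F.fix_below k a' w hk hwa'.le
  have hmove : ∀ (k : F.G) (p : Cond F), k • a = a → FMem (opair z y) f p →
      FMem (opair z (k • y)) f (k • p) := by
    intro k p hk hp
    have h1 := Sys.fmem_smul (S := F.sys) k hp
    have h2 := Sys.smul_opair (S := F.sys) k z y (k • p)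
    rw [hz k] at h2
    exact (h1.congr_left h2).congr_right (hf.feq hk _)
  have hr : FMem (opair z y) f (q.restrict (Set.Iic a')) :=
    api.restrict_mem a' {p | FMem (opair z y) f p} (fun _ hp _ h => hp.mono h)
      (fun _ hp => FMem.of_dense hp)
      (fun k hk p hp => (hmove k p (F.fix_below k a' a hk haa'.le) hp).congr_left
        ((FEq.refl z _).opair (hya'.feq hk _))) q hq
  obtain ⟨β, hβ⟩ := api.bound q
  obtain ⟨α, hα⟩ : ∃ α, max β (max (Order.succ (F.st a))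
    (max (Order.succ (F.st b)) (Order.succ (F.st a')))) ≤ α := ⟨_, le_rfl⟩
  simp only [max_le_iff, Order.succ_le_iff] at hα
  obtain ⟨hβα, hsa, hsb, hsa'⟩ := hα
  have hE : IsFilt F.st α (Set.Ici b) := ⟨⟨b, le_rfl⟩, fun e he e' h => le_trans he h,
    fun e he e' he' => le_inf he he', fun e he => ⟨b, le_rfl, hsb, he⟩⟩
  obtain ⟨k, hka, -, hle, hnot, J⟩ := F.ext a' a b (Set.Ici b) α haa' hE hab (fun e he => he)
    hsa' hsa hsb
  have hka' : k⁻¹ • a = a := by rw [inv_smul_eq_iff, hka]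
  have hliv : ∀ u γ, (k • q.restrict (Set.Iic a')).val (u, γ) ≠ none → u ≤ k • a' := by
    intro u γ hu
    have h₁ : k⁻¹ • u ≤ a' := api.lives_restrict q (Set.Iic a') (k⁻¹ • u) γ hu
    simpa using F.smul_le k _ _ h₁
  refine ⟨k • q.restrict (Set.Iic a'), ⟨fun u γ hu => (hliv u γ hu).trans (hle b le_rfl),
    k • y, hy.smul k, hya'.smul_of_conj k fun k' hk' => ?_, hmove k _ hka hr⟩, ?_⟩
  · have h₁ := F.fix_below k' b (k • a') hk' (hle b le_rfl)
    change (k⁻¹ * k' * k) • a' = a'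
    rw [mul_smul, mul_smul, h₁, inv_smul_smul]
  · rw [api.compat_iff]
    rintro ⟨u, γ⟩ b₁ b₂ h₁ h₂
    have hu : F.st u < α := (hβ u γ (by rw [h₁]; simp)).1.trans_le hβα
    have h₃ : u ≤ k • a' := hliv u γ (by rw [h₂]; simp)
    have h₄ : u ≤ a := by
      by_contra h
      exact hnot (hE.up _ (J u u u h₃ h hu h le_rfl le_rfl) _ h₃)
    rw [smul_val, F.fix_below k⁻¹ a u hka' h₄] at h₂
    have := api.le_restrict q _ _ _ h₂
    rw [h₁] at this
    exact Option.some.inj this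

theorem acwoStmt : ACWOStmt := by
  intro F api ι z hzs hz hdist f hf
  obtain ⟨a, ha⟩ := hf.supp
  obtain ⟨b, hab, -⟩ := F.directed a a
  have hA := fun i => api.antichain (Set.Iic b) {q | Lives (Set.Iic b) q ∧
      ∃ y, F.sys.HS y ∧ F.sys.Supp b y ∧ FMem (opair (z i) y) f q} (fun _ hq => hq.1)
    (fun _ hq _ h hl => ⟨hl, hq.2.imp fun _ hy => ⟨hy.1, hy.2.1, hy.2.2.mono h⟩⟩)
  choose A hAQ hanti hmax using hA
  choose Y hY₁ hY₂ hY₃ using fun (x : Σ i, A i) => (hAQ x.1 x.2.2).2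
  refine ⟨Name.mk (Σ i, A i) (fun x => opair (z x.1) (Y x)) (fun x => x.2.1),
    ⟨⟨b, Sys.supp_mk fun k hk x q hq => ?_⟩, fun x => (hzs x.1).opair (hY₁ x)⟩, ?_, ?_⟩
  · rw [api.smul_of_lives k b _ hk (hAQ x.1 x.2.2).1] at hq
    refine FMem.of_idx (y := Name.mk (Σ i, A i) (fun x => opair (z x.1) (Y x)) fun x => x.2.1)
      x hq ?_
    refine (Sys.smul_opair (S := F.sys) k _ _ q).trans ?_
    exact (FEq.of_eq (hz x.1 k) q).opair ((hY₂ x).feq hk q)
  · intro i y q hy hq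
    obtain ⟨s, hs, t, htq, hts⟩ := hmax i q (acwo_dense api hab (hz i) ha hy hq)
    exact ⟨t, htq, Y ⟨i, s, hs⟩, hY₁ _, FMem.of_idx
      (y := Name.mk (Σ i, A i) (fun x => opair (z x.1) (Y x)) fun x => x.2.1) ⟨i, s, hs⟩ hts
      (FEq.refl _ _), (hY₃ ⟨i, s, hs⟩).mono hts⟩
  · intro i y y' q h h'
    refine FEq.of_dense fun q' hq' => ?_
    obtain ⟨r, hr, ⟨i₁, s₁, hs₁⟩, c₁, e₁⟩ := h q' hq'
    obtain ⟨r', hr', ⟨i₂, s₂, hs₂⟩, c₂, e₂⟩ := h' r (hr.trans hq')
    obtain ⟨e₃, e₄⟩ := feq_opair_iff.1 e₁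
    obtain ⟨e₅, e₆⟩ := feq_opair_iff.1 e₂
    obtain rfl := hdist _ _ _ e₃
    obtain rfl := hdist _ _ _ e₅
    obtain rfl := hanti i s₁ hs₁ s₂ hs₂ ⟨r', hr'.trans c₁, c₂⟩
    exact ⟨r', hr'.trans hr, (e₄.mono hr').trans e₆.symm⟩

end Crest.Agent.R296
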