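import Crest.Agent.R296.ForceDefs

/-!
Row 296: basic properties of forcing for names: equality, membership, the group action, supports,
pairs.
-/

set_option autoImplicit false

namespace Crest.Agent.R296

namespace Name

variable {P : Type 1} [Preorder P]

theorem feq_iff' (x y : Name P) (p : P) : FEq x y p ↔
    (∀ i q, q ≤ p → q ≤ x.cond i → ∃ r ≤ q, ∃ j, r ≤ y.cond j ∧ FEq (x.fn i) (y.fn j) r) ∧
    (∀ j q, q ≤ p → q ≤ y.cond j → ∃ r ≤ q, ∃ i, r ≤ x.cond i ∧ FEq (x.fn i) (y.fn j) r) := by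
  cases x; cases y; rfl

theorem FEq.mono {x y : Name P} {p q : P} (h : FEq x y p) (hq : q ≤ p) : FEq x y q := by
  rw [feq_iff'] at h ⊢
  exact ⟨fun i r hr => h.1 i r (hr.trans hq), fun j r hr => h.2 j r (hr.trans hq)⟩

theorem FEq.of_dense {x y : Name P} {p : P} (h : ∀ q ≤ p, ∃ r ≤ q, FEq x y r) : FEq x y p := by
  rw [feq_iff']
  constructor
  · intro i q hq hc
    obtain ⟨r, hr, he⟩ := h q hq
    obtain ⟨s, hs, h'⟩ := ((feq_iff' _ _ _).1 he).1 i r le_rfl (hr.trans hc)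
    exact ⟨s, hs.trans hr, h'⟩
  · intro j q hq hc
    obtain ⟨r, hr, he⟩ := h q hq
    obtain ⟨s, hs, h'⟩ := ((feq_iff' _ _ _).1 he).2 j r le_rfl (hr.trans hc)
    exact ⟨s, hs.trans hr, h'⟩

theorem FEq.refl (x : Name P) : ∀ p : P, FEq x x p := by
  induction x with
  | mk ι A c ih =>
    intro p
    exact ⟨fun i q _ hc => ⟨q, le_rfl, i, hc, ih i q⟩, fun i q _ hc => ⟨q, le_rfl, i, hc, ih i q⟩⟩

theorem FEq.of_eq {x y : Name P} (h : x = y) (p : P) : FEq x y p := h ▸ FEq.refl x p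

theorem FEq.symm {x : Name P} : ∀ {y : Name P} {p : P}, FEq x y p → FEq y x p := by
  induction x with
  | mk ι A c ih =>
    rintro ⟨ι', A', c'⟩ p ⟨h₁, h₂⟩
    refine ⟨fun j q hq hc => ?_, fun i q hq hc => ?_⟩
    · obtain ⟨r, hr, i, hi, he⟩ := h₂ j q hq hc
      exact ⟨r, hr, i, hi, ih i he⟩
    · obtain ⟨r, hr, j, hj, he⟩ := h₁ i q hq hc
      exact ⟨r, hr, j, hj, ih i he⟩

theorem FEq.trans {x : Name P} : ∀ {y z : Name P} {p : P}, FEq x y p → FEq y z p → FEq x z p := by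
  induction x with
  | mk ι A c ih =>
    rintro ⟨ι', A', c'⟩ ⟨ι'', A'', c''⟩ p ⟨h₁, h₂⟩ ⟨h₃, h₄⟩
    refine ⟨fun i q hq hc => ?_, fun k q hq hc => ?_⟩
    · obtain ⟨r, hr, j, hj, he⟩ := h₁ i q hq hc
      obtain ⟨s, hs, k, hk, he'⟩ := h₃ j r (hr.trans hq) hj
      exact ⟨s, hs.trans hr, k, hk, ih i (he.mono hs) he'⟩
    · obtain ⟨r, hr, j, hj, he⟩ := h₄ k q hq hc
      obtain ⟨s, hs, i, hi, he'⟩ := h₂ j r (hr.trans hq) hj
      exact ⟨s, hs.trans hr, i, hi, ih i he' (he.mono hs)⟩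

theorem FMem.mono {x y : Name P} {p q : P} (h : FMem x y p) (hq : q ≤ p) : FMem x y q :=
  fun r hr => h r (hr.trans hq)

theorem FMem.of_dense {x y : Name P} {p : P} (h : ∀ q ≤ p, ∃ r ≤ q, FMem x y r) : FMem x y p := by
  intro q hq
  obtain ⟨r, hr, hm⟩ := h q hq
  obtain ⟨s, hs, h'⟩ := hm r le_rfl
  exact ⟨s, hs.trans hr, h'⟩

theorem FMem.of_idx {x y : Name P} {p : P} (j : y.idx) (hc : p ≤ y.cond j) (he : FEq x (y.fn j) p) :
    FMem x y p := fun q hq => ⟨q, le_rfl, j, hq.trans hc, he.mono hq⟩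

theorem FMem.fn_mem (y : Name P) (j : y.idx) {p : P} (hc : p ≤ y.cond j) : FMem (y.fn j) y p :=
  FMem.of_idx j hc (FEq.refl _ _)

theorem fmem_mk {x : Name P} {ι : Type 1} {A : ι → Name P} {c : ι → P} {p : P} :
    FMem x (mk ι A c) p ↔ ∀ q ≤ p, ∃ r ≤ q, ∃ j, r ≤ c j ∧ FEq x (A j) r := Iff.rfl

theorem FMem.congr_left {x x' y : Name P} {p : P} (he : FEq x x' p) (h : FMem x y p) :
    FMem x' y p := by
  intro q hq
  obtain ⟨r, hr, j, hj, h'⟩ := h q hq
  exact ⟨r, hr, j, hj, (he.mono (hr.trans hq)).symm.trans h'⟩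

theorem FMem.congr_right {x y y' : Name P} {p : P} (he : FEq y y' p) (h : FMem x y p) :
    FMem x y' p := by
  intro q hq
  obtain ⟨r, hr, j, hj, h'⟩ := h q hq
  obtain ⟨s, hs, k, hk, h''⟩ := ((feq_iff' _ _ _).1 he).1 j r (hr.trans hq) hj
  exact ⟨s, hs.trans hr, k, hk, (h'.mono hs).trans h''⟩

/-- Forced equality is mutual forced inclusion. -/
theorem feq_iff {x y : Name P} {p : P} : FEq x y p ↔
    (∀ i q, q ≤ p → q ≤ x.cond i → FMem (x.fn i) y q) ∧
    (∀ j q, q ≤ p → q ≤ y.cond j → FMem (y.fn j) x q) := by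
  constructor
  · intro h
    exact ⟨fun i q hq hc => FMem.congr_right (h.mono hq) (FMem.fn_mem x i hc),
      fun j q hq hc => FMem.congr_right (h.symm.mono hq) (FMem.fn_mem y j hc)⟩
  · rintro ⟨h₁, h₂⟩
    rw [feq_iff']
    refine ⟨fun i q hq hc => h₁ i q hq hc q le_rfl, fun j q hq hc => ?_⟩
    obtain ⟨r, hr, i, hi, he⟩ := h₂ j q hq hc q le_rfl
    exact ⟨r, hr, i, hi, he.symm⟩

/-- No name is forced to be a member of a name it is forced to equal. -/
theorem not_fmem_of_feq {x : Name P} : ∀ {y : Name P} {p : P}, FEq x y p → ¬ FMem y x p := by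
  induction x with
  | mk ι A c ih =>
    intro y p he hm
    obtain ⟨r, hr, j, hj, h'⟩ := hm p le_rfl
    have h1 : FEq (A j) (mk ι A c) r := h'.symm.trans (he.mono hr).symm
    have h2 : FMem (A j) (A j) r :=
      FMem.congr_right h1.symm (FMem.fn_mem (mk ι A c) j hj)
    exact ih j (FEq.refl _ _) h2

theorem not_fmem_self (x : Name P) (p : P) : ¬ FMem x x p := not_fmem_of_feq (FEq.refl x p)

section pairs

variable [OrderTop P]

theorem fmem_upair {z x y : Name P} {p : P} :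
    FMem z (upair x y) p ↔ ∀ q ≤ p, ∃ r ≤ q, FEq z x r ∨ FEq z y r := by
  constructor
  · intro h q hq
    obtain ⟨r, hr, ⟨b⟩, -, he⟩ := h q hq
    cases b
    · exact ⟨r, hr, Or.inr he⟩
    · exact ⟨r, hr, Or.inl he⟩
  · intro h q hq
    obtain ⟨r, hr, he | he⟩ := h q hq
    · exact ⟨r, hr, ⟨true⟩, le_top, he⟩
    · exact ⟨r, hr, ⟨false⟩, le_top, he⟩

theorem fmem_upair_left (x y : Name P) (p : P) : FMem x (upair x y) p :=
  fmem_upair.2 fun q _ => ⟨q, le_rfl, Or.inl (FEq.refl _ _)⟩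

theorem fmem_upair_right (x y : Name P) (p : P) : FMem y (upair x y) p :=
  fmem_upair.2 fun q _ => ⟨q, le_rfl, Or.inr (FEq.refl _ _)⟩

theorem FEq.upair {x x' y y' : Name P} {p : P} (hx : FEq x x' p) (hy : FEq y y' p) :
    FEq (upair x y) (upair x' y') p := by
  rw [feq_iff]
  constructor
  · rintro ⟨b⟩ q hq -
    cases b
    · exact FMem.congr_left (hy.mono hq).symm (fmem_upair_right _ _ _)
    · exact FMem.congr_left (hx.mono hq).symm (fmem_upair_left _ _ _)
  · rintro ⟨b⟩ q hq -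
    cases b
    · exact FMem.congr_left (hy.mono hq) (fmem_upair_right _ _ _)
    · exact FMem.congr_left (hx.mono hq) (fmem_upair_left _ _ _)

theorem FEq.opair {x x' y y' : Name P} {p : P} (hx : FEq x x' p) (hy : FEq y y' p) :
    FEq (opair x y) (opair x' y') p := (hx.upair hx).upair (hx.upair hy)

theorem feq_of_fmem_sing {z x : Name P} {p : P} (h : FMem z (upair x x) p) : FEq z x p :=
  FEq.of_dense fun q hq => by
    obtain ⟨r, hr, he | he⟩ := fmem_upair.1 h q hq <;> exact ⟨r, hr, he⟩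

theorem feq_opair_left {x x' y y' : Name P} {p : P} (h : FEq (opair x y) (opair x' y') p) :
    FEq x x' p := by
  refine FEq.of_dense fun q hq => ?_
  have h1 : FMem (upair x x) (opair x' y') q :=
    FMem.congr_right (h.mono hq) (fmem_upair_left _ _ _)
  obtain ⟨r, hr, he | he⟩ := fmem_upair.1 h1 q le_rfl
  · exact ⟨r, hr, (feq_of_fmem_sing (FMem.congr_right he.symm (fmem_upair_left _ _ _))).symm⟩
  · exact ⟨r, hr, (feq_of_fmem_sing (FMem.congr_right he.symm (fmem_upair_left _ _ _))).symm⟩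

theorem feq_opair_right {x x' y y' : Name P} {p : P} (h : FEq (opair x y) (opair x' y') p) :
    FEq y y' p := by
  have hx := feq_opair_left h
  refine FEq.of_dense fun q hq => ?_
  have h1 : FMem (upair x y) (opair x' y') q :=
    FMem.congr_right (h.mono hq) (fmem_upair_right _ _ _)
  obtain ⟨r, hr, he | he⟩ := fmem_upair.1 h1 q le_rfl
  · -- {x,y} = {x'}: so y = x'; and {x',y'} is {x} or {x,y}
    have hy : FEq y x' r := feq_of_fmem_sing (FMem.congr_right he (fmem_upair_right _ _ _))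
    have h2 : FMem (upair x' y') (opair x y) r :=
      FMem.congr_right (h.mono (hr.trans hq)).symm (fmem_upair_right _ _ _)
    obtain ⟨s, hs, he' | he'⟩ := fmem_upair.1 h2 r le_rfl
    · have : FEq y' x s := feq_of_fmem_sing (FMem.congr_right he' (fmem_upair_right _ _ _))
      exact ⟨s, hs.trans hr, (hy.mono hs).trans
        ((hx.mono (hs.trans (hr.trans hq))).symm.trans this.symm)⟩
    · have : FEq y' x' s := feq_of_fmem_sing
        (FMem.congr_right (he'.trans (he.mono hs)) (fmem_upair_right _ _ _))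
      exact ⟨s, hs.trans hr, (hy.mono hs).trans this.symm⟩
  · obtain ⟨s, hs, h3 | h3⟩ :=
      fmem_upair.1 (FMem.congr_right he (fmem_upair_right x y r)) r le_rfl
    · obtain ⟨t, ht, h4 | h4⟩ :=
        fmem_upair.1 (FMem.congr_right (he.mono hs).symm (fmem_upair_right x' y' s)) s le_rfl
      · exact ⟨t, ht.trans (hs.trans hr), (h3.mono ht).trans
          ((hx.mono (ht.trans (hs.trans (hr.trans hq)))).symm.trans h4.symm)⟩
      · exact ⟨t, ht.trans (hs.trans hr), h4.symm⟩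
    · exact ⟨s, hs.trans hr, h3⟩

theorem feq_opair_iff {x x' y y' : Name P} {p : P} :
    FEq (opair x y) (opair x' y') p ↔ FEq x x' p ∧ FEq y y' p :=
  ⟨fun h => ⟨feq_opair_left h, feq_opair_right h⟩, fun h => h.1.opair h.2⟩

end pairs

end Name

open Name

namespace Sys

variable {S : Sys}

theorem smul_le_smul_iff (g : S.G) {p q : S.P} : g • p ≤ g • q ↔ p ≤ q :=
  ⟨fun h => by simpa using S.smul_mono g⁻¹ _ _ h, S.smul_mono g p q⟩

theorem le_smul_iff (g : S.G) {p q : S.P} : p ≤ g • q ↔ g⁻¹ • p ≤ q := by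
  rw [← smul_le_smul_iff g⁻¹]; simp

theorem smul_le_iff (g : S.G) {p q : S.P} : g • p ≤ q ↔ p ≤ g⁻¹ • q := by
  rw [← smul_le_smul_iff g⁻¹]; simp

theorem le_smul_top (g : S.G) (p : S.P) : p ≤ g • (⊤ : S.P) := (le_smul_iff g).2 le_top

theorem feq_smul (g : S.G) {x : Name S.P} :
    ∀ {y : Name S.P} {p : S.P}, FEq x y p → FEq (g • x) (g • y) (g • p) := by
  induction x with
  | mk ι A c ih =>
    rintro ⟨ι', A', c'⟩ p ⟨h₁, h₂⟩
    refine ⟨fun i q hq hc => ?_, fun j q hq hc => ?_⟩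
    · obtain ⟨r, hr, j, hj, he⟩ := h₁ i (g⁻¹ • q) ((le_smul_iff g).1 hq) ((le_smul_iff g).1 hc)
      exact ⟨g • r, (smul_le_iff g).2 hr, j, S.smul_mono g _ _ hj, ih i he⟩
    · obtain ⟨r, hr, i, hi, he⟩ := h₂ j (g⁻¹ • q) ((le_smul_iff g).1 hq) ((le_smul_iff g).1 hc)
      exact ⟨g • r, (smul_le_iff g).2 hr, i, S.smul_mono g _ _ hi, ih i he⟩

theorem feq_smul_iff (g : S.G) {x y : Name S.P} {p : S.P} :
    FEq (g • x) (g • y) (g • p) ↔ FEq x y p :=
  ⟨fun h => by simpa using feq_smul g⁻¹ h, feq_smul g⟩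

theorem fmem_smul (g : S.G) {x y : Name S.P} {p : S.P} (h : FMem x y p) :
    FMem (g • x) (g • y) (g • p) := by
  obtain ⟨ι, A, c⟩ := y
  intro q hq
  obtain ⟨r, hr, j, hj, he⟩ := h (g⁻¹ • q) ((le_smul_iff g).1 hq)
  exact ⟨g • r, (smul_le_iff g).2 hr, j, S.smul_mono g _ _ hj, feq_smul g he⟩

theorem fmem_smul_iff (g : S.G) {x y : Name S.P} {p : S.P} :
    FMem (g • x) (g • y) (g • p) ↔ FMem x y p :=
  ⟨fun h => by simpa using fmem_smul g⁻¹ h, fmem_smul g⟩

theorem feq_smul_top (g : S.G) {x y : Name S.P} (h : FEq x y ⊤) (p : S.P) :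
    FEq (g • x) (g • y) p := (feq_smul g h).mono (le_smul_top g p)

/-- Pairs commute with the action (up to forced equality; `g • ⊤` need not be `⊤` literally). -/
theorem smul_upair (g : S.G) (x y : Name S.P) (p : S.P) :
    FEq (g • upair x y) (upair (g • x) (g • y)) p := by
  rw [feq_iff]
  constructor
  · rintro ⟨b⟩ q - -
    cases b
    · exact fmem_upair_right _ _ _
    · exact fmem_upair_left _ _ _
  · rintro ⟨b⟩ q - -
    cases b
    · exact FMem.of_idx (y := g • upair x y) ⟨false⟩ (le_smul_top g q) (FEq.refl _ _)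
    · exact FMem.of_idx (y := g • upair x y) ⟨true⟩ (le_smul_top g q) (FEq.refl _ _)

theorem smul_opair (g : S.G) (x y : Name S.P) (p : S.P) :
    FEq (g • opair x y) (opair (g • x) (g • y)) p :=
  (smul_upair g _ _ p).trans ((smul_upair g x x p).upair (smul_upair g x y p))

theorem Supp.feq {w : S.L} {x : Name S.P} (h : S.Supp w x) {k : S.G} (hk : k ∈ S.K w) (p : S.P) :
    FEq (k • x) x p := (h k hk).mono le_top

theorem Supp.mono {w w' : S.L} {x : Name S.P} (h : S.Supp w x) (hw : S.K w' ≤ S.K w) :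
    S.Supp w' x := fun k hk => h k (hw hk)

theorem Supp.congr {w : S.L} {x y : Name S.P} (h : S.Supp w x) (he : FEq x y ⊤) : S.Supp w y :=
  fun k hk => (feq_smul_top k he ⊤).symm.trans ((h k hk).trans he)

theorem Supp.smul_of_conj {w c : S.L} {x : Name S.P} (h : S.Supp w x) (g : S.G)
    (hc : ∀ k ∈ S.K c, g⁻¹ * k * g ∈ S.K w) : S.Supp c (g • x) := by
  intro k hk
  have := feq_smul_top g (h _ (hc k hk)) ⊤
  simpa [mul_smul] using this

theorem Supp.upair {w : S.L} {x y : Name S.P} (hx : S.Supp w x) (hy : S.Supp w y) :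
    S.Supp w (upair x y) := fun k hk => (smul_upair k x y ⊤).trans ((hx k hk).upair (hy k hk))

theorem Supp.opair {w : S.L} {x y : Name S.P} (hx : S.Supp w x) (hy : S.Supp w y) :
    S.Supp w (opair x y) := (hx.upair hx).upair (hx.upair hy)

theorem hs_iff (x : Name S.P) : S.HS x ↔ (∃ w, S.Supp w x) ∧ ∀ i, S.HS (x.fn i) := by
  cases x; rfl

theorem HS.supp {x : Name S.P} (h : S.HS x) : ∃ w, S.Supp w x := ((hs_iff x).1 h).1

theorem HS.fn {x : Name S.P} (h : S.HS x) (i : x.idx) : S.HS (x.fn i) := ((hs_iff x).1 h).2 i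

theorem HS.smul (g : S.G) {x : Name S.P} : S.HS x → S.HS (g • x) := by
  induction x with
  | mk ι A c ih =>
    rintro ⟨⟨w, hw⟩, h⟩
    obtain ⟨d, hd⟩ := S.conj g w
    exact ⟨⟨d, hw.smul_of_conj g hd⟩, fun i => ih i (h i)⟩

theorem hs_smul_iff (g : S.G) {x : Name S.P} : S.HS (g • x) ↔ S.HS x :=
  ⟨fun h => by simpa using h.smul g⁻¹, HS.smul g⟩

theorem exists_supp₂ {x y : Name S.P} (hx : S.HS x) (hy : S.HS y) :
    ∃ w, S.Supp w x ∧ S.Supp w y := by
  obtain ⟨a, ha⟩ := hx.supp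
  obtain ⟨b, hb⟩ := hy.supp
  obtain ⟨c, h₁, h₂⟩ := S.dir a b
  exact ⟨c, ha.mono h₁, hb.mono h₂⟩

theorem exists_supp_fin {n : ℕ} (v : Fin n → Name S.P) (hv : ∀ i, S.HS (v i)) :
    ∃ w, ∀ i, S.Supp w (v i) := by
  induction n with
  | zero => obtain ⟨w⟩ := S.ne; exact ⟨w, fun i => i.elim0⟩
  | succ n ih =>
    obtain ⟨a, ha⟩ := ih (fun i => v i.succ) (fun i => hv _)
    obtain ⟨b, hb⟩ := (hv 0).supp
    obtain ⟨c, h₁, h₂⟩ := S.dir a b
    exact ⟨c, fun i => Fin.cases (hb.mono h₂) (fun j => (ha j).mono h₁) i⟩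

theorem HS.upair {x y : Name S.P} (hx : S.HS x) (hy : S.HS y) : S.HS (upair x y) := by
  obtain ⟨w, h₁, h₂⟩ := exists_supp₂ hx hy
  refine ⟨⟨w, h₁.upair h₂⟩, ?_⟩
  rintro ⟨b⟩
  cases b
  · exact hy
  · exact hx

theorem HS.opair {x y : Name S.P} (hx : S.HS x) (hy : S.HS y) : S.HS (opair x y) :=
  (hx.upair hx).upair (hx.upair hy)

/-- A member of a hereditarily symmetric name is densely equal to one of its listed elements. -/
theorem exists_hs_of_fmem {x y : Name S.P} (hy : S.HS y) {p : S.P} (h : FMem x y p) :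
    ∃ r ≤ p, ∃ z, S.HS z ∧ FEq x z r ∧ FMem z y r := by
  obtain ⟨r, hr, j, hj, he⟩ := h p le_rfl
  exact ⟨r, hr, y.fn j, hy.fn j, he, FMem.fn_mem y j hj⟩

/-- Extensionality over hereditarily symmetric members. -/
theorem feq_of_hs_ext {x y : Name S.P} (hx : S.HS x) (hy : S.HS y) {p : S.P}
    (h : ∀ z, S.HS z → ∀ q ≤ p, FMem z x q ↔ FMem z y q) : FEq x y p :=
  feq_iff.2 ⟨fun i q hq hc => (h _ (hx.fn i) q hq).1 (FMem.fn_mem x i hc),
    fun j q hq hc => (h _ (hy.fn j) q hq).2 (FMem.fn_mem y j hc)⟩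

/-- A name whose labelled elements are permuted by `K w` (up to forced equality) is supported by
`w`. -/
theorem supp_mk {w : S.L} {ι : Type 1} {A : ι → Name S.P} {c : ι → S.P}
    (h : ∀ k ∈ S.K w, ∀ i q, q ≤ k • c i → FMem (k • A i) (Name.mk ι A c) q) :
    S.Supp w (Name.mk ι A c) := by
  intro k hk
  rw [feq_iff]
  constructor
  · intro i q _ hc
    exact h k hk i q hc
  · intro i q _ hc
    have h1 := h k⁻¹ (inv_mem hk) i (k⁻¹ • q) (S.smul_mono _ _ _ hc)
    have := fmem_smul k h1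
    simpa using this

/-- The empty name. -/
def emptyN (S : Sys) : Name S.P := Name.mk PEmpty.{2} PEmpty.elim PEmpty.elim

theorem supp_emptyN (w : S.L) : S.Supp w S.emptyN := supp_mk fun _ _ i => PEmpty.elim i

theorem hs_emptyN : S.HS S.emptyN := by
  obtain ⟨w⟩ := S.ne
  exact (hs_iff _).2 ⟨⟨w, supp_emptyN w⟩, fun i => PEmpty.elim i⟩

theorem not_fmem_emptyN (x : Name S.P) (p : S.P) : ¬ FMem x S.emptyN p := fun h => by
  obtain ⟨_, _, j, _⟩ := h p le_rfl
  exact PEmpty.elim j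

end Sys

end Crest.Agent.R296
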