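import Crest.Agent.R296.CondDefs

/-!
Row 296: the basic facts about frames and conditions.
-/

set_option autoImplicit false

namespace Crest.Agent.R296

open Cond

variable {F : Frame}

theorem Cond0_st_smul (g : F.G) (w v : F.L) (γ : Ordinal.{0}) (hw : F.st w < γ)
    (hgw : F.st (g • w) < γ) (hv : v ≤ w) : F.st v < γ ↔ F.st (g • v) < γ := by
  constructor
  · intro h
    have := F.st_pull g⁻¹ (g • w) v γ hgw h (by simpa using hw.le) (by simpa using hv)
    simpa using this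
  · intro h
    have := F.st_pull g w (g • v) γ hw h hgw.le (F.smul_le g _ _ hv)
    simpa using this

theorem Cond0_old_pair (k : F.G) (E' E : Set F.L) (α : Ordinal.{0}) (a' a : F.L)
    (hE' : IsFilt F.st α E') (hE : IsFilt F.st α E) (hk : ∀ u, u ∈ E' ↔ k • u ∈ E) (ha' : a' ∈ E')
    (ha : a ∈ E) (hsa' : F.st a' < α) (hsa : F.st a < α) :
    ∃ w ∈ E', F.st w < α ∧ F.st (k • w) < α ∧ w ≤ a' ∧ k • w ≤ a := by
  have hk' : ∀ u, k⁻¹ • u ∈ E' ↔ u ∈ E := fun u => by rw [hk, smul_inv_smul]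
  obtain ⟨w0, hw0, hs0, hs0'⟩ : ∃ w0 ∈ E', F.st w0 < α ∧ F.st (k • w0) < α := by
    obtain ⟨w', hw', hmin'⟩ := (InvImage.wf (fun u => F.st (k • u))
      (wellFounded_lt (α := Ordinal.{0}))).has_min {u | u ∈ E' ∧ F.st u < α} ⟨a', ha', hsa'⟩
    obtain ⟨w, hw, hmin⟩ := (InvImage.wf (fun u => F.st (k⁻¹ • u))
      (wellFounded_lt (α := Ordinal.{0}))).has_min {u | u ∈ E ∧ F.st u < α} ⟨a, ha, hsa⟩
    by_cases h1 : F.st (k • w') < α
    · exact ⟨w', hw'.1, hw'.2, h1⟩
    by_cases h2 : F.st (k⁻¹ • w) < α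
    · exact ⟨k⁻¹ • w, (hk' w).2 hw.1, h2, by simpa using hw.2⟩
    exfalso
    rw [not_lt] at h1 h2
    obtain ⟨w1, hw1, hs1, hle1⟩ := hE.gen _ ((hk w').1 hw'.1)
    obtain ⟨w2, hw2, hs2, hle2⟩ := hE'.gen _ ((hk' w).2 hw.1)
    have e1 := F.st_pull k w' w1 _ (hw'.2.trans_le h1) (hs1.trans_le h1) le_rfl hle1
    have e2 := F.st_pull k⁻¹ w w2 _ (hw.2.trans_le h2) (hs2.trans_le h2) le_rfl hle2
    rw [inv_inv] at e2
    have f1 : F.st (k⁻¹ • w) ≤ F.st (k⁻¹ • w1) := not_lt.1 (hmin w1 ⟨hw1, hs1⟩)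
    have f2 : F.st (k • w') ≤ F.st (k • w2) := not_lt.1 (hmin' w2 ⟨hw2, hs2⟩)
    exact lt_irrefl _ (((f1.trans_lt e1).trans_le f2).trans e2)
  have hinf : ∀ x y : F.L, F.st x < α → F.st y < α → F.st (x ⊓ y) < α := fun x y hx hy =>
    (F.st_inf x y).trans_lt (max_lt hx hy)
  set u := k⁻¹ • (k • w0 ⊓ a) with hu
  have hku : k • u = k • w0 ⊓ a := smul_inv_smul _ _
  have huw : u ≤ w0 := by
    have := F.smul_le k⁻¹ _ _ (inf_le_left : k • w0 ⊓ a ≤ k • w0)
    rwa [inv_smul_smul] at this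
  have hsu : F.st u < α :=
    (Cond0_st_smul k w0 u α hs0 hs0' huw).2 (by rw [hku]; exact hinf _ _ hs0' hsa)
  have huE : u ∈ E' := (hk' _).2 (hE.inf _ ((hk w0).1 hw0) _ ha)
  have hsw : F.st (a' ⊓ u) < α := hinf _ _ hsa' hsu
  refine ⟨a' ⊓ u, hE'.inf _ ha' _ huE, hsw,
    (Cond0_st_smul k w0 _ α hs0 hs0' (inf_le_right.trans huw)).1 hsw, inf_le_left, ?_⟩
  exact (F.smul_le k _ _ inf_le_right).trans (hku ▸ inf_le_right)

theorem Cond0_union (ι : Type 1) [Small.{0} ι] (p : ι → Cond F)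
    (h : ∀ i j x b b', (p i).val x = some b → (p j).val x = some b' → b = b') :
    ∃ r : Cond F, (∀ i, r ≤ p i) ∧ ∀ x b, r.val x = some b → ∃ i, (p i).val x = some b := by
  classical
  let f : F.L × Ordinal.{0} → Option Bool := fun x =>
    if hx : ∃ i, (p i).val x ≠ none then (p hx.choose).val x else none
  have hs : Small.{0} {x // f x ≠ none} := by
    have : ∀ i, Small.{0} {x | (p i).val x ≠ none} := fun i => (p i).small
    refine small_subset (t := {x | f x ≠ none}) (s := ⋃ i, {x | (p i).val x ≠ none}) ?_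
    intro x hx
    by_contra hn
    apply hx
    simp only [f]
    rw [dif_neg]
    simpa using hn
  refine ⟨⟨f, hs⟩, fun i x b hx => ?_, fun x b hx => ?_⟩
  · have hex : ∃ i, (p i).val x ≠ none := ⟨i, by simp [hx]⟩
    change f x = some b
    simp only [f]
    rw [dif_pos hex]
    obtain ⟨b', hb'⟩ := Option.ne_none_iff_exists'.1 hex.choose_spec
    rw [hb', h _ _ x b' b hb' hx]
  · change f x = some b at hx
    simp only [f] at hx
    split_ifs at hx with hex
    exact ⟨_, hx⟩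

theorem Cond0_union2 (p q : Cond F)
    (h : ∀ x b b', p.val x = some b → q.val x = some b' → b = b') :
    ∃ r : Cond F, r ≤ p ∧ r ≤ q ∧ ∀ x b, r.val x = some b → p.val x = some b ∨ q.val x = some b := by
  obtain ⟨r, hr, hr'⟩ := Cond0_union (ULift.{1} Bool) (fun i => if i.down then p else q) (by
    rintro ⟨_ | _⟩ ⟨_ | _⟩ x b b' h1 h2 <;> simp only [Bool.false_eq_true, if_false, if_true] at h1 h2
    · exact Option.some.inj (h1.symm.trans h2)
    · exact (h x b' b h2 h1).symm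
    · exact h x b b' h1 h2
    · exact Option.some.inj (h1.symm.trans h2))
  refine ⟨r, by simpa using hr ⟨true⟩, by simpa using hr ⟨false⟩, fun x b hx => ?_⟩
  obtain ⟨⟨_ | _⟩, hi⟩ := hr' x b hx
  · exact Or.inr (by simpa using hi)
  · exact Or.inl (by simpa using hi)

theorem Cond0_compat_iff (p q : Cond F) :
    Compat p q ↔ ∀ x b b', p.val x = some b → q.val x = some b' → b = b' := by
  constructor
  · rintro ⟨r, hp, hq⟩ x b b' h1 h2
    exact Option.some.inj ((hp x b h1).symm.trans (hq x b' h2))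
  · intro h
    obtain ⟨r, h1, h2, -⟩ := Cond0_union2 p q h
    exact ⟨r, h1, h2⟩

theorem Cond0_glb (ι : Type 1) [Small.{0} ι] (p : ι → Cond F) (h : ∀ i j, Compat (p i) (p j)) :
    ∃ r : Cond F, (∀ i, r ≤ p i) ∧ ∀ x b, r.val x = some b → ∃ i, (p i).val x = some b :=
  Cond0_union ι p fun i j => (Cond0_compat_iff _ _).1 (h i j)

theorem Cond0_bound (p : Cond F) :
    ∃ α : Ordinal.{0}, ∀ u γ, p.val (u, γ) ≠ none → F.st u < α ∧ γ < α := by
  have := p.small
  obtain ⟨β, hβ⟩ := Ordinal.bddAbove_of_small (s := Set.range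
    fun x : {x : F.L × Ordinal.{0} // p.val x ≠ none} => max (F.st x.1.1) x.1.2)
  refine ⟨Order.succ β, fun u γ h => ?_⟩
  have := hβ ⟨⟨(u, γ), h⟩, rfl⟩
  exact ⟨Order.lt_succ_of_le ((le_max_left _ _).trans this),
    Order.lt_succ_of_le ((le_max_right _ _).trans this)⟩

theorem Cond0_le_restrict (p : Cond F) (D : Set F.L) : p ≤ p.restrict D := by
  intro x b h
  rw [restrict_val] at h
  split_ifs at h
  exact h

theorem Cond0_lives_restrict (p : Cond F) (D : Set F.L) : Lives D (p.restrict D) := by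
  intro u γ h
  rw [restrict_val] at h
  by_contra hu
  exact h (if_neg hu)

theorem Cond0_smul_of_lives (k : F.G) (w : F.L) (p : Cond F) (hk : k • w = w)
    (hp : Lives (Set.Iic w) p) : k • p = p := by
  ext1
  funext ⟨u, γ⟩
  rw [smul_val]
  have hk' : k⁻¹ • w = w := by rw [inv_smul_eq_iff, hk]
  by_cases hu : u ≤ w
  · rw [F.fix_below k⁻¹ w u hk' hu]
  · have h1 : p.val (u, γ) = none := by
      by_contra h
      exact hu (hp u γ h)
    have h2 : p.val (k⁻¹ • u, γ) = none := by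
      by_contra h
      have := F.smul_le k _ _ (hp _ γ h)
      rw [smul_inv_smul, hk] at this
      exact hu this
    rw [h1, h2]

theorem Cond0_homog (w : F.L) (p t : Cond F) (ht : t ≤ p.restrict (Set.Iic w)) :
    ∃ k : F.G, k • w = w ∧ Compat (k • p) t := by
  obtain ⟨α, hα⟩ := Cond0_bound p
  obtain ⟨β, hβ⟩ := Cond0_bound t
  obtain ⟨k, hk, hmove⟩ := F.move w (max α β)
  refine ⟨k, hk, (Cond0_compat_iff _ _).2 ?_⟩
  rintro ⟨u, γ⟩ b b' h1 h2
  rw [smul_val] at h1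
  have hs1 := (hα _ _ (by rw [h1]; simp)).1
  have hs2 := (hβ _ _ (by rw [h2]; simp)).1
  have hle : k⁻¹ • u ≤ w := by
    by_contra hn
    have := hmove _ (hs1.trans_le (le_max_left _ _)) hn
    rw [smul_inv_smul] at this
    exact absurd hs2 (not_lt.2 ((le_max_right _ _).trans this))
  have hfix := F.fix_below k w _ hk hle
  rw [smul_inv_smul] at hfix
  rw [← hfix] at h1 hle
  have := ht (u, γ) b (by rw [restrict_val, if_pos (show (u, γ).1 ∈ Set.Iic w from hle), h1])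
  exact Option.some.inj (this.symm.trans h2)

theorem Cond0_restrict_mem (w : F.L) (Φ : Set (Cond F)) (hopen : ∀ p ∈ Φ, ∀ q ≤ p, q ∈ Φ)
    (hreg : ∀ p, (∀ q ≤ p, ∃ r ≤ q, r ∈ Φ) → p ∈ Φ)
    (hinv : ∀ k : F.G, k • w = w → ∀ p ∈ Φ, k • p ∈ Φ) (p : Cond F) (hp : p ∈ Φ) :
    p.restrict (Set.Iic w) ∈ Φ := by
  refine hreg _ fun q hq => ?_
  obtain ⟨k, hk, r, h1, h2⟩ := Cond0_homog w p q hq
  exact ⟨r, h2, hopen _ (hinv k hk p hp) r h1⟩

theorem Cond0_distrib (ι : Type 1) [Small.{0} ι] (D : ι → Set (Cond F))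
    (hopen : ∀ i, ∀ p ∈ D i, ∀ q ≤ p, q ∈ D i) (hdense : ∀ i p, ∃ q ≤ p, q ∈ D i) (p : Cond F) :
    ∃ q ≤ p, ∀ i, q ∈ D i := by
  classical
  obtain ⟨_, hwf⟩ := exists_wellFoundedLT ι
  let step : ∀ i : ι, (∀ j, j < i → Cond F) → Cond F := fun i f =>
    if h : ∃ r, r ≤ p ∧ r ∈ D i ∧ ∀ j hj, r ≤ f j hj then h.choose else p
  let q : ι → Cond F := (wellFounded_lt (α := ι)).fix step
  have hq : ∀ i, q i = step i fun j _ => q j := fun i => WellFounded.fix_eq _ _ _
  have hlb : ∀ J : Set ι, (∀ i ∈ J, q i ≤ p ∧ q i ∈ D i ∧ ∀ j, j < i → q i ≤ q j) →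
      ∃ r, r ≤ p ∧ ∀ j ∈ J, r ≤ q j := by
    intro J hJ
    have : Small.{0} (Option J) := small_map (Equiv.optionEquivSumPUnit.{0} J)
    obtain ⟨r, hr, -⟩ := Cond0_glb (Option J) (fun o => o.elim p fun j => q j) (by
      rintro (_ | i) (_ | j)
      · exact ⟨p, le_rfl, le_rfl⟩
      · exact ⟨q j, (hJ j j.2).1, le_rfl⟩
      · exact ⟨q i, le_rfl, (hJ i i.2).1⟩
      · rcases lt_trichotomy (i : ι) j with h | h | h
        · exact ⟨q j, (hJ j j.2).2.2 i h, le_rfl⟩
        · exact ⟨q j, by simp [h], le_rfl⟩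
        · exact ⟨q i, le_rfl, (hJ i i.2).2.2 j h⟩)
    exact ⟨r, hr none, fun j hj => hr (some ⟨j, hj⟩)⟩
  have hspec : ∀ i, q i ≤ p ∧ q i ∈ D i ∧ ∀ j, j < i → q i ≤ q j := by
    intro i
    induction i using (wellFounded_lt (α := ι)).induction with
    | _ i ih =>
      obtain ⟨r, hr, hr'⟩ := hlb (Set.Iio i) ih
      obtain ⟨s, hs, hs'⟩ := hdense i r
      have hex : ∃ r, r ≤ p ∧ r ∈ D i ∧ ∀ j (_ : j < i), r ≤ q j :=
        ⟨s, hs.trans hr, hs', fun j hj => hs.trans (hr' j hj)⟩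
      have : q i = hex.choose := by
        rw [hq i]
        exact dif_pos hex
      rw [this]
      exact hex.choose_spec
  obtain ⟨r, hr, hr'⟩ := hlb Set.univ fun i _ => hspec i
  exact ⟨r, hr, fun i => hopen i _ (hspec i).2.1 r (hr' i trivial)⟩

theorem Cond0_separate (p : Cond F) (D : Set F.L) (hD : Small.{0} D) :
    ∃ q ≤ p, ∀ v ∈ D, ∀ v' ∈ D, v ≠ v' →
      ∃ γ b, q.val (v, γ) = some b ∧ q.val (v', γ) = some (!b) := by
  classical
  obtain ⟨q, hq, h⟩ := Cond0_distrib (F := F) (D × D) (fun i => {q | (i.1 : F.L) ≠ i.2 →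
    ∃ γ b, q.val (i.1, γ) = some b ∧ q.val (i.2, γ) = some (!b)}) (by
      intro i p hp q hq hne
      obtain ⟨γ, b, h1, h2⟩ := hp hne
      exact ⟨γ, b, hq _ _ h1, hq _ _ h2⟩) (by
      rintro ⟨v, v'⟩ p
      obtain ⟨α, hα⟩ := Cond0_bound p
      let f : F.L × Ordinal.{0} → Option Bool := fun x =>
        if x = (v.1, α) then some true else if x = (v'.1, α) then some false else p.val x
      have hs : Small.{0} {x // f x ≠ none} := by
        have : Small.{0} {x | p.val x ≠ none} := p.small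
        refine small_subset (t := {x | f x ≠ none})
          (s := insert (v.1, α) (insert (v'.1, α) {x | p.val x ≠ none})) ?_
        intro x hx
        by_cases h1 : x = (v.1, α)
        · exact Or.inl h1
        by_cases h2 : x = (v'.1, α)
        · exact Or.inr (Or.inl h2)
        refine Or.inr (Or.inr ?_)
        simpa [f, h1, h2] using hx
      refine ⟨⟨f, hs⟩, ?_, fun hne => ⟨α, true, ?_, ?_⟩⟩
      · rintro ⟨u, γ⟩ b hx
        have hγ : γ ≠ α := (hα u γ (by rw [hx]; simp)).2.ne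
        change f (u, γ) = some b
        simp [f, hγ, hx]
      · change f _ = _
        simp [f]
      · change f _ = _
        have : (v'.1 : F.L) ≠ v.1 := fun h => hne h.symm
        simp [f, this]) p
  exact ⟨q, hq, fun v hv v' hv' hne => h (⟨v, hv⟩, ⟨v', hv'⟩) hne⟩

theorem Cond0_antichain (D : Set F.L) (Q : Set (Cond F)) (hl : ∀ q ∈ Q, Lives D q)
    (hQ : ∀ q ∈ Q, ∀ q' ≤ q, Lives D q' → q' ∈ Q) :
    ∃ A ⊆ Q, (∀ r ∈ A, ∀ r' ∈ A, Compat r r' → r = r') ∧
      ∀ t, (∃ q ∈ Q, Compat t q) → ∃ r ∈ A, Compat t r := by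
  obtain ⟨A, hA⟩ := zorn_subset {A : Set (Cond F) | A ⊆ Q ∧ ∀ r ∈ A, ∀ r' ∈ A, Compat r r' → r = r'}
    (by
      intro c hc hch
      refine ⟨⋃₀ c, ⟨Set.sUnion_subset fun A hA => (hc hA).1, ?_⟩, fun A hA => Set.subset_sUnion_of_mem hA⟩
      rintro r ⟨A, hA, hr⟩ r' ⟨A', hA', hr'⟩ h
      rcases hch.total hA hA' with h' | h'
      · exact (hc hA').2 r (h' hr) r' hr' h
      · exact (hc hA).2 r hr r' (h' hr') h)
  refine ⟨A, hA.prop.1, hA.prop.2, ?_⟩
  rintro t ⟨q, hq, s, hst, hsq⟩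
  obtain ⟨q', h1, h2, h3⟩ := Cond0_union2 q (t.restrict D)
    ((Cond0_compat_iff _ _).1 ⟨s, hsq, hst.trans (Cond0_le_restrict t D)⟩)
  have hq' : q' ∈ Q := by
    refine hQ q hq q' h1 fun u γ h => ?_
    obtain ⟨b, hb⟩ := Option.ne_none_iff_exists'.1 h
    rcases h3 _ _ hb with h4 | h4
    · exact hl q hq u γ (by rw [h4]; simp)
    · exact Cond0_lives_restrict t D u γ (by rw [h4]; simp)
  obtain ⟨r, hr, hc⟩ : ∃ r ∈ A, Compat q' r := by
    by_contra hno
    push Not at hno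
    have hins : insert q' A ∈
        {A : Set (Cond F) | A ⊆ Q ∧ ∀ r ∈ A, ∀ r' ∈ A, Compat r r' → r = r'} := by
      refine ⟨Set.insert_subset hq' hA.prop.1, ?_⟩
      rintro r (rfl | hr) r' (rfl | hr') h
      · rfl
      · exact absurd h (hno r' hr')
      · obtain ⟨s', h4, h5⟩ := h
        exact absurd ⟨s', h5, h4⟩ (hno r hr)
      · exact hA.prop.2 r hr r' hr' h
    exact hno q' (hA.le_of_ge hins (Set.subset_insert _ _) (Set.mem_insert _ _))
      ⟨q', le_rfl, le_rfl⟩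
  refine ⟨r, hr, (Cond0_compat_iff _ _).2 ?_⟩
  rintro ⟨u, γ⟩ b b' h4 h5
  have hu : u ∈ D := hl r (hA.prop.1 hr) u γ (by rw [h5]; simp)
  exact (Cond0_compat_iff _ _).1 hc _ b b' (h2 _ _ (by rw [restrict_val, if_pos hu, h4])) h5

open Cardinal in
theorem Cond0_mk_le {T : Type 1} (ρ : T → Ordinal.{0}) (h : ∀ α, Small.{0} {x // ρ x = α}) :
    #T ≤ #Ordinal.{0} := by
  rw [← (Equiv.sigmaFiberEquiv ρ).cardinal_eq, mk_sigma]
  refine (sum_le_sum _ (fun _ => #Ordinal.{0}) fun α => ?_).trans ?_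
  · have := small_iff_lift_mk_lt_univ.1 (h α)
    rw [mk_ordinal]
    simpa using this.le
  · rw [sum_const', mul_eq_self (aleph0_le_mk _)]

open Cardinal in
theorem Cond0_label : ∃ lab : Ordinal.{0} → F.L × Cond F, ∀ x α, ∃ β, α ≤ β ∧ lab β = x := by
  have h1 : #F.L ≤ #Ordinal.{0} := Cond0_mk_le F.st fun α => by
    have : Small.{0} {x | F.st x < Order.succ α} := F.small_st _
    exact small_subset (t := {x | F.st x = α}) (s := {x | F.st x < Order.succ α})
      fun x hx => Order.lt_succ_of_le (le_of_eq hx)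
  choose ρ hρ using Cond0_bound (F := F)
  have h2 : #(Cond F) ≤ #Ordinal.{0} := Cond0_mk_le ρ fun α => by
    have := F.small_st α
    refine small_of_injective (f := fun (p : {p // ρ p = α})
      (x : {u // F.st u < α} × Set.Iio α) => p.1.val (x.1.1, x.2.1)) ?_
    rintro ⟨p, hp⟩ ⟨q, hq⟩ he
    refine Subtype.ext (Cond.ext (funext ?_))
    rintro ⟨u, γ⟩
    by_cases hx : F.st u < α ∧ γ < α
    · exact congrFun he (⟨u, hx.1⟩, ⟨γ, hx.2⟩)
    · have e1 : p.val (u, γ) = none := by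
        by_contra h
        exact hx (hp ▸ hρ p u γ h)
      have e2 : q.val (u, γ) = none := by
        by_contra h
        exact hx (hq ▸ hρ q u γ h)
      exact e1.trans e2.symm
  have h3 : #(Ordinal.{0} × (F.L × Cond F)) ≤ #Ordinal.{0} := by
    have hm : #Ordinal.{0} * #Ordinal.{0} = #Ordinal.{0} := mul_eq_self (aleph0_le_mk _)
    simp only [mk_prod, lift_id]
    calc #Ordinal.{0} * (#F.L * #(Cond F)) ≤ #Ordinal.{0} * (#Ordinal.{0} * #Ordinal.{0}) := by
          gcongr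
      _ = #Ordinal.{0} := by rw [hm, hm]
  obtain ⟨j⟩ := (Cardinal.le_def _ _).1 h3
  have : Nonempty F.L := F.ne
  have : Nonempty (Cond F) := ⟨⊤⟩
  refine ⟨fun β => (Function.invFun j β).2, fun x α => ?_⟩
  by_contra hno
  push Not at hno
  have hlt : ∀ d, j (d, x) < α := fun d => by
    by_contra h
    exact hno _ (not_lt.1 h) (by rw [Function.leftInverse_invFun j.injective])
  apply not_small_ordinal.{0, 0}
  refine small_of_injective (f := fun d : Ordinal.{0} => (⟨j (d, x), hlt d⟩ : Set.Iio α)) ?_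
  intro d d' h
  have := j.injective (congrArg Subtype.val h)
  exact congrArg Prod.fst this

theorem condStmt : CondStmt := fun F =>
  { st_smul := Cond0_st_smul
    old_pair := Cond0_old_pair
    compat_iff := Cond0_compat_iff
    glb := Cond0_glb
    bound := Cond0_bound
    le_restrict := Cond0_le_restrict
    lives_restrict := Cond0_lives_restrict
    smul_of_lives := Cond0_smul_of_lives
    homog := Cond0_homog
    restrict_mem := Cond0_restrict_mem
    distrib := Cond0_distrib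
    separate := Cond0_separate
    antichain := Cond0_antichain
    label := Cond0_label (F := F) }

end Crest.Agent.R296
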