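import Crest.Agent.R296.MonDefs

/-!
Row 296: forcing conditions over a frame (small partial functions `L × Ordinal → Bool`).
-/

set_option autoImplicit false

namespace Crest.Agent.R296

/-- Conditions: small partial functions from `L × Ordinal` to `Bool`. -/
@[ext] structure Cond (F : Frame) where
  val : F.L × Ordinal.{0} → Option Bool
  small : Small.{0} {x : F.L × Ordinal.{0} // val x ≠ none}

namespace Cond

variable {F : Frame}

instance : PartialOrder (Cond F) where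
  le p q := ∀ x b, q.val x = some b → p.val x = some b
  le_refl _ _ _ h := h
  le_trans _ _ _ h₁ h₂ x b h := h₁ x b (h₂ x b h)
  le_antisymm p q h₁ h₂ := by
    ext1
    funext x
    rcases hp : p.val x with _ | b
    · rcases hq : q.val x with _ | b'
      · rfl
      · rw [h₁ x b' hq] at hp; cases hp
    · exact (h₂ x b hp).symm

theorem le_def {p q : Cond F} : p ≤ q ↔ ∀ x b, q.val x = some b → p.val x = some b := Iff.rfl

instance : OrderTop (Cond F) where
  top := ⟨fun _ => none, by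
    have : IsEmpty {x : F.L × Ordinal.{0} // (none : Option Bool) ≠ none} := ⟨fun x => x.2 rfl⟩
    infer_instance⟩
  le_top _ _ _ h := by cases h

@[simp] theorem top_val (x : F.L × Ordinal.{0}) : (⊤ : Cond F).val x = none := rfl

instance : MulAction F.G (Cond F) where
  smul g p := ⟨fun x => p.val (g⁻¹ • x.1, x.2), by
    have := p.small
    refine small_of_injective
      (f := fun x : {x : F.L × Ordinal.{0} // p.val (g⁻¹ • x.1, x.2) ≠ none} =>
        (⟨(g⁻¹ • x.1.1, x.1.2), x.2⟩ : {x : F.L × Ordinal.{0} // p.val x ≠ none})) ?_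
    rintro ⟨⟨a, b⟩, h⟩ ⟨⟨a', b'⟩, h'⟩ he
    simp only [Subtype.mk.injEq, Prod.mk.injEq, smul_left_cancel_iff] at he
    simp [he.1, he.2]⟩
  one_smul p := by
    ext1
    funext x
    show p.val ((1 : F.G)⁻¹ • x.1, x.2) = p.val x
    simp
  mul_smul g g' p := by
    ext1
    funext x
    show p.val ((g * g')⁻¹ • x.1, x.2) = p.val (g'⁻¹ • g⁻¹ • x.1, x.2)
    simp [mul_smul]

@[simp] theorem smul_val (g : F.G) (p : Cond F) (u : F.L) (γ : Ordinal.{0}) :
    (g • p).val (u, γ) = p.val (g⁻¹ • u, γ) := rfl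

theorem smul_mono (g : F.G) (p q : Cond F) (h : p ≤ q) : g • p ≤ g • q :=
  fun x b hx => h (g⁻¹ • x.1, x.2) b hx

open Classical in
/-- Restriction of a condition to the points lying in `D`. -/
noncomputable def restrict (p : Cond F) (D : Set F.L) : Cond F :=
  ⟨fun x => if x.1 ∈ D then p.val x else none, by
    have := p.small
    refine small_of_injective
      (f := fun x : {x : F.L × Ordinal.{0} // (if x.1 ∈ D then p.val x else none) ≠ none} =>
        (⟨x.1, fun h => x.2 (by simp [h])⟩ : {x : F.L × Ordinal.{0} // p.val x ≠ none})) ?_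
    rintro ⟨a, h⟩ ⟨a', h'⟩ he
    simpa using he⟩

open Classical in
theorem restrict_val (p : Cond F) (D : Set F.L) (x : F.L × Ordinal.{0}) :
    (p.restrict D).val x = if x.1 ∈ D then p.val x else none := rfl

/-- Two conditions have a common extension. -/
def Compat (p q : Cond F) : Prop := ∃ r, r ≤ p ∧ r ≤ q

/-- The domain of `p` only involves points of `D`. -/
def Lives (D : Set F.L) (p : Cond F) : Prop := ∀ u γ, p.val (u, γ) ≠ none → u ∈ D

end Cond

open Cond

/-- Basic facts about frames and conditions. -/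
structure CondAPI (F : Frame) : Prop where
  /-- ages below two old corresponding points agree -/
  st_smul : ∀ (g : F.G) (w v : F.L) (γ : Ordinal.{0}), F.st w < γ → F.st (g • w) < γ → v ≤ w →
    (F.st v < γ ↔ F.st (g • v) < γ)
  /-- a group element carrying a filter onto a filter carries an old element to an old element,
  both below a prescribed old element lying in both filters -/
  old_pair : ∀ (k : F.G) (E' E : Set F.L) (α : Ordinal.{0}) (a' a : F.L), IsFilt F.st α E' →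
    IsFilt F.st α E → (∀ u, u ∈ E' ↔ k • u ∈ E) → a' ∈ E' → a ∈ E → F.st a' < α → F.st a < α →
    ∃ w ∈ E', F.st w < α ∧ F.st (k • w) < α ∧ w ≤ a' ∧ k • w ≤ a
  compat_iff : ∀ p q : Cond F, Compat p q ↔
    ∀ x b b', p.val x = some b → q.val x = some b' → b = b'
  /-- union of a small pairwise compatible family -/
  glb : ∀ (ι : Type 1) [Small.{0} ι] (p : ι → Cond F), (∀ i j, Compat (p i) (p j)) →
    ∃ r : Cond F, (∀ i, r ≤ p i) ∧ ∀ x b, r.val x = some b → ∃ i, (p i).val x = some b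
  bound : ∀ p : Cond F, ∃ α : Ordinal.{0}, ∀ u γ, p.val (u, γ) ≠ none → F.st u < α ∧ γ < α
  le_restrict : ∀ (p : Cond F) (D : Set F.L), p ≤ p.restrict D
  lives_restrict : ∀ (p : Cond F) (D : Set F.L), Lives D (p.restrict D)
  smul_of_lives : ∀ (k : F.G) (w : F.L) (p : Cond F), k • w = w → Lives (Set.Iic w) p → k • p = p
  /-- homogeneity -/
  homog : ∀ (w : F.L) (p t : Cond F), t ≤ p.restrict (Set.Iic w) →
    ∃ k : F.G, k • w = w ∧ Compat (k • p) t
  /-- a regular open set invariant under the stabiliser of `w` is closed under restriction -/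
  restrict_mem : ∀ (w : F.L) (Φ : Set (Cond F)), (∀ p ∈ Φ, ∀ q ≤ p, q ∈ Φ) →
    (∀ p, (∀ q ≤ p, ∃ r ≤ q, r ∈ Φ) → p ∈ Φ) → (∀ k : F.G, k • w = w → ∀ p ∈ Φ, k • p ∈ Φ) →
    ∀ p ∈ Φ, p.restrict (Set.Iic w) ∈ Φ
  /-- distributivity -/
  distrib : ∀ (ι : Type 1) [Small.{0} ι] (D : ι → Set (Cond F)),
    (∀ i, ∀ p ∈ D i, ∀ q ≤ p, q ∈ D i) → (∀ i p, ∃ q ≤ p, q ∈ D i) →
    ∀ p, ∃ q ≤ p, ∀ i, q ∈ D i
  /-- separation of the generic columns of a small set of points -/
  separate : ∀ (p : Cond F) (D : Set F.L), Small.{0} D → ∃ q ≤ p, ∀ v ∈ D, ∀ v' ∈ D, v ≠ v' →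
    ∃ γ b, q.val (v, γ) = some b ∧ q.val (v', γ) = some (!b)
  /-- maximal antichains among conditions living on `D` -/
  antichain : ∀ (D : Set F.L) (Q : Set (Cond F)), (∀ q ∈ Q, Lives D q) →
    (∀ q ∈ Q, ∀ q' ≤ q, Lives D q' → q' ∈ Q) →
    ∃ A ⊆ Q, (∀ r ∈ A, ∀ r' ∈ A, Compat r r' → r = r') ∧
      ∀ t, (∃ q ∈ Q, Compat t q) → ∃ r ∈ A, Compat t r
  /-- every pair is the label of cofinally many stages -/
  label : ∃ lab : Ordinal.{0} → F.L × Cond F, ∀ x α, ∃ β, α ≤ β ∧ lab β = x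

def CondStmt : Prop := ∀ F : Frame, CondAPI F

/-- The family of conjugates used for the values of the injection: `ρ` is a filter containing `a'`
but not `a`, `E` a filter above `b > a`, `C` a cofinal class of stages. -/
def ConjStmt : Prop :=
  ∀ (F : Frame), CondAPI F → ∀ (a b a' : F.L) (ρ E : Set F.L) (α₀ : Ordinal.{0})
    (C : Set Ordinal.{0}) (r : Cond F), a < b → a < a' → a' ∈ ρ → a ∉ ρ →
    (∀ e ∈ ρ, ∀ e', e ≤ e' → e' ∈ ρ) → (∀ e ∈ ρ, ∀ e' ∈ ρ, e ⊓ e' ∈ ρ) →
    IsFilt F.st α₀ E → (∀ e ∈ E, b ≤ e) → (∀ α, ∃ β ∈ C, α ≤ β) → Lives (Set.Iic a') r →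
    ∃ (A : Set (Cond F)) (g : Cond F → F.G), (∀ q ∈ A, ∀ q' ∈ A, Compat q q' → q = q') ∧
      (∀ q ∈ A, Lives (lowerBounds E) q ∧ g q • a = a ∧ q ≤ g q • r ∧ g q • a' ∈ lowerBounds E ∧
        g q • a' ∉ E ∧ F.st (g q • a') ∈ C ∧ α₀ ≤ F.st (g q • a') ∧
        (∀ e, e ∈ E ↔ (b ≤ e ∧ (g q)⁻¹ • e ∈ ρ)) ∧
        (∀ v, (g q)⁻¹ • v ∈ ρ → v ∉ E → F.st (g q • a') ≤ F.st v)) ∧
      ∀ t, t ≤ r.restrict (Set.Iic a) → ∃ q ∈ A, Compat t q

end Crest.Agent.R296
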