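import Crest.Agent.R296.CondDefs

/-!
Row 296: the antichain of conjugates.
-/

set_option autoImplicit false

namespace Crest.Agent.R296

open Cond

theorem Frame.smul_inf' {F : Frame} (g : F.G) (x y : F.L) : g • (x ⊓ y) = g • x ⊓ g • y := by
  apply le_antisymm
  · exact le_inf (F.smul_le g _ _ inf_le_left) (F.smul_le g _ _ inf_le_right)
  · have : g⁻¹ • (g • x ⊓ g • y) ≤ x ⊓ y := le_inf
      (by simpa using F.smul_le g⁻¹ _ _ (inf_le_left : g • x ⊓ g • y ≤ _))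
      (by simpa using F.smul_le g⁻¹ _ _ (inf_le_right : g • x ⊓ g • y ≤ _))
    simpa using F.smul_le g _ _ this

theorem conjStmt : ConjStmt := by
  intro F api a b a' ρ E α₀ C r hab haa' ha'ρ haρ hup hinf hE hbE hC hr
  let Props : F.G → Prop := fun g => g • a = a ∧ g • a' ∈ lowerBounds E ∧
    g • a' ∉ E ∧ F.st (g • a') ∈ C ∧ α₀ ≤ F.st (g • a') ∧
    (∀ e, e ∈ E ↔ (b ≤ e ∧ g⁻¹ • e ∈ ρ)) ∧
    (∀ v, g⁻¹ • v ∈ ρ → v ∉ E → F.st (g • a') ≤ F.st v)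
  let Q : Set (Cond F) := {q | Lives (lowerBounds E) q ∧ ∃ g, Props g ∧ q ≤ g • r}
  obtain ⟨A, hAQ, hanti, hmax⟩ := api.antichain (lowerBounds E) Q (fun q hq => hq.1)
    (fun q hq q' hq' hl => ⟨hl, hq.2.imp fun g hg => ⟨hg.1, hq'.trans hg.2⟩⟩)
  have hch : ∀ q, ∃ g : F.G, q ∈ A → Props g ∧ q ≤ g • r := by
    intro q
    by_cases hq : q ∈ A
    · obtain ⟨g, hg⟩ := (hAQ hq).2
      exact ⟨g, fun _ => hg⟩
    · exact ⟨1, fun h => absurd h hq⟩
  choose g hg using hch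
  refine ⟨A, g, hanti, fun q hq => ?_, fun t ht => hmax t ?_⟩
  · obtain ⟨⟨h₁, h₂, h₃⟩, h₄⟩ := hg q hq
    exact ⟨(hAQ hq).1, h₁, h₄, h₂, h₃⟩
  obtain ⟨β, hβ⟩ := api.bound t
  obtain ⟨α, hαC, hα⟩ := hC (max (max α₀ β)
    (max (Order.succ (F.st a)) (max (Order.succ (F.st b)) (Order.succ (F.st a')))))
  simp only [max_le_iff, Order.succ_le_iff] at hα
  obtain ⟨⟨hα₀, hβα⟩, hsa, hsb, hsa'⟩ := hα
  have hEα : IsFilt F.st α E := ⟨hE.ne, hE.up, hE.inf,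
    fun e he => (hE.gen e he).imp fun _ ho => ⟨ho.1, ho.2.1.trans_le hα₀, ho.2.2⟩⟩
  obtain ⟨k, hka, hst, hle, hnot, J⟩ := F.ext a' a b E α haa' hEα hab hbE hsa' hsa hsb
  have hka' : k⁻¹ • a = a := by rw [inv_smul_eq_iff, hka]
  have hz : ∀ v, k⁻¹ • v ∈ ρ → ¬ v ⊓ k • a' ≤ a := by
    intro v hv h
    apply haρ
    have h₁ := F.smul_le k⁻¹ _ _ h
    rw [Frame.smul_inf', inv_smul_smul, hka'] at h₁
    exact hup _ (hinf _ hv _ ha'ρ) _ h₁
  refine ⟨k • r, ⟨?_, k, ⟨hka, fun e he => hle e he, hnot, hst ▸ hαC, hst ▸ hα₀, ?_, ?_⟩, le_rfl⟩, ?_⟩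
  · intro u γ hu e he
    have h₁ : k⁻¹ • u ≤ a' := hr _ γ hu
    have h₂ := F.smul_le k _ _ h₁
    rw [smul_inv_smul] at h₂
    exact h₂.trans (hle e he)
  · intro e
    constructor
    · intro he
      refine ⟨hbE e he, hup _ ha'ρ _ ?_⟩
      simpa using F.smul_le k⁻¹ _ _ (hle e he)
    · rintro ⟨h₁, h₂⟩
      exact J (e ⊓ k • a') b e inf_le_right (hz e h₂) hsb hab.not_ge inf_le_left h₁
  · intro v hv hvE
    rw [hst]
    by_contra hlt
    exact hvE (J (v ⊓ k • a') v v inf_le_right (hz v hv) (not_le.1 hlt)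
      (fun h => hz v hv (inf_le_left.trans h)) inf_le_left le_rfl)
  · rw [api.compat_iff]
    rintro ⟨u, γ⟩ b₁ b₂ h₁ h₂
    rw [smul_val] at h₂
    have hu : F.st u < α := (hβ u γ (by rw [h₁]; simp)).1.trans_le hβα
    have h₃ : u ≤ k • a' := by
      have := F.smul_le k _ _ (hr _ γ (by rw [h₂]; simp))
      simpa using this
    have h₄ : u ≤ a := by
      by_contra h
      exact hnot (hE.up _ (J u u u h₃ h hu h le_rfl le_rfl) _ h₃)
    rw [F.fix_below k⁻¹ a u hka' h₄] at h₂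
    have h₅ : (r.restrict (Set.Iic a)).val (u, γ) = some b₂ := by
      rw [restrict_val, if_pos (show u ∈ Set.Iic a from h₄), h₂]
    have := ht _ _ h₅
    rw [h₁] at this
    exact Option.some.inj this

end Crest.Agent.R296
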