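import Crest.Agent.R296.Basic

/-!
Row 296: the forcing relation for formulas: monotonicity, density, congruence, symmetry, the derived
connectives, and lifting of variables.
-/

set_option autoImplicit false

open FirstOrder FirstOrder.Language Crest.LogicCS.SetTheory

namespace Crest.Agent.R296

open Name

namespace Sys

variable {S : Sys}

/-- Every term of the language of set theory is a bound variable. -/
theorem exists_term_var {n : ℕ} (t : setL.Term (Empty ⊕ Fin n)) :
    ∃ i : Fin n, ∀ v : Fin n → Name S.P, t.realize (Sum.elim Empty.elim v) = v i := by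
  cases t with
  | var a =>
    rcases a with a | i
    · exact a.elim
    · exact ⟨i, fun _ => rfl⟩
  | func f _ => exact Empty.elim f

theorem forces_falsum {n : ℕ} (v : Fin n → Name S.P) (p : S.P) :
    ¬ S.Forces (BoundedFormula.falsum) v p := fun h => h

@[simp] theorem forces_bot {n : ℕ} (v : Fin n → Name S.P) (p : S.P) :
    S.Forces (⊥ : setL.BoundedFormula Empty n) v p ↔ False := Iff.rfl

@[simp] theorem forces_imp {n : ℕ} (φ ψ : setL.BoundedFormula Empty n) (v : Fin n → Name S.P)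
    (p : S.P) : S.Forces (φ ⟹ ψ) v p ↔ ∀ q ≤ p, S.Forces φ v q → S.Forces ψ v q := Iff.rfl

@[simp] theorem forces_all {n : ℕ} (φ : setL.BoundedFormula Empty (n + 1)) (v : Fin n → Name S.P)
    (p : S.P) : S.Forces (∀' φ) v p ↔ ∀ x, S.HS x → S.Forces φ (Fin.snoc v x) p := Iff.rfl

@[simp] theorem forces_vmem {n : ℕ} (i j : Fin n) (v : Fin n → Name S.P) (p : S.P) :
    S.Forces (vmem i j) v p ↔ FMem (v i) (v j) p := Iff.rfl

@[simp] theorem forces_veq {n : ℕ} (i j : Fin n) (v : Fin n → Name S.P) (p : S.P) :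
    S.Forces (veq i j) v p ↔ FEq (v i) (v j) p := Iff.rfl

/-- Atomic formulas are equalities or memberships between variables. -/
theorem forces_equal_iff {n : ℕ} (t₁ t₂ : setL.Term (Empty ⊕ Fin n)) :
    ∃ i j : Fin n, ∀ (v : Fin n → Name S.P) (p : S.P),
      S.Forces (BoundedFormula.equal t₁ t₂) v p ↔ FEq (v i) (v j) p := by
  obtain ⟨i, hi⟩ := exists_term_var (S := S) t₁
  obtain ⟨j, hj⟩ := exists_term_var (S := S) t₂
  exact ⟨i, j, fun v p => by rw [← hi v, ← hj v]; rfl⟩

theorem forces_rel_iff {n l : ℕ} (R : setL.Relations l) (ts : Fin l → setL.Term (Empty ⊕ Fin n)) :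
    ∃ i j : Fin n, ∀ (v : Fin n → Name S.P) (p : S.P),
      S.Forces (BoundedFormula.rel R ts) v p ↔ FMem (v i) (v j) p := by
  cases R
  obtain ⟨i, hi⟩ := exists_term_var (S := S) (ts 0)
  obtain ⟨j, hj⟩ := exists_term_var (S := S) (ts 1)
  exact ⟨i, j, fun v p => by rw [← hi v, ← hj v]; rfl⟩

theorem Forces.mono {n : ℕ} {φ : setL.BoundedFormula Empty n} :
    ∀ {v : Fin n → Name S.P} {p q : S.P}, S.Forces φ v p → q ≤ p → S.Forces φ v q := by
  induction φ with
  | falsum => intro v p q h _; exact h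
  | equal t₁ t₂ =>
    obtain ⟨i, j, h⟩ := forces_equal_iff (S := S) t₁ t₂
    intro v p q hp hq
    exact (h v q).2 (((h v p).1 hp).mono hq)
  | rel R ts =>
    obtain ⟨i, j, h⟩ := forces_rel_iff (S := S) R ts
    intro v p q hp hq
    exact (h v q).2 (((h v p).1 hp).mono hq)
  | imp φ ψ _ _ => intro v p q hp hq r hr; exact hp r (hr.trans hq)
  | all φ ih => intro v p q hp hq x hx; exact ih (hp x hx) hq

theorem Forces.of_dense {n : ℕ} {φ : setL.BoundedFormula Empty n} :
    ∀ {v : Fin n → Name S.P} {p : S.P}, (∀ q ≤ p, ∃ r ≤ q, S.Forces φ v r) → S.Forces φ v p := by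
  induction φ with
  | falsum => intro v p h; obtain ⟨r, _, hr⟩ := h p le_rfl; exact hr
  | equal t₁ t₂ =>
    obtain ⟨i, j, h⟩ := forces_equal_iff (S := S) t₁ t₂
    intro v p hp
    exact (h v p).2 (FEq.of_dense fun q hq => (hp q hq).imp fun r hr => ⟨hr.1, (h v r).1 hr.2⟩)
  | rel R ts =>
    obtain ⟨i, j, h⟩ := forces_rel_iff (S := S) R ts
    intro v p hp
    exact (h v p).2 (FMem.of_dense fun q hq => (hp q hq).imp fun r hr => ⟨hr.1, (h v r).1 hr.2⟩)
  | imp φ ψ _ ih =>
    intro v p hp q hq hφ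
    refine ih fun r hr => ?_
    obtain ⟨s, hs, h⟩ := hp r (hr.trans hq)
    exact ⟨s, hs, h s le_rfl (hφ.mono (hs.trans hr))⟩
  | all φ ih =>
    intro v p hp x hx
    refine ih fun q hq => ?_
    obtain ⟨r, hr, h⟩ := hp q hq
    exact ⟨r, hr, h x hx⟩

theorem forces_congr {n : ℕ} {φ : setL.BoundedFormula Empty n} :
    ∀ {v v' : Fin n → Name S.P} {p : S.P}, (∀ i, FEq (v i) (v' i) p) →
      (S.Forces φ v p ↔ S.Forces φ v' p) := by
  induction φ with
  | falsum => intro v v' p _; exact Iff.rfl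
  | equal t₁ t₂ =>
    obtain ⟨i, j, h⟩ := forces_equal_iff (S := S) t₁ t₂
    intro v v' p he
    rw [h, h]
    exact ⟨fun h' => (he i).symm.trans (h'.trans (he j)),
      fun h' => (he i).trans (h'.trans (he j).symm)⟩
  | rel R ts =>
    obtain ⟨i, j, h⟩ := forces_rel_iff (S := S) R ts
    intro v v' p he
    rw [h, h]
    exact ⟨fun h' => (h'.congr_left (he i)).congr_right (he j),
      fun h' => (h'.congr_left (he i).symm).congr_right (he j).symm⟩
  | imp φ ψ ih₁ ih₂ =>
    intro v v' p he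
    refine forall₂_congr fun q hq => ?_
    rw [ih₁ fun i => (he i).mono hq, ih₂ fun i => (he i).mono hq]
  | all φ ih =>
    intro v v' p he
    refine forall₂_congr fun x _ => ih fun i => ?_
    refine Fin.lastCases ?_ (fun j => ?_) i
    · simpa using FEq.refl x p
    · simpa using he j

theorem Forces.congr {n : ℕ} {φ : setL.BoundedFormula Empty n} {v v' : Fin n → Name S.P}
    {p : S.P} (h : S.Forces φ v p) (he : ∀ i, FEq (v i) (v' i) p) : S.Forces φ v' p :=
  (forces_congr he).1 h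

theorem smul_snoc {n : ℕ} (g : S.G) (v : Fin n → Name S.P) (x : Name S.P) :
    (fun i => g • (Fin.snoc v x : Fin (n + 1) → Name S.P) i) =
      Fin.snoc (fun i => g • v i) (g • x) := by
  funext i
  refine Fin.lastCases ?_ (fun j => ?_) i <;> simp

theorem forces_smul_iff {n : ℕ} {φ : setL.BoundedFormula Empty n} (g : S.G) :
    ∀ {v : Fin n → Name S.P} {p : S.P},
      S.Forces φ (fun i => g • v i) (g • p) ↔ S.Forces φ v p := by
  induction φ with
  | falsum => intro v p; exact Iff.rfl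
  | equal t₁ t₂ =>
    obtain ⟨i, j, h⟩ := forces_equal_iff (S := S) t₁ t₂
    intro v p
    rw [h, h]; exact feq_smul_iff g
  | rel R ts =>
    obtain ⟨i, j, h⟩ := forces_rel_iff (S := S) R ts
    intro v p
    rw [h, h]; exact fmem_smul_iff g
  | imp φ ψ ih₁ ih₂ =>
    intro v p
    constructor
    · intro h q hq hφ
      exact ih₂.1 (h (g • q) (S.smul_mono g _ _ hq) (ih₁.2 hφ))
    · intro h q hq hφ
      have e : q = g • g⁻¹ • q := by simp
      rw [e] at hφ ⊢
      exact ih₂.2 (h _ ((le_smul_iff g).1 hq) (ih₁.1 hφ))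
  | all φ ih =>
    intro v p
    constructor
    · intro h x hx
      have := h (g • x) (hx.smul g)
      rw [← smul_snoc] at this
      exact ih.1 this
    · intro h x hx
      have := ih.2 (h (g⁻¹ • x) (hx.smul g⁻¹))
      rw [smul_snoc] at this
      simpa using this

/-- A formula whose parameters are supported by `w` is forced invariantly under `K w`. -/
theorem Forces.smul_of_supp {n : ℕ} {φ : setL.BoundedFormula Empty n} {v : Fin n → Name S.P}
    {p : S.P} (h : S.Forces φ v p) {w : S.L} (hv : ∀ i, S.Supp w (v i)) {k : S.G}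
    (hk : k ∈ S.K w) : S.Forces φ v (k • p) :=
  ((forces_smul_iff k).2 h).congr fun i => (hv i).feq hk _

@[simp] theorem forces_not {n : ℕ} (φ : setL.BoundedFormula Empty n) (v : Fin n → Name S.P)
    (p : S.P) : S.Forces (∼φ) v p ↔ ∀ q ≤ p, ¬ S.Forces φ v q := Iff.rfl

@[simp] theorem forces_inf {n : ℕ} (φ ψ : setL.BoundedFormula Empty n) (v : Fin n → Name S.P)
    (p : S.P) : S.Forces (φ ⊓ ψ) v p ↔ S.Forces φ v p ∧ S.Forces ψ v p := by
  change (∀ q ≤ p, ¬ ∀ r ≤ q, S.Forces φ v r → ∀ s ≤ r, ¬ S.Forces ψ v s) ↔ _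
  constructor
  · intro h
    constructor
    · refine Forces.of_dense fun q hq => ?_
      have := h q hq
      push Not at this
      obtain ⟨r, hr, h₁, -⟩ := this
      exact ⟨r, hr, h₁⟩
    · refine Forces.of_dense fun q hq => ?_
      have := h q hq
      push Not at this
      obtain ⟨r, hr, -, s, hs, h₂⟩ := this
      exact ⟨s, hs.trans hr, h₂⟩
  · rintro ⟨h₁, h₂⟩ q hq h
    exact h q le_rfl (h₁.mono hq) q le_rfl (h₂.mono hq)

@[simp] theorem forces_sup {n : ℕ} (φ ψ : setL.BoundedFormula Empty n) (v : Fin n → Name S.P)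
    (p : S.P) : S.Forces (φ ⊔ ψ) v p ↔ ∀ q ≤ p, ∃ r ≤ q, S.Forces φ v r ∨ S.Forces ψ v r := by
  change (∀ q ≤ p, (∀ r ≤ q, ¬ S.Forces φ v r) → S.Forces ψ v q) ↔ _
  constructor
  · intro h q hq
    by_cases hφ : ∃ r ≤ q, S.Forces φ v r
    · obtain ⟨r, hr, h'⟩ := hφ
      exact ⟨r, hr, Or.inl h'⟩
    · push Not at hφ
      exact ⟨q, le_rfl, Or.inr (h q hq hφ)⟩
  · intro h q hq hφ
    refine Forces.of_dense fun r hr => ?_
    obtain ⟨s, hs, h' | h'⟩ := h r (hr.trans hq)
    · exact absurd h' (hφ s (hs.trans hr))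
    · exact ⟨s, hs, h'⟩

@[simp] theorem forces_iff {n : ℕ} (φ ψ : setL.BoundedFormula Empty n) (v : Fin n → Name S.P)
    (p : S.P) : S.Forces (φ ⇔ ψ) v p ↔ ∀ q ≤ p, (S.Forces φ v q ↔ S.Forces ψ v q) := by
  change S.Forces ((φ ⟹ ψ) ⊓ (ψ ⟹ φ)) v p ↔ _
  rw [forces_inf, forces_imp, forces_imp]
  exact ⟨fun h q hq => ⟨h.1 q hq, h.2 q hq⟩, fun h => ⟨fun q hq => (h q hq).1, fun q hq => (h q hq).2⟩⟩

@[simp] theorem forces_ex {n : ℕ} (φ : setL.BoundedFormula Empty (n + 1)) (v : Fin n → Name S.P)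
    (p : S.P) : S.Forces (∃' φ) v p ↔
      ∀ q ≤ p, ∃ r ≤ q, ∃ x, S.HS x ∧ S.Forces φ (Fin.snoc v x) r := by
  change (∀ q ≤ p, ¬ ∀ x, S.HS x → ∀ r ≤ q, ¬ S.Forces φ (Fin.snoc v x) r) ↔ _
  refine forall₂_congr fun q _ => ?_
  push Not
  exact ⟨fun ⟨x, hx, r, hr, h⟩ => ⟨r, hr, x, hx, h⟩, fun ⟨r, hr, x, hx, h⟩ => ⟨x, hx, r, hr, h⟩⟩

theorem forces_ex_of {n : ℕ} {φ : setL.BoundedFormula Empty (n + 1)} {v : Fin n → Name S.P}
    {p : S.P} (x : Name S.P) (hx : S.HS x) (h : S.Forces φ (Fin.snoc v x) p) :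
    S.Forces (∃' φ) v p :=
  (forces_ex _ _ _).2 fun q hq => ⟨q, le_rfl, x, hx, h.mono hq⟩

/-- Every formula is decided by some extension. -/
theorem exists_decide {n : ℕ} (φ : setL.BoundedFormula Empty n) (v : Fin n → Name S.P) (p : S.P) :
    ∃ q ≤ p, S.Forces φ v q ∨ S.Forces (∼φ) v q := by
  by_cases h : ∃ q ≤ p, S.Forces φ v q
  · obtain ⟨q, hq, h⟩ := h
    exact ⟨q, hq, Or.inl h⟩
  · push Not at h
    exact ⟨p, le_rfl, Or.inr h⟩

theorem forces_alls {n : ℕ} (φ : setL.BoundedFormula Empty n) (p : S.P) :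
    S.Forces (n := 0) φ.alls Fin.elim0 p ↔
      ∀ v : Fin n → Name S.P, (∀ i, S.HS (v i)) → S.Forces φ v p := by
  induction n with
  | zero =>
    refine ⟨fun h v _ => ?_, fun h => h _ fun i => i.elim0⟩
    rw [Subsingleton.elim v Fin.elim0]; exact h
  | succ n ih =>
    rw [BoundedFormula.alls, ih]
    constructor
    · intro h v hv
      have := h (Fin.init v) (fun i => hv _) (v (Fin.last n)) (hv _)
      rwa [Fin.snoc_init_self] at this
    · intro h v hv x hx
      refine h _ fun i => ?_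
      refine Fin.lastCases ?_ (fun j => ?_) i
      · simpa using hx
      · simpa using hv j

theorem forces_castLE_of_eq {m n : ℕ} (h : m = n) {h' : m ≤ n} {φ : setL.BoundedFormula Empty m}
    {v : Fin n → Name S.P} {p : S.P} :
    S.Forces (φ.castLE h') v p ↔ S.Forces φ (v ∘ Fin.cast h) p := by
  subst h
  simp only [BoundedFormula.castLE_rfl, Fin.cast_refl, Function.comp_id]

theorem forces_liftAt {n n' m : ℕ} {φ : setL.BoundedFormula Empty n}
    {v : Fin (n + n') → Name S.P} {p : S.P} (hmn : m ≤ n) :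
    S.Forces (φ.liftAt n' m) v p ↔
      S.Forces φ (v ∘ fun i => if ↑i < m then Fin.castAdd n' i else Fin.addNat i n') p := by
  have key : ∀ {k : ℕ} (t : setL.Term (Empty ⊕ Fin k)) (v : Fin (k + n') → Name S.P),
      (t.liftAt n' m).realize (Sum.elim Empty.elim v) = t.realize (Sum.elim Empty.elim
        (v ∘ fun i : Fin k => if ↑i < m then Fin.castAdd n' i else Fin.addNat i n')) := by
    intro k t v
    rw [Term.realize_liftAt]
    congr 1
    funext a
    rcases a with a | a
    · exact a.elim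
    · rfl
  rw [BoundedFormula.liftAt]
  induction φ generalizing p with
  | falsum => exact Iff.rfl
  | equal t₁ t₂ => simp only [BoundedFormula.mapTermRel, Forces, key]
  | rel R ts => simp only [BoundedFormula.mapTermRel, Forces, key, id]
  | imp _ _ ih1 ih2 => simp only [BoundedFormula.mapTermRel, Forces, ih1 hmn, ih2 hmn]
  | @all k _ ih3 =>
    have h : k + 1 + n' = k + n' + 1 := by rw [add_assoc, add_comm 1 n', ← add_assoc]
    simp only [BoundedFormula.mapTermRel, Forces, forces_castLE_of_eq h,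
      ih3 (hmn.trans k.le_succ)]
    refine forall₂_congr fun x _ => iff_eq_eq.mpr
      (congrFun (congr rfl (funext (Fin.lastCases ?_ fun i => ?_))) p)
    · simp only [Function.comp_apply, Fin.val_last, Fin.snoc_last]
      refine (congr rfl (Fin.ext ?_)).trans (Fin.snoc_last _ _)
      split_ifs <;> dsimp; lia
    · simp only [Function.comp_apply, Fin.snoc_castSucc]
      refine (congr rfl (Fin.ext ?_)).trans (Fin.snoc_castSucc _ _ _)
      simp only [Fin.val_castSucc, Fin.val_cast]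
      split_ifs <;> simp

end Sys

end Crest.Agent.R296
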