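import Crest.Agent.R296.CondDefs
import Crest.Agent.R296.Formula

/-!
Row 296: the symmetric system of a frame, support filters, and the statements of the remaining
steps.
-/

set_option autoImplicit false

open FirstOrder FirstOrder.Language Crest.LogicCS.SetTheory

namespace Crest.Agent.R296

open Name Cond

/-- The symmetric system of a frame: supports are point stabilisers. -/
@[reducible] def Frame.sys (F : Frame) : Sys where
  P := Cond F
  G := F.G
  smul_mono := Cond.smul_mono
  L := F.L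
  K w := MulAction.stabilizer F.G w
  ne := F.ne
  dir a b := by
    obtain ⟨z, ha, hb⟩ := F.directed a b
    exact ⟨z, fun k hk => F.fix_below k z a hk ha.le, fun k hk => F.fix_below k z b hk hb.le⟩
  conj g a := ⟨g • a, fun k hk => by
    rw [MulAction.mem_stabilizer_iff] at hk ⊢
    rw [mul_smul, mul_smul, hk, inv_smul_smul]⟩

namespace Frame

variable (F : Frame)

/-- `t` forces `y` to equal a hereditarily symmetric name supported by `w`. -/
def Sup (w : F.L) (y : Name (Cond F)) (t : Cond F) : Prop :=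
  ∃ z, F.sys.HS z ∧ F.sys.Supp w z ∧ FEq y z t

/-- The supports above `c` of the value of `y` that are already seen by `t`. -/
def piSet (c : F.L) (y : Name (Cond F)) (t : Cond F) : Set F.L := {u | c ≤ u ∧ F.Sup u y t}

/-- `r` decides the support filter of `y` above `c`. -/
def Stable (c : F.L) (y : Name (Cond F)) (r : Cond F) : Prop :=
  ∀ t ≤ r, F.piSet c y t ⊆ F.piSet c y r

/-- A group element fixing `c` and preserving the support filter, and compatible with `r`, fixes a
member of the filter. -/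
def Rigid (c : F.L) (y : Name (Cond F)) (r : Cond F) : Prop :=
  ∀ k : F.G, k • c = c → (∀ u, u ∈ F.piSet c y r ↔ k • u ∈ F.piSet c y r) → Compat r (k • r) →
    ∃ w ∈ F.piSet c y r, k • w = w

end Frame

/-! ### General forcing statements -/

def ZFBasicStmt : Prop := ∀ S : Sys,
  S.Valid extAx ∧ S.Valid pairAx ∧ S.Valid unionAx ∧ S.Valid infAx ∧ S.Valid foundAx

def ZFSchemeStmt : Prop := ∀ S : Sys,
  S.Valid powerAx ∧ (∀ k φ, S.Valid (sepAx k φ)) ∧ ∀ k φ, S.Valid (replAx k φ)

def ExtractStmt : Prop := ∀ (S : Sys) (T : setL.Theory), (∀ φ ∈ T, S.Valid φ) → T.IsSatisfiable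

def SyntaxStmt : Prop := ∀ S : Sys,
  (S.PPSem → S.Valid ppAx) ∧ (S.NotACSem → S.Valid (∼acAx))

/-- Choice along ordinals; the action is assumed to fix the top condition. -/
def SyntaxWOStmt : Prop := ∀ S : Sys, (∀ g : S.G, g • (⊤ : S.P) = ⊤) → S.ACWOSem → S.Valid acwoAx

/-! ### Statements about the system of a frame -/

/-- The supports of a value are closed under meets. -/
def SupInfStmt : Prop := ∀ F : Frame, CondAPI F → ∀ (p q : F.L) (y : Name (Cond F)) (t : Cond F),
  F.Sup p y t → F.Sup q y t → F.Sup (p ⊓ q) y t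

/-- Densely many conditions decide the support filter. -/
def StableStmt : Prop := ∀ F : Frame, CondAPI F →
  (∀ (p q : F.L) (y : Name (Cond F)) (t : Cond F), F.Sup p y t → F.Sup q y t → F.Sup (p ⊓ q) y t) →
  ∀ (c : F.L) (y : Name (Cond F)), F.sys.HS y → ∀ t : Cond F,
    ∃ r ≤ t, F.Stable c y r ∧ ∃ α, IsFilt F.st α (F.piSet c y r)

/-- Restriction to a support keeps a stable condition stable, and stable conditions extend to rigid
ones. -/
def RigidStmt : Prop := ∀ F : Frame, CondAPI F →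
  (∀ (p q : F.L) (y : Name (Cond F)) (t : Cond F), F.Sup p y t → F.Sup q y t → F.Sup (p ⊓ q) y t) →
  ∀ (c a' : F.L) (y : Name (Cond F)), F.sys.HS y → F.sys.Supp a' y → c ≤ a' →
    (∀ r, F.Stable c y r → F.piSet c y (r.restrict (Set.Iic a')) = F.piSet c y r ∧
      F.Stable c y (r.restrict (Set.Iic a'))) ∧
    (∀ r α, F.Stable c y r → IsFilt F.st α (F.piSet c y r) →
      ∃ r' ≤ r, F.Rigid c y (r'.restrict (Set.Iic a')))

def PPStmt : Prop := SupInfStmt → StableStmt → RigidStmt → ConjStmt →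
  ∀ F : Frame, CondAPI F → F.sys.PPSem

def ACWOStmt : Prop := ∀ F : Frame, CondAPI F → F.sys.ACWOSem

def NotACStmt : Prop := ∀ F : Frame, CondAPI F → F.sys.NotACSem

/-- Final assembly. -/
theorem assemble (h₁ : SuccStmt) (h₂ : FinalOfSuccStmt) (h₃ : FrameStmt) (h₄ : CondStmt)
    (h₅ : ConjStmt) (z₁ : ZFBasicStmt) (z₂ : ZFSchemeStmt) (e : ExtractStmt) (s₁ : SyntaxStmt)
    (s₂ : SyntaxWOStmt) (b₁ : SupInfStmt) (b₂ : StableStmt) (b₃ : RigidStmt) (pp : PPStmt)
    (wo : ACWOStmt) (nac : NotACStmt) :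
    Theory.IsSatisfiable (ZF ∪ {ppAx, acwoAx, ∼acAx}) := by
  obtain ⟨F⟩ := h₃ (h₂ h₁)
  have api := h₄ F
  refine e F.sys _ ?_
  obtain ⟨a₁, a₂, a₃, a₄, a₅⟩ := z₁ F.sys
  obtain ⟨a₆, a₇, a₈⟩ := z₂ F.sys
  rintro φ (((hφ | hφ) | hφ) | hφ)
  · simp only [Set.mem_insert_iff, Set.mem_singleton_iff] at hφ
    rcases hφ with rfl | rfl | rfl | rfl | rfl | rfl <;> assumption
  · simp only [Set.mem_iUnion, Set.mem_range] at hφ
    obtain ⟨k, ψ, rfl⟩ := hφ
    exact a₇ k ψ
  · simp only [Set.mem_iUnion, Set.mem_range] at hφ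
    obtain ⟨k, ψ, rfl⟩ := hφ
    exact a₈ k ψ
  · simp only [Set.mem_insert_iff, Set.mem_singleton_iff] at hφ
    rcases hφ with rfl | rfl | rfl
    · exact (s₁ F.sys).1 (pp b₁ b₂ b₃ h₅ F api)
    · exact s₂ F.sys (fun g => rfl) (wo F api)
    · exact (s₁ F.sys).2 (nac F api)

end Crest.Agent.R296
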