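import Crest.Agent.R296.Defs

/-!
Row 296: a theory forced by a symmetric system has a model (Henkin / Rasiowa–Sikorski
construction of a countable generic submodel).
-/

set_option autoImplicit false

open FirstOrder FirstOrder.Language Crest.LogicCS.SetTheory

namespace Crest.Agent.R296

open Name

namespace Extract

theorem countable_setRel (l : ℕ) : Countable (setL.Relations l) := by
  have : Subsingleton (setL.Relations l) := ⟨fun a b => by cases a; cases b; rfl⟩
  infer_instance

theorem countable_symbols : Countable setL.Symbols := by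
  have h₁ : ∀ l, Countable (setL.Functions l) := fun _ => (inferInstance : Countable Empty)
  have h₂ := countable_setRel
  exact (inferInstance : Countable ((Σ l, setL.Functions l) ⊕ (Σ l, setL.Relations l)))

theorem countable_formula (n : ℕ) : Countable (setL.BoundedFormula Empty n) := by
  have := countable_symbols
  exact (sigma_mk_injective (β := fun n => setL.BoundedFormula Empty n) (i := n)).countable

/-- The tasks of the construction. -/
def Task : Type :=
  Σ n : ℕ, setL.BoundedFormula Empty n × setL.BoundedFormula Empty (n + 1) × (Fin n → ℕ)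

theorem exists_enum : ∃ e : ℕ → Task, ∀ t B, ∃ k, B ≤ k ∧ e k = t := by
  have := countable_formula
  have hc : Countable Task := (inferInstance : Countable
    (Σ n : ℕ, setL.BoundedFormula Empty n × setL.BoundedFormula Empty (n + 1) × (Fin n → ℕ)))
  have hn : Nonempty Task := ⟨⟨0, ⊥, ⊥, Fin.elim0⟩⟩
  obtain ⟨f, hf⟩ := exists_surjective_nat Task
  refine ⟨fun k => f k.unpair.1, fun t B => ?_⟩
  obtain ⟨a, rfl⟩ := hf t
  exact ⟨Nat.pair a B, Nat.right_le_pair _ _, by simp⟩

variable {S : Sys}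

/-- One step: decide a formula and a universal statement (with a witness). -/
theorem step {n : ℕ} (φ : setL.BoundedFormula Empty n) (ψ : setL.BoundedFormula Empty (n + 1))
    (v : Fin n → Name S.P) (p : S.P) :
    ∃ z : S.P × Name S.P, z.1 ≤ p ∧ S.HS z.2 ∧ (S.Forces φ v z.1 ∨ S.Forces (∼φ) v z.1) ∧
      (S.Forces (∀' ψ) v z.1 ∨ S.Forces (∼ψ) (Fin.snoc v z.2) z.1) := by
  obtain ⟨q, hq, hφ⟩ := Sys.exists_decide φ v p
  by_cases h : S.Forces (∀' ψ) v q
  · exact ⟨(q, S.emptyN), hq, Sys.hs_emptyN, hφ, Or.inl h⟩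
  · rw [Sys.forces_all] at h
    push Not at h
    obtain ⟨x, hx, h⟩ := h
    have h' : ∃ r ≤ q, ∀ s ≤ r, ¬ S.Forces ψ (Fin.snoc v x) s := by
      by_contra hc
      push Not at hc
      exact h (Sys.Forces.of_dense hc)
    obtain ⟨r, hr, h'⟩ := h'
    exact ⟨(r, x), hr.trans hq, hx, hφ.imp (·.mono hr) (·.mono hr), Or.inr h'⟩

/-- The state after `k` steps. -/
noncomputable def state (S : Sys) (e : ℕ → Task) : ℕ → S.P × (ℕ → Name S.P)
  | 0 => (⊤, fun _ => S.emptyN)
  | k + 1 =>
    let s := state S e k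
    let z := Classical.choose (step (e k).2.1 (e k).2.2.1 (fun i => s.2 ((e k).2.2.2 i)) s.1)
    (z.1, Function.update s.2 k z.2)

/-- A decreasing sequence of conditions and a sequence of names that decide everything. -/
theorem exists_generic (S : Sys) : ∃ (p : ℕ → S.P) (ν : ℕ → Name S.P), Antitone p ∧
    (∀ i, S.HS (ν i)) ∧
    (∀ (n : ℕ) (φ : setL.BoundedFormula Empty n) (idx : Fin n → ℕ), ∃ k,
      S.Forces φ (fun i => ν (idx i)) (p k) ∨ S.Forces (∼φ) (fun i => ν (idx i)) (p k)) ∧
    (∀ (n : ℕ) (ψ : setL.BoundedFormula Empty (n + 1)) (idx : Fin n → ℕ), ∃ k,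
      S.Forces (∀' ψ) (fun i => ν (idx i)) (p k) ∨
        ∃ j, S.Forces (∼ψ) (Fin.snoc (fun i => ν (idx i)) (ν j)) (p k)) := by
  obtain ⟨e, he⟩ := exists_enum
  set s := state S e with hs
  let z : ℕ → S.P × Name S.P := fun k =>
    Classical.choose (step (e k).2.1 (e k).2.2.1 (fun i => (s k).2 ((e k).2.2.2 i)) (s k).1)
  have hz : ∀ k, (z k).1 ≤ (s k).1 ∧ S.HS (z k).2 ∧
      (S.Forces (e k).2.1 (fun i => (s k).2 ((e k).2.2.2 i)) (z k).1 ∨
        S.Forces (∼(e k).2.1) (fun i => (s k).2 ((e k).2.2.2 i)) (z k).1) ∧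
      (S.Forces (∀' (e k).2.2.1) (fun i => (s k).2 ((e k).2.2.2 i)) (z k).1 ∨
        S.Forces (∼(e k).2.2.1) (Fin.snoc (fun i => (s k).2 ((e k).2.2.2 i)) (z k).2) (z k).1) :=
    fun k => Classical.choose_spec
      (step (e k).2.1 (e k).2.2.1 (fun i => (s k).2 ((e k).2.2.2 i)) (s k).1)
  have h1 : ∀ k, (s (k + 1)).1 = (z k).1 := fun k => rfl
  have h2 : ∀ k, (s (k + 1)).2 = Function.update (s k).2 k (z k).2 := fun k => rfl
  have hst : ∀ k i, i < k → (s k).2 i = (z i).2 := by
    intro k
    induction k with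
    | zero => intro i hi; omega
    | succ k ih =>
      intro i hi
      rw [h2]
      rcases Nat.lt_succ_iff_lt_or_eq.1 hi with h | rfl
      · rw [Function.update_of_ne h.ne, ih i h]
      · rw [Function.update_self]
  have key : ∀ (n : ℕ) (φ : setL.BoundedFormula Empty n) (ψ : setL.BoundedFormula Empty (n + 1))
      (idx : Fin n → ℕ), ∃ k,
      (S.Forces φ (fun i => (z (idx i)).2) (z k).1 ∨
        S.Forces (∼φ) (fun i => (z (idx i)).2) (z k).1) ∧
      (S.Forces (∀' ψ) (fun i => (z (idx i)).2) (z k).1 ∨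
        S.Forces (∼ψ) (Fin.snoc (fun i => (z (idx i)).2) (z k).2) (z k).1) := by
    intro n φ ψ idx
    obtain ⟨k, hk, hek⟩ := he ⟨n, φ, ψ, idx⟩ (Finset.univ.sup idx + 1)
    have hv : (fun i => (s k).2 (idx i)) = fun i => (z (idx i)).2 := by
      funext i
      have : idx i ≤ Finset.univ.sup idx := Finset.le_sup (f := idx) (Finset.mem_univ i)
      exact hst k _ (by omega)
    have h := (hz k).2.2
    refine ⟨k, ?_⟩
    rw [← hv]
    generalize z k = zk at h ⊢
    rw [hek] at h
    exact h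
  refine ⟨fun k => (z k).1, fun i => (z i).2, antitone_nat_of_succ_le fun k => ?_,
    fun i => (hz i).2.1, fun n φ idx => ?_, fun n ψ idx => ?_⟩
  · exact (hz (k + 1)).1
  · obtain ⟨k, h, -⟩ := key n φ ⊥ idx
    exact ⟨k, h⟩
  · obtain ⟨k, -, h⟩ := key n ⊥ ψ idx
    exact ⟨k, h.imp id fun h => ⟨k, h⟩⟩

/-- Every term of the language of set theory is a bound variable. -/
theorem exists_var {n : ℕ} (t : setL.Term (Empty ⊕ Fin n)) : ∃ i : Fin n, t = &i := by
  cases t with
  | var a =>
    rcases a with a | i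
    · exact a.elim
    · exact ⟨i, rfl⟩
  | func f _ => exact Empty.elim f

section model

variable (p : ℕ → S.P) (ν : ℕ → Name S.P) (hp : Antitone p)

/-- Indices of names forced to be equal. -/
def setoid : Setoid ℕ where
  r i j := ∃ k, FEq (ν i) (ν j) (p k)
  iseqv :=
    { refl := fun _ => ⟨0, FEq.refl _ _⟩
      symm := fun ⟨k, h⟩ => ⟨k, h.symm⟩
      trans := fun ⟨k, h⟩ ⟨l, h'⟩ => ⟨max k l, (h.mono (hp (le_max_left _ _))).trans
        (h'.mono (hp (le_max_right _ _)))⟩ }

/-- The underlying type of the model. -/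
def Mod : Type := Quotient (setoid p ν hp)

/-- The name of an element of the model. -/
noncomputable def val (x : Mod p ν hp) : Name S.P := ν (Quotient.out x)

/-- The membership relation of the model. -/
def relM : ∀ {l : ℕ}, SetRel l → (Fin l → Mod p ν hp) → Prop
  | _, SetRel.mem, xs => ∃ k, FMem (val p ν hp (xs 0)) (val p ν hp (xs 1)) (p k)

instance : setL.Structure (Mod p ν hp) where
  funMap f _ := Empty.elim f
  RelMap R xs := relM p ν hp R xs

instance : Nonempty (Mod p ν hp) := ⟨Quotient.mk _ 0⟩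

theorem val_snoc {n : ℕ} (xs : Fin n → Mod p ν hp) (x : Mod p ν hp) :
    (fun i => val p ν hp ((Fin.snoc xs x : Fin (n + 1) → Mod p ν hp) i)) =
      Fin.snoc (fun i => val p ν hp (xs i)) (val p ν hp x) := by
  funext i
  refine Fin.lastCases ?_ (fun j => ?_) i <;> simp

/-- The truth lemma. -/
theorem truth (hν : ∀ i, S.HS (ν i))
    (hd : ∀ (n : ℕ) (φ : setL.BoundedFormula Empty n) (idx : Fin n → ℕ), ∃ k,
      S.Forces φ (fun i => ν (idx i)) (p k) ∨ S.Forces (∼φ) (fun i => ν (idx i)) (p k))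
    (hw : ∀ (n : ℕ) (ψ : setL.BoundedFormula Empty (n + 1)) (idx : Fin n → ℕ), ∃ k,
      S.Forces (∀' ψ) (fun i => ν (idx i)) (p k) ∨
        ∃ j, S.Forces (∼ψ) (Fin.snoc (fun i => ν (idx i)) (ν j)) (p k))
    {n : ℕ} (φ : setL.BoundedFormula Empty n) : ∀ xs : Fin n → Mod p ν hp,
      φ.Realize (default : Empty → Mod p ν hp) xs ↔
        ∃ k, S.Forces φ (fun i => val p ν hp (xs i)) (p k) := by
  induction φ with
  | falsum => intro xs; exact ⟨False.elim, fun ⟨_, h⟩ => h⟩
  | equal t₁ t₂ =>
    intro xs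
    obtain ⟨i, rfl⟩ := exists_var t₁
    obtain ⟨j, rfl⟩ := exists_var t₂
    change xs i = xs j ↔ ∃ k, FEq (ν (Quotient.out (xs i))) (ν (Quotient.out (xs j))) (p k)
    exact (Quotient.out_equiv_out (s := setoid p ν hp)).symm
  | rel R ts =>
    intro xs
    cases R
    obtain ⟨i, hi⟩ := exists_var (ts 0)
    obtain ⟨j, hj⟩ := exists_var (ts 1)
    change (∃ k, FMem (val p ν hp ((ts 0).realize (Sum.elim default xs)))
        (val p ν hp ((ts 1).realize (Sum.elim default xs))) (p k)) ↔
      ∃ k, FMem ((ts 0).realize (Sum.elim Empty.elim fun i => val p ν hp (xs i)))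
        ((ts 1).realize (Sum.elim Empty.elim fun i => val p ν hp (xs i))) (p k)
    rw [hi, hj]
    rfl
  | @imp n φ ψ ih₁ ih₂ =>
    intro xs
    rw [BoundedFormula.realize_imp, ih₁, ih₂]
    constructor
    · intro h
      obtain ⟨k, hk | hk⟩ := hd n φ fun i => Quotient.out (xs i)
      · obtain ⟨l, hl⟩ := h ⟨k, hk⟩
        exact ⟨l, fun q hq _ => hl.mono hq⟩
      · exact ⟨k, fun q hq h' => (hk q hq h').elim⟩
    · rintro ⟨k, hk⟩ ⟨l, hl⟩
      exact ⟨max k l, hk _ (hp (le_max_left _ _)) (hl.mono (hp (le_max_right _ _)))⟩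
  | @all n ψ ih =>
    intro xs
    rw [BoundedFormula.realize_all]
    constructor
    · intro h
      obtain ⟨k, hk | ⟨j, hk⟩⟩ := hw n ψ fun i => Quotient.out (xs i)
      · exact ⟨k, hk⟩
      · exfalso
        obtain ⟨l, hl⟩ := (ih _).1 (h (Quotient.mk _ j))
        rw [val_snoc] at hl
        obtain ⟨m, hm⟩ : ∃ m, FEq (val p ν hp (Quotient.mk _ j)) (ν j) (p m) :=
          Quotient.mk_out (s := setoid p ν hp) j
        refine hk (p (max k (max l m))) (hp (le_max_left _ _)) ?_
        refine (hl.mono (hp ((le_max_left _ _).trans (le_max_right _ _)))).congr fun i => ?_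
        refine Fin.lastCases ?_ (fun i => ?_) i
        · simpa using hm.mono (hp ((le_max_right _ _).trans (le_max_right _ _)))
        · simp only [Fin.snoc_castSucc]
          exact FEq.refl _ _
    · rintro ⟨k, hk⟩ x
      refine (ih _).2 ⟨k, ?_⟩
      rw [val_snoc]
      exact hk _ (hν _)

end model

end Extract

/-- A theory forced by a symmetric system has a model. -/
theorem extractStmt : ExtractStmt := by
  intro S T hT
  obtain ⟨p, ν, hp, hν, hd, hw⟩ := Extract.exists_generic S
  have : Extract.Mod p ν hp ⊨ T := ⟨fun φ hφ => by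
    have h := (Extract.truth p ν hp hν hd hw (n := 0) φ default).2
      ⟨0, by
        have h₀ : S.Forces (n := 0) φ Fin.elim0 ⊤ := hT φ hφ
        rw [Subsingleton.elim (fun i => Extract.val p ν hp ((default : Fin 0 → _) i)) Fin.elim0]
        exact h₀.mono le_top⟩
    exact h⟩
  exact Theory.Model.isSatisfiable (Extract.Mod p ν hp)

end Crest.Agent.R296
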