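import Crest.Agent.R296.MonDefs

/-!
Row 296: iterating the successor step along all ordinals (by Zorn's lemma).
-/

set_option autoImplicit false

namespace Crest.Agent.R296

open Set Function

noncomputable section

lemma f0_antisymm {M : Type 1} [Monoid M] {h : M → ℝ} (hM : Good M h) {s t : M} (h1 : s ∣ t)
    (h2 : t ∣ s) : s = t := by
  obtain ⟨u, rfl⟩ := h1
  obtain ⟨v, hv⟩ := h2
  have h3 : (1 : M) = u * v := hM.cancel s _ _ (by rw [mul_one, ← mul_assoc, ← hv])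
  rw [hM.unit u v h3.symm, mul_one]

lemma f0_meet_unique {M : Type 1} [Monoid M] {h : M → ℝ} (hM : Good M h) {s t m m' : M}
    (h1 : IsMeet s t m) (h2 : IsMeet s t m') : m = m' :=
  f0_antisymm hM ((h1 _).2 ((h2 _).1 dvd_rfl)) ((h2 _).2 ((h1 _).1 dvd_rfl))

/-- The clause `step` of `IsFinal` at one element. -/
def F0StepAt {M : Type 1} [Monoid M] (st : M → Ordinal.{0}) (len : M → ℕ) (u : M) : Prop :=
  ∃ u₁, u ∣ u₁ ∧ (st u₁ < st u ∨ (st u₁ = st u ∧ len u₁ < len u)) ∧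
    ∀ o, st o < st u → o ∣ u ∨ ∀ v, u ∣ v → o ∣ v → u₁ ∣ v

/-- The clause `task` of `IsFinal` at one task. -/
def F0TaskAt {M : Type 1} [Monoid M] (st : M → Ordinal.{0}) (α : Ordinal.{0}) (τ : Task M) :
    Prop :=
  ∃ x₁ x₂ : M, st x₁ = α ∧ st x₂ = α ∧
    x₁ * τ.q = τ.q₁ ∧ x₂ * τ.q = τ.q₂ ∧ x₁ * τ.p = x₂ * τ.p ∧
    (∀ v, x₁ ∣ v → x₂ ∣ v → x₁ * τ.p ∣ v) ∧
    (∀ e ∈ τ.E, e ∣ x₁ ∧ e ∣ x₂) ∧
    (∀ o, st o < α → x₁ ∣ o → τ.q₁ ∣ o) ∧ (∀ o, st o < α → x₂ ∣ o → τ.q₂ ∣ o) ∧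
    (τ.q₁ = τ.q₂ → ∀ u z o : M, st u ≤ α → st o < α → x₁ ∣ z → u ∣ z → ¬ τ.q₁ ∣ z → u ∣ o →
      ¬ τ.q₁ ∣ o → ∃ e ∈ τ.E, u ∣ e)

/-- The data of an approximation; `e` is a label making the comparison maps unique. -/
structure F0Pre : Type 2 where
  I : Set Ordinal.{0}
  M : Type 1
  [mon : Monoid M]
  h : M → ℝ
  st : M → Ordinal.{0}
  len : M → ℕ
  e : M → Ordinal.{0}

attribute [instance] F0Pre.mon

namespace F0Pre

/-- The monoid built up to the stages in `I`. -/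
structure Ok (a : F0Pre) : Prop where
  lower : IsLowerSet a.I
  mem : ∀ x, a.st x ∈ a.I
  label : ∀ x y, a.st x = a.st y → a.e x = a.e y → x = y
  good : Good a.M a.h
  nontriv : ∃ b : a.M, b ≠ 1
  st_one : a.st 1 = 0
  st_mul : ∀ s t : a.M, a.st (s * t) ≤ max (a.st s) (a.st t)
  st_right : ∀ t s : a.M, a.st t ≤ a.st s → a.st s ≤ a.st (t * s)
  st_meet : ∀ s t m : a.M, IsMeet s t m → a.st m ≤ max (a.st s) (a.st t)
  small : ∀ α, Small.{0} {x : a.M // a.st x = α}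
  step : ∀ u : a.M, 0 < a.st u → F0StepAt a.st a.len u
  task : ∀ α ∈ a.I, ∀ τ : Task a.M, τ.ValidAt a.st α → F0TaskAt a.st α τ

/-- End extensions. -/
structure Ext (a b : F0Pre) (f : a.M →* b.M) : Prop where
  sub : a.I ⊆ b.I
  inj : Injective f
  h_eq : ∀ x, b.h (f x) = a.h x
  st_eq : ∀ x, b.st (f x) = a.st x
  len_eq : ∀ x, b.len (f x) = a.len x
  e_eq : ∀ x, b.e (f x) = a.e x
  surj : ∀ y, b.st y ∈ a.I → ∃ x, f x = y
  right : ∀ x y v, f y = f x * v → ∃ w, f w = v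
  meet : ∀ x y m, IsMeet x y m → IsMeet (f x) (f y) (f m)

variable {a b c : F0Pre}

lemma Ext.refl (a : F0Pre) : Ext a a (MonoidHom.id _) :=
  ⟨subset_rfl, injective_id, fun _ => rfl, fun _ => rfl, fun _ => rfl, fun _ => rfl,
    fun y _ => ⟨y, rfl⟩, fun _ _ v _ => ⟨v, rfl⟩, fun _ _ _ h => h⟩

lemma Ext.trans {f : a.M →* b.M} {g : b.M →* c.M} (hf : Ext a b f) (hg : Ext b c g) :
    Ext a c (g.comp f) where
  sub := hf.sub.trans hg.sub
  inj := hg.inj.comp hf.inj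
  h_eq x := (hg.h_eq _).trans (hf.h_eq x)
  st_eq x := (hg.st_eq _).trans (hf.st_eq x)
  len_eq x := (hg.len_eq _).trans (hf.len_eq x)
  e_eq x := (hg.e_eq _).trans (hf.e_eq x)
  surj y hy := by
    obtain ⟨z, rfl⟩ := hg.surj y (hf.sub hy)
    rw [hg.st_eq] at hy
    obtain ⟨x, rfl⟩ := hf.surj z hy
    exact ⟨x, rfl⟩
  right x y v hv := by
    obtain ⟨w, rfl⟩ := hg.right (f x) (f y) v hv
    obtain ⟨w', rfl⟩ := hf.right x y w (hg.inj (hv.trans (map_mul g _ _).symm))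
    exact ⟨w', rfl⟩
  meet x y m hm := hg.meet _ _ _ (hf.meet _ _ _ hm)

lemma Ext.dvd_iff {f : a.M →* b.M} (hf : Ext a b f) {x y : a.M} : f x ∣ f y ↔ x ∣ y := by
  refine ⟨fun ⟨v, hv⟩ => ?_, map_dvd f⟩
  obtain ⟨w, rfl⟩ := hf.right x y v hv
  exact ⟨w, hf.inj (hv.trans (map_mul f _ _).symm)⟩

lemma Ext.meet_of {f : a.M →* b.M} (hf : Ext a b f) {x y m : a.M}
    (hm : IsMeet (f x) (f y) (f m)) : IsMeet x y m := fun v => by
  rw [← hf.dvd_iff, hm (f v), hf.dvd_iff, hf.dvd_iff]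

/-- A common multiple property passes to an end extension. -/
lemma Ext.lcm {f : a.M →* b.M} (hf : Ext a b f) (ha : Ok a) {x y z : a.M}
    (h : ∀ v, x ∣ v → y ∣ v → z ∣ v) (v : b.M) (hx : f x ∣ v) (hy : f y ∣ v) : f z ∣ v := by
  obtain ⟨m, hm⟩ := ha.good.meet x y
  have h1 := (hm m).1 dvd_rfl
  exact (map_dvd f (h m h1.1 h1.2)).trans ((hf.meet _ _ _ hm v).2 ⟨hx, hy⟩)

lemma Ext.step {f : a.M →* b.M} (hf : Ext a b f) (ha : Ok a) {u : a.M}
    (hu : F0StepAt a.st a.len u) : F0StepAt b.st b.len (f u) := by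
  obtain ⟨u₁, h1, h2, h3⟩ := hu
  refine ⟨f u₁, map_dvd f h1, by simpa only [hf.st_eq, hf.len_eq] using h2, fun o ho => ?_⟩
  rw [hf.st_eq] at ho
  obtain ⟨o, rfl⟩ := hf.surj o (ha.lower ho.le (ha.mem u))
  rw [hf.st_eq] at ho
  exact (h3 o ho).imp (map_dvd f) fun h => hf.lcm ha h

/-- Tasks are pulled back along end extensions. -/
lemma Ext.pull {f : a.M →* b.M} (hf : Ext a b f) (ha : Good a.M a.h) (hb : Good b.M b.h)
    {α : Ordinal.{0}} (hα : Iio α ⊆ a.I) {τ' : Task b.M} (hτ : τ'.ValidAt b.st α) :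
    ∃ τ : Task a.M, τ.ValidAt a.st α ∧ f τ.p = τ'.p ∧ f τ.q = τ'.q ∧ f τ.q₁ = τ'.q₁ ∧
      f τ.q₂ = τ'.q₂ ∧ (∀ e, e ∈ τ.E ↔ f e ∈ τ'.E) ∧ ∀ e ∈ τ'.E, ∃ e₀, f e₀ = e := by
  obtain ⟨p, hp⟩ := hf.surj _ (hα hτ.st_p)
  obtain ⟨q, hq⟩ := hf.surj _ (hα hτ.st_q)
  obtain ⟨q₁, hq₁⟩ := hf.surj _ (hα hτ.st_q₁)
  obtain ⟨q₂, hq₂⟩ := hf.surj _ (hα hτ.st_q₂)
  have hE : ∀ e ∈ τ'.E, ∃ e₀, f e₀ = e := fun e he => hf.surj _ (hα (hτ.st_E e he))
  refine ⟨⟨p, q, q₁, q₂, f ⁻¹' τ'.E⟩, ?_, hp, hq, hq₁, hq₂, fun _ => Iff.rfl, hE⟩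
  refine ⟨by rw [← hf.st_eq, hp]; exact hτ.st_p, by rw [← hf.st_eq, hq]; exact hτ.st_q,
    by rw [← hf.st_eq, hq₁]; exact hτ.st_q₁, by rw [← hf.st_eq, hq₂]; exact hτ.st_q₂,
    fun e he => by rw [← hf.st_eq]; exact hτ.st_E _ he, ?_, ?_, ?_, ?_, ?_, ?_⟩
  · intro h
    refine hτ.q_ne ?_
    rw [← hq]
    exact (congrArg f h).trans (map_one f)
  · obtain ⟨w, h1, h2, h3⟩ := hτ.glue
    rw [← hp, ← hq] at h1
    rw [← hq₁, ← hq₂] at h2 h3
    obtain ⟨m, hm⟩ := ha.meet p q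
    obtain ⟨w, rfl⟩ := hf.right q m w (f0_meet_unique hb (hf.meet _ _ _ hm) h1)
    rw [← map_mul] at h1 h3
    rw [← map_mul, ← map_mul] at h2
    exact ⟨w, hf.meet_of h1, hf.inj h2, hf.meet_of h3⟩
  · change f 1 ∈ τ'.E
    rw [map_one]
    exact hτ.one_mem
  · intro e he e' h1 h2
    exact hτ.up _ he _ (by rw [hf.st_eq]; exact h1) (map_dvd f h2)
  · intro e he e' he'
    obtain ⟨e'', h1, h2, h3⟩ := hτ.dir _ he _ he'
    obtain ⟨e'', rfl⟩ := hE _ h1
    exact ⟨e'', h1, hf.dvd_iff.1 h2, hf.dvd_iff.1 h3⟩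
  · obtain ⟨d, h1, h2, h3, h4, h5, h6⟩ := hτ.room
    obtain ⟨d, rfl⟩ := hf.surj _ (hα h1)
    rw [← hq₁] at h3 h5
    rw [← hq₂] at h4 h6
    exact ⟨d, by rw [← hf.st_eq]; exact h1, fun e he => hf.dvd_iff.1 (h2 _ he), hf.dvd_iff.1 h3,
      hf.dvd_iff.1 h4, fun h => h5 (congrArg f h), fun h => h6 (congrArg f h)⟩

lemma Ext.task {f : a.M →* b.M} (hf : Ext a b f) (ha : Ok a) (hb : Good b.M b.h)
    {α : Ordinal.{0}} (hα : α ∈ a.I) (τ' : Task b.M) (hτ' : τ'.ValidAt b.st α) :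
    F0TaskAt b.st α τ' := by
  have hα' : Iio α ⊆ a.I := fun β hβ => ha.lower (le_of_lt hβ) hα
  obtain ⟨τ, hτ, hp, hq, hq₁, hq₂, hE, hE'⟩ := hf.pull ha.good hb hα' hτ'
  obtain ⟨x₁, x₂, h1, h2, h3, h4, h5, h6, h7, h8, h9, h10⟩ := ha.task α hα τ hτ
  refine ⟨f x₁, f x₂, (hf.st_eq _).trans h1, (hf.st_eq _).trans h2,
    by rw [← hq, ← hq₁, ← map_mul, h3], by rw [← hq, ← hq₂, ← map_mul, h4],
    by rw [← hp, ← map_mul, ← map_mul, h5], ?_, ?_, ?_, ?_, ?_⟩
  · rw [← hp, ← map_mul]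
    exact hf.lcm ha h6
  · intro e he
    obtain ⟨e, rfl⟩ := hE' e he
    have := h7 e ((hE e).2 he)
    exact ⟨map_dvd f this.1, map_dvd f this.2⟩
  · intro o ho hx
    obtain ⟨o, rfl⟩ := hf.surj o (hα' ho)
    rw [hf.st_eq] at ho
    rw [← hq₁]
    exact map_dvd f (h8 o ho (hf.dvd_iff.1 hx))
  · intro o ho hx
    obtain ⟨o, rfl⟩ := hf.surj o (hα' ho)
    rw [hf.st_eq] at ho
    rw [← hq₂]
    exact map_dvd f (h9 o ho (hf.dvd_iff.1 hx))
  · intro hqq u z o hu ho hx hz hq' hu' ho'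
    obtain ⟨o, rfl⟩ := hf.surj o (hα' ho)
    obtain ⟨u, rfl⟩ := hf.surj u (ha.lower hu hα)
    rw [hf.st_eq] at ho hu
    rw [← hq₁] at hq' ho'
    obtain ⟨m, hm⟩ := ha.good.meet x₁ u
    have hm1 := (hm m).1 dvd_rfl
    have hmz : f m ∣ z := (hf.meet _ _ _ hm z).2 ⟨hx, hz⟩
    obtain ⟨e, he, hue⟩ := h10 (hf.inj (by rw [hq₁, hq₂, hqq])) u m o hu ho hm1.1 hm1.2
      (fun h => hq' ((map_dvd f h).trans hmz)) (hf.dvd_iff.1 hu') (fun h => ho' (map_dvd f h))
    exact ⟨f e, (hE e).1 he, map_dvd f hue⟩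

/-! ### Unions -/

lemma union_ok {ι : Type 2} [Nonempty ι] (a : ι → F0Pre) (ha : ∀ i, Ok (a i)) (b : F0Pre)
    (f : ∀ i, (a i).M →* b.M) (hI : b.I = ⋃ i, (a i).I) (hinj : ∀ i, Injective (f i))
    (hh : ∀ i x, b.h (f i x) = (a i).h x) (hst : ∀ i x, b.st (f i x) = (a i).st x)
    (hlen : ∀ i x, b.len (f i x) = (a i).len x) (he : ∀ i x, b.e (f i x) = (a i).e x)
    (hsurj : ∀ y, ∃ i x, f i x = y)
    (hdir : ∀ i j, ∃ (k : ι) (g : (a i).M →* (a k).M), Ext (a i) (a k) g ∧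
      (∀ x, f k (g x) = f i x) ∧ ∀ x, ∃ x', f k x' = f j x) :
    Ok b ∧ ∀ i, Ext (a i) b (f i) := by
  have K : ∀ i y, ∃ (k : ι) (g : (a i).M →* (a k).M), Ext (a i) (a k) g ∧
      (∀ x, f k (g x) = f i x) ∧ ∃ y', f k y' = y := by
    intro i y
    obtain ⟨j, y, rfl⟩ := hsurj y
    obtain ⟨k, g, h1, h2, h3⟩ := hdir i j
    exact ⟨k, g, h1, h2, h3 y⟩
  have K2 : ∀ y z, ∃ i y' z', f i y' = y ∧ f i z' = z := by
    intro y z
    obtain ⟨i, y, rfl⟩ := hsurj y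
    obtain ⟨k, g, -, h2, z, rfl⟩ := K i z
    exact ⟨k, g y, z, h2 y, rfl⟩
  have K3 : ∀ x y z, ∃ i x' y' z', f i x' = x ∧ f i y' = y ∧ f i z' = z := by
    intro x y z
    obtain ⟨i, x, y, rfl, rfl⟩ := K2 x y
    obtain ⟨k, g, -, h2, z, rfl⟩ := K i z
    exact ⟨k, g x, g y, z, h2 x, h2 y, rfl⟩
  have hright : ∀ i x y v, f i y = f i x * v → ∃ w, f i w = v := by
    intro i x y v hv
    obtain ⟨k, g, h1, h2, v, rfl⟩ := K i v
    rw [← h2, ← h2, ← map_mul] at hv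
    obtain ⟨w, rfl⟩ := h1.right x y v (hinj k hv)
    exact ⟨w, (h2 w).symm⟩
  have hdvd : ∀ i x y, f i x ∣ f i y ↔ x ∣ y := by
    intro i x y
    refine ⟨fun ⟨v, hv⟩ => ?_, map_dvd (f i)⟩
    obtain ⟨w, rfl⟩ := hright i x y v hv
    exact ⟨w, hinj i (hv.trans (map_mul (f i) _ _).symm)⟩
  have hext : ∀ i, Ext (a i) b (f i) := by
    intro i
    refine ⟨hI ▸ subset_iUnion (fun i => (a i).I) i, hinj i, hh i, hst i, hlen i, he i,
      fun y hy => ?_, hright i, fun x y m hm v => ?_⟩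
    · obtain ⟨k, g, h1, h2, y, rfl⟩ := K i y
      rw [hst] at hy
      obtain ⟨x, rfl⟩ := h1.surj y hy
      exact ⟨x, (h2 x).symm⟩
    · obtain ⟨k, g, h1, h2, v, rfl⟩ := K i v
      rw [← h2, ← h2, ← h2, hdvd, hdvd, hdvd]
      exact h1.meet _ _ _ hm v
  have hgood : Good b.M b.h := by
    refine ⟨fun t s s' h => ?_, fun t s h => ?_, fun s t => ?_, fun s => ?_, fun s => ?_,
      fun t s hs => ?_⟩
    · obtain ⟨i, t, s, s', rfl, rfl, rfl⟩ := K3 t s s'
      rw [← map_mul, ← map_mul] at h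
      rw [(ha i).good.cancel _ _ _ (hinj i h)]
    · obtain ⟨i, t, s, rfl, rfl⟩ := K2 t s
      rw [← map_mul, ← map_one (f i)] at h
      rw [(ha i).good.unit _ _ (hinj i h), map_one]
    · obtain ⟨i, s, t, rfl, rfl⟩ := K2 s t
      obtain ⟨m, hm⟩ := (ha i).good.meet s t
      exact ⟨_, (hext i).meet _ _ _ hm⟩
    · obtain ⟨i, s, rfl⟩ := hsurj s
      rw [hh]
      exact (ha i).good.h_pos s
    · obtain ⟨i, s, rfl⟩ := hsurj s
      rw [hh]
      exact (ha i).good.h_le s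
    · obtain ⟨i, t, s, rfl, rfl⟩ := K2 t s
      rw [← map_mul, hh, hh]
      exact (ha i).good.h_lt t s fun h => hs (by rw [h, map_one])
  obtain ⟨i₀⟩ := ‹Nonempty ι›
  refine ⟨⟨hI ▸ isLowerSet_iUnion fun i => (ha i).lower, fun y => ?_, fun x y h1 h2 => ?_, hgood,
    ?_, ?_, fun s t => ?_, fun t s h => ?_, fun s t m hm => ?_, fun α => ?_, fun u hu => ?_,
    fun α hα τ hτ => ?_⟩, hext⟩
  · obtain ⟨i, y, rfl⟩ := hsurj y
    rw [hst]
    exact (hext i).sub ((ha i).mem y)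
  · obtain ⟨i, x, y, rfl, rfl⟩ := K2 x y
    rw [hst, hst] at h1
    rw [he, he] at h2
    rw [(ha i).label x y h1 h2]
  · obtain ⟨x, hx⟩ := (ha i₀).nontriv
    exact ⟨f i₀ x, fun h => hx (hinj i₀ (h.trans (map_one _).symm))⟩
  · rw [← map_one (f i₀), hst, (ha i₀).st_one]
  · obtain ⟨i, s, t, rfl, rfl⟩ := K2 s t
    rw [← map_mul, hst, hst, hst]
    exact (ha i).st_mul s t
  · obtain ⟨i, t, s, rfl, rfl⟩ := K2 t s
    rw [hst, hst] at h
    rw [← map_mul, hst, hst]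
    exact (ha i).st_right t s h
  · obtain ⟨i, s, t, m, rfl, rfl, rfl⟩ := K3 s t m
    rw [hst, hst, hst]
    exact (ha i).st_meet s t m ((hext i).meet_of hm)
  · by_cases hα : ∃ i, α ∈ (a i).I
    · obtain ⟨i, hα⟩ := hα
      have := (ha i).small α
      refine small_of_surjective (α := {x : (a i).M // (a i).st x = α})
        (f := fun x => ⟨f i x.1, (hst i _).trans x.2⟩) ?_
      rintro ⟨y, hy⟩
      obtain ⟨x, rfl⟩ := (hext i).surj y (hy ▸ hα)
      exact ⟨⟨x, (hst i x).symm.trans hy⟩, rfl⟩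
    · have : IsEmpty {x : b.M // b.st x = α} := by
        refine ⟨fun ⟨y, hy⟩ => hα ?_⟩
        obtain ⟨i, y, rfl⟩ := hsurj y
        exact ⟨i, by rw [← hy, hst]; exact (ha i).mem y⟩
      infer_instance
  · obtain ⟨i, u, rfl⟩ := hsurj u
    rw [hst] at hu
    exact (hext i).step (ha i) ((ha i).step u hu)
  · rw [hI] at hα
    obtain ⟨i, hi⟩ := mem_iUnion.1 hα
    exact (hext i).task (ha i) hgood hi τ hτ

instance : Preorder F0Pre where
  le a b := ∃ f, Ext a b f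
  le_refl a := ⟨_, Ext.refl a⟩
  le_trans _ _ _ := fun ⟨_, hf⟩ ⟨_, hg⟩ => ⟨_, hf.trans hg⟩

/-- The comparison map of `a ≤ b`. -/
def hom (h : a ≤ b) : a.M →* b.M := Classical.choose h

lemma hom_ext (h : a ≤ b) : Ext a b (hom h) := Classical.choose_spec h

lemma chain_ub (s : Set F0Pre) (hs : ∀ a ∈ s, Ok a) (hc : IsChain (· ≤ ·) s) (hne : s.Nonempty) :
    ∃ b, Ok b ∧ ∀ a ∈ s, a ≤ b := by
  have : Nonempty s := hne.to_subtype
  have : IsDirectedOrder s := hc.directedOn.isDirectedOrder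
  let G : s → Type 1 := fun i => i.1.M
  let φ : ∀ i j : s, i ≤ j → (G i →* G j) := fun i j h => hom (a := i.1) (b := j.1) h
  have hφ : ∀ (i j : s) (h : i ≤ j), Ext i.1 j.1 (φ i j h) := fun i j h => hom_ext h
  have : DirectedSystem G (φ · · ·) :=
    { map_self := fun i x => (hs i.1 i.2).label _ _ ((hφ i i le_rfl).st_eq x)
        ((hφ i i le_rfl).e_eq x)
      map_map := fun k j i hij hjk x => (hs k.1 k.2).label _ _
        (by rw [(hφ _ _ _).st_eq, (hφ _ _ _).st_eq, (hφ _ _ _).st_eq])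
        (by rw [(hφ _ _ _).e_eq, (hφ _ _ _).e_eq, (hφ _ _ _).e_eq]) }
  let L := DirectLimit G φ
  let lab : L → Ordinal.{0} × Ordinal.{0} :=
    DirectLimit.lift φ (fun i x => (i.1.st x, i.1.e x)) fun i j h x => by
      rw [(hφ _ _ _).st_eq, (hφ _ _ _).e_eq]
  have hlab : Injective lab := DirectLimit.lift_injective φ _ _ fun i x y h =>
    (hs i.1 i.2).label x y (congrArg Prod.fst h) (congrArg Prod.snd h)
  have : Small.{1} L := small_of_injective hlab
  let hL : L → ℝ := DirectLimit.lift φ (fun i x => i.1.h x) fun i j h x => ((hφ _ _ _).h_eq x).symm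
  let lenL : L → ℕ :=
    DirectLimit.lift φ (fun i x => i.1.len x) fun i j h x => ((hφ _ _ _).len_eq x).symm
  let of : ∀ i : s, G i →* L := fun i =>
    { toFun := fun x => ⟦⟨i, x⟩⟧
      map_one' := (DirectLimit.one_def i).symm
      map_mul' := fun x y => (DirectLimit.mul_def i x y).symm }
  let ψ : Shrink.{1} L ≃* L := Shrink.mulEquiv
  let b : F0Pre :=
    { I := ⋃ i : s, i.1.I
      M := Shrink.{1} L
      h := fun y => hL (ψ y)
      st := fun y => (lab (ψ y)).1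
      len := fun y => lenL (ψ y)
      e := fun y => (lab (ψ y)).2 }
  let f : ∀ i : s, i.1.M →* b.M := fun i => ψ.symm.toMonoidHom.comp (of i)
  have hf : ∀ (i : s) x, ψ (f i x) = ⟦⟨i, x⟩⟧ := fun i x => ψ.apply_symm_apply _
  have hfφ : ∀ (i k : s) (h : i ≤ k) x, f k (φ i k h x) = f i x := fun i k h x =>
    ψ.injective (by rw [hf, hf]; exact DirectLimit.mk_apply i k x h)
  have key := union_ok (fun i : s => i.1) (fun i => hs i.1 i.2) b f rfl
    (fun i => ψ.symm.injective.comp (DirectLimit.mk_injective φ (fun i j h => (hφ i j h).inj) i))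
    (fun i x => by change hL (ψ _) = _; rw [hf]; rfl)
    (fun i x => by change (lab (ψ _)).1 = _; rw [hf]; rfl)
    (fun i x => by change lenL (ψ _) = _; rw [hf]; rfl)
    (fun i x => by change (lab (ψ _)).2 = _; rw [hf]; rfl)
    (fun y => by
      obtain ⟨i, x, hx⟩ := DirectLimit.exists_eq_mk φ (ψ y)
      exact ⟨i, x, ψ.injective (by rw [hf, hx])⟩)
    (fun i j => by
      obtain ⟨k, hik, hjk⟩ := exists_ge_ge i j
      exact ⟨k, φ i k hik, hφ i k hik, hfφ i k hik, fun x => ⟨_, hfφ j k hjk x⟩⟩)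
  exact ⟨b, key.1, fun a ha => ⟨_, key.2 ⟨a, ha⟩⟩⟩

/-! ### The base -/

lemma base_dvd (x y : ULift.{1} (Multiplicative ℕ)) : x ∣ y ↔ x.down.toAdd ≤ y.down.toAdd := by
  constructor
  · rintro ⟨z, rfl⟩
    exact Nat.le_add_right _ _
  · intro h
    refine ⟨⟨Multiplicative.ofAdd (y.down.toAdd - x.down.toAdd)⟩, ULift.ext _ _ ?_⟩
    exact Multiplicative.toAdd.injective (Nat.add_sub_cancel' h).symm

/-- The free monoid on one generator, at stage `0`. -/
def base : F0Pre where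
  I := Iic 0
  M := ULift.{1} (Multiplicative ℕ)
  h x := (1 / 2) ^ x.down.toAdd
  st _ := 0
  len _ := 0
  e x := (x.down.toAdd : ℕ)

lemma base_ok : Ok base := by
  have hext : ∀ x y : ULift.{1} (Multiplicative ℕ), x.down.toAdd = y.down.toAdd → x = y :=
    fun x y h => ULift.ext _ _ (Multiplicative.toAdd.injective h)
  refine ⟨isLowerSet_Iic 0, fun _ => le_rfl (a := (0 : Ordinal.{0})), fun x y _ h => ?_,
    ⟨fun t s s' h => ?_, fun t s h => ?_, fun s t => ?_, fun s => ?_, fun s => ?_,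
      fun t s hs => ?_⟩, ?_, rfl, fun _ _ => le_max_left _ _, fun _ _ _ => le_rfl,
    fun _ _ _ _ => le_max_left _ _, fun α => ?_, fun u hu => absurd hu (lt_irrefl _),
    fun α hα τ hτ => absurd (hτ.st_p.trans_le hα) (lt_irrefl _)⟩
  · exact hext x y (Nat.cast_injective (R := Ordinal.{0}) h)
  · have h1 : t.down.toAdd + s.down.toAdd = t.down.toAdd + s'.down.toAdd :=
      congrArg (fun x : ULift.{1} (Multiplicative ℕ) => x.down.toAdd) h
    exact hext _ _ (by omega)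
  · have h1 : t.down.toAdd + s.down.toAdd = 0 :=
      congrArg (fun x : ULift.{1} (Multiplicative ℕ) => x.down.toAdd) h
    exact hext _ _ (show t.down.toAdd = 0 by omega)
  · refine ⟨⟨Multiplicative.ofAdd (max s.down.toAdd t.down.toAdd)⟩, fun v => ?_⟩
    exact (base_dvd _ v).trans (max_le_iff.trans
      (and_congr (base_dvd s v).symm (base_dvd t v).symm))
  · change (0 : ℝ) < (1 / 2) ^ _
    positivity
  · change ((1 : ℝ) / 2) ^ _ ≤ 1
    exact pow_le_one₀ (by norm_num) (by norm_num)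
  · change ((1 : ℝ) / 2) ^ (t.down.toAdd + s.down.toAdd) < (1 / 2) ^ t.down.toAdd
    have h1 : s.down.toAdd ≠ 0 := fun h => hs (hext _ _ h)
    exact pow_lt_pow_right_of_lt_one₀ (by norm_num) (by norm_num) (by omega)
  · refine ⟨⟨Multiplicative.ofAdd 1⟩, fun h => ?_⟩
    have h1 : (1 : ℕ) = 0 := congrArg (fun x : ULift.{1} (Multiplicative ℕ) => x.down.toAdd) h
    omega
  · have : Small.{0} base.M := small_of_injective (β := ℕ) (f := fun x => x.down.toAdd) hext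
    infer_instance

/-! ### The successor step -/

lemma Ok.small_lt (ha : Ok a) (α : Ordinal.{0}) : Small.{0} {x : a.M // a.st x < α} := by
  have := ha.small
  refine small_of_surjective (α := Σ β : Iio α, {x : a.M // a.st x = β.1})
    (f := fun x => ⟨x.2.1, by rw [x.2.2]; exact x.1.2⟩) ?_
  rintro ⟨x, hx⟩
  exact ⟨⟨⟨a.st x, hx⟩, ⟨x, rfl⟩⟩, rfl⟩

lemma exists_label (M : Type 1) [Small.{0} M] : ∃ j : M → Ordinal.{0}, Injective j := by
  obtain ⟨r, hr⟩ := exists_wellFoundedLT (Shrink.{0} M)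
  let _ := r
  have := hr
  exact ⟨fun x => Ordinal.typein (α := Shrink.{0} M) (· < ·) (equivShrink M x),
    (Ordinal.typein_injective _).comp (equivShrink M).injective⟩

lemma succ_ub (hS : SuccStmt) (ha : Ok a) {α : Ordinal.{0}} (hI : a.I = Iio α) :
    ∃ b, Ok b ∧ a ≤ b ∧ α ∈ b.I := by
  classical
  obtain ⟨M', _, h', i, len', H⟩ := hS a.M a.h ha.good
  have hlt : ∀ x, a.st x < α := fun x => by have := ha.mem x; rwa [hI] at this
  have : Small.{0} a.M := by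
    have := ha.small_lt α
    exact small_of_surjective (α := {x : a.M // a.st x < α}) (f := Subtype.val)
      fun x => ⟨⟨x, hlt x⟩, rfl⟩
  have : Small.{0} M' := H.small this
  obtain ⟨j, hj⟩ := exists_label M'
  let b : F0Pre :=
    { I := Iic α
      M := M'
      h := h'
      st := Function.extend i a.st fun _ => α
      len := Function.extend i a.len len'
      e := Function.extend i a.e j }
  have hst : ∀ x, b.st (i x) = a.st x := fun x => H.inj.extend_apply a.st (fun _ => α) x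
  have hlen : ∀ x, b.len (i x) = a.len x := fun x => H.inj.extend_apply _ _ x
  have he : ∀ x, b.e (i x) = a.e x := fun x => H.inj.extend_apply _ _ x
  have hst' : ∀ y, y ∉ range i → b.st y = α := fun y hy =>
    Function.extend_apply' a.st (fun _ => α) y hy
  have hlen' : ∀ y, y ∉ range i → b.len y = len' y := fun y hy => Function.extend_apply' _ _ y hy
  have he' : ∀ y, y ∉ range i → b.e y = j y := fun y hy => Function.extend_apply' _ _ y hy
  have hold : ∀ y, b.st y < α → y ∈ range i := fun y hy => by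
    by_contra h
    exact hy.ne (hst' y h)
  have hold' : ∀ y ∈ range i, b.st y < α := by
    rintro _ ⟨x, rfl⟩
    rw [hst]
    exact hlt x
  have hle : ∀ y, b.st y ≤ α := fun y => by
    by_cases h : y ∈ range i
    · exact (hold' y h).le
    · exact (hst' y h).le
  have hext : Ext a b i :=
    ⟨hI ▸ Iio_subset_Iic_self, H.inj, H.h_eq, hst, hlen, he, fun y hy => hold y (hI ▸ hy :),
      fun x y v hv => H.right (i x) v ⟨y, hv⟩, H.meet_old⟩
  have hmax : ∀ (s t y : M'), (∀ s₀ t₀, s = i s₀ → t = i t₀ → b.st y ≤ max (a.st s₀) (a.st t₀)) →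
      b.st y ≤ max (b.st s) (b.st t) := by
    intro s t y h
    by_cases hs : s ∈ range i
    · by_cases ht : t ∈ range i
      · obtain ⟨s, rfl⟩ := hs
        obtain ⟨t, rfl⟩ := ht
        rw [hst, hst]
        exact h s t rfl rfl
      · exact (hle y).trans ((hst' t ht).ge.trans (le_max_right _ _))
    · exact (hle y).trans ((hst' s hs).ge.trans (le_max_left _ _))
  refine ⟨b, ⟨isLowerSet_Iic α, hle, fun x y h1 h2 => ?_, H.good, ?_, ?_,
    fun s t => hmax s t _ ?_, fun t s h => ?_, fun s t m hm => hmax s t _ ?_,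
    fun β => inferInstanceAs (Small.{0} {x : M' // b.st x = β}), fun u hu => ?_,
    fun β hβ τ' hτ' => ?_⟩, ⟨i, hext⟩, le_rfl (a := α)⟩
  · by_cases hx : x ∈ range i
    · obtain ⟨y, rfl⟩ := hold y (h1 ▸ hold' x hx)
      obtain ⟨x, rfl⟩ := hx
      rw [hst, hst] at h1
      rw [he, he] at h2
      rw [ha.label x y h1 h2]
    · have hy : y ∉ range i := fun hy => hx (hold x (h1 ▸ hold' y hy))
      rw [he' x hx, he' y hy] at h2
      exact hj h2
  · obtain ⟨x, hx⟩ := ha.nontriv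
    exact ⟨i x, fun h => hx (H.inj (h.trans (map_one _).symm))⟩
  · exact (congrArg b.st (map_one i).symm).trans ((hst 1).trans ha.st_one)
  · rintro s t rfl rfl
    exact ((congrArg b.st (map_mul i s t).symm).trans (hst _)).trans_le (ha.st_mul s t)
  · by_cases hts : t * s ∈ range i
    · have hs := H.right t s hts
      obtain ⟨t, rfl⟩ := hold t (h.trans_lt (hold' s hs))
      obtain ⟨s, rfl⟩ := hs
      rw [hst, hst] at h
      exact (hst s).trans_le ((ha.st_right t s h).trans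
        ((congrArg b.st (map_mul i t s).symm).trans (hst _)).ge)
    · exact (hle s).trans (hst' _ hts).ge
  · rintro s t rfl rfl
    obtain ⟨m₀, hm₀⟩ := ha.good.meet s t
    rw [f0_meet_unique H.good hm (H.meet_old _ _ _ hm₀), hst]
    exact ha.st_meet s t m₀ hm₀
  · by_cases hu' : u ∈ range i
    · obtain ⟨u, rfl⟩ := hu'
      rw [hst] at hu
      exact hext.step ha (ha.step u hu)
    · obtain ⟨u₁, h1, h2, h3⟩ := H.step u hu'
      refine ⟨u₁, h1, ?_, fun o ho => ?_⟩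
      · rw [hst' u hu']
        by_cases hu₁ : u₁ ∈ range i
        · exact Or.inl (hold' _ hu₁)
        · refine Or.inr ⟨hst' _ hu₁, ?_⟩
          rw [hlen' _ hu₁, hlen' _ hu']
          exact h2.resolve_left hu₁
      · rw [hst' u hu'] at ho
        obtain ⟨o, rfl⟩ := hold o ho
        exact h3 o
  · rcases (show β ≤ α from hβ).lt_or_eq with hβ | rfl
    · exact hext.task ha H.good (hI.ge hβ) τ' hτ'
    obtain ⟨τ, hτ, hp, hq, hq₁, hq₂, hE, hE'⟩ := hext.pull ha.good H.good hI.ge hτ'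
    have hv : τ.Valid := ⟨hτ.q_ne, hτ.glue, hτ.one_mem, fun e he e' h => hτ.up e he e' (hlt _) h,
      hτ.dir, by obtain ⟨d, -, hd⟩ := hτ.room; exact ⟨d, hd⟩⟩
    obtain ⟨x₁, x₂, h1, h2, h3, h4, h5, h6, h7, h8, h9, h10⟩ := H.task τ hv
    refine ⟨x₁, x₂, hst' _ h1, hst' _ h2, by rw [← hq, ← hq₁]; exact h3,
      by rw [← hq, ← hq₂]; exact h4, by rw [← hp]; exact h5, by rw [← hp]; exact h6,
      fun e he => ?_, fun o ho hx => ?_, fun o ho hx => ?_,
      fun hqq u z o _ ho hx hz hq' hu' ho' => ?_⟩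
    · obtain ⟨e, rfl⟩ := hE' e he
      exact h7 e ((hE e).2 he)
    · obtain ⟨o, rfl⟩ := hold o ho
      rw [← hq₁]
      exact map_dvd i (h8 o hx)
    · obtain ⟨o, rfl⟩ := hold o ho
      rw [← hq₂]
      exact map_dvd i (h9 o hx)
    · obtain ⟨o, rfl⟩ := hold o ho
      rw [← hq₁] at hq' ho'
      obtain ⟨e, he, hue⟩ := h10 (H.inj (hq₁.trans (hqq.trans hq₂.symm))) u z o hx hz hq' hu'
        fun h => ho' (map_dvd i h)
      exact ⟨i e, (hE e).1 he, hue⟩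

end F0Pre

open F0Pre in
theorem finalOfSuccStmt : FinalOfSuccStmt := by
  intro hS
  obtain ⟨a, ha, hmax⟩ := zorn_le₀ {a : F0Pre | Ok a} fun s hs hc => by
    rcases s.eq_empty_or_nonempty with rfl | hne
    · exact ⟨base, base_ok, fun _ h => h.elim⟩
    · exact chain_ub s hs hc hne
  have ha : Ok a := ha
  have hI : ∀ α, α ∈ a.I := by
    by_contra hn
    push Not at hn
    have hne : (a.Iᶜ).Nonempty := hn
    let α := (wellFounded_lt (α := Ordinal.{0})).min _ hne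
    have h1 : α ∉ a.I := (wellFounded_lt (α := Ordinal.{0})).min_mem _ hne
    have h2 : a.I = Iio α := by
      ext β
      constructor
      · intro hβ
        by_contra h
        exact h1 (ha.lower (not_lt.1 h) hβ)
      · intro hβ
        by_contra h
        exact (wellFounded_lt (α := Ordinal.{0})).not_lt_min _ h hβ
    obtain ⟨b, hb, hab, hα⟩ := succ_ub hS ha h2
    obtain ⟨g, hg⟩ := hmax hb hab
    exact h1 (hg.sub hα)
  exact ⟨a.M, a.mon, a.h, a.st, a.len, ha.good, ha.nontriv, ha.st_one, ha.st_mul, ha.st_right,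
    ha.st_meet, ha.small_lt, ha.step, fun α => ha.task α (hI α)⟩

end

end Crest.Agent.R296
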