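import Mathlib
import Crest.Prelude.Def_SetTheory

/-!
Row 296: symmetric systems, names, the forcing relation on hereditarily symmetric names.
-/

set_option autoImplicit false

open FirstOrder FirstOrder.Language Crest.LogicCS.SetTheory

namespace Crest.Agent.R296

/-- A symmetric system: a forcing preorder with top, a group acting on it, and a directed,
conjugation-closed family of subgroups (the supports). -/
structure Sys where
  P : Type 1
  [instP : Preorder P]
  [instT : OrderTop P]
  G : Type 1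
  [instG : Group G]
  [instA : MulAction G P]
  smul_mono : ∀ (g : G) (p q : P), p ≤ q → g • p ≤ g • q
  L : Type 1
  K : L → Subgroup G
  ne : Nonempty L
  dir : ∀ a b, ∃ c, K c ≤ K a ∧ K c ≤ K b
  conj : ∀ (g : G) (a : L), ∃ c, ∀ k ∈ K c, g⁻¹ * k * g ∈ K a

attribute [instance] Sys.instP Sys.instT Sys.instG Sys.instA

/-- Names: well-founded trees labelled by conditions. -/
inductive Name (P : Type 1) : Type 2
  | mk (ι : Type 1) (A : ι → Name P) (c : ι → P) : Name P

namespace Name

variable {P : Type 1}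

def idx : Name P → Type 1
  | mk ι _ _ => ι

def fn : (x : Name P) → x.idx → Name P
  | mk _ A _ => A

def cond : (x : Name P) → x.idx → P
  | mk _ _ c => c

@[simp] theorem idx_mk (ι : Type 1) (A : ι → Name P) (c : ι → P) : (mk ι A c).idx = ι := rfl
@[simp] theorem fn_mk (ι : Type 1) (A : ι → Name P) (c : ι → P) : (mk ι A c).fn = A := rfl
@[simp] theorem cond_mk (ι : Type 1) (A : ι → Name P) (c : ι → P) : (mk ι A c).cond = c := rfl

/-- Relabelling the conditions of a name. -/
def map (f : P → P) : Name P → Name P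
  | mk ι A c => mk ι (fun i => map f (A i)) (fun i => f (c i))

/-- `p` forces `x = y`. -/
def FEq [Preorder P] : Name P → Name P → P → Prop
  | mk _ A c, mk _ A' c', p =>
    (∀ i q, q ≤ p → q ≤ c i → ∃ r ≤ q, ∃ j, r ≤ c' j ∧ FEq (A i) (A' j) r) ∧
    (∀ j q, q ≤ p → q ≤ c' j → ∃ r ≤ q, ∃ i, r ≤ c i ∧ FEq (A i) (A' j) r)

/-- `p` forces `x ∈ y`. -/
def FMem [Preorder P] (x y : Name P) (p : P) : Prop :=
  ∀ q ≤ p, ∃ r ≤ q, ∃ j : y.idx, r ≤ y.cond j ∧ FEq x (y.fn j) r

instance {G : Type 1} [Monoid G] [MulAction G P] : MulAction G (Name P) where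
  smul g x := map (g • ·) x
  one_smul x := by
    induction x with
    | mk ι A c ih =>
      show mk ι (fun i => map ((1 : G) • ·) (A i)) (fun i => (1 : G) • c i) = mk ι A c
      congr 1
      · funext i; exact ih i
      · funext i; simp
  mul_smul g g' x := by
    induction x with
    | mk ι A c ih =>
      show mk ι (fun i => map ((g * g') • ·) (A i)) (fun i => (g * g') • c i) =
        mk ι (fun i => map (g • ·) (map (g' • ·) (A i))) (fun i => g • g' • c i)
      congr 1
      · funext i; exact ih i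
      · funext i; simp [mul_smul]

@[simp] theorem smul_mk {G : Type 1} [Monoid G] [MulAction G P] (g : G) (ι : Type 1)
    (A : ι → Name P) (c : ι → P) :
    g • mk ι A c = mk ι (fun i => g • A i) (fun i => g • c i) := rfl

/-- The unordered pair of two names. -/
def upair [Top P] (x y : Name P) : Name P :=
  mk (ULift.{1} Bool) (fun b => match b.down with | true => x | false => y) (fun _ => ⊤)

/-- The Kuratowski pair of two names. -/
def opair [Top P] (x y : Name P) : Name P := upair (upair x x) (upair x y)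

/-- The trivial structure on names, used only to evaluate terms (which are variables). -/
instance : setL.Structure (Name P) where
  funMap f _ := Empty.elim f
  RelMap _ _ := False

end Name

open Name

namespace Sys

variable (S : Sys)

/-- `x` is (forced to be) fixed by the subgroup `K w`. -/
def Supp (w : S.L) (x : Name S.P) : Prop := ∀ k ∈ S.K w, FEq (k • x) x ⊤

/-- Hereditarily symmetric names. -/
def HS : Name S.P → Prop
  | .mk ι A c => (∃ w, S.Supp w (.mk ι A c)) ∧ ∀ i, HS (A i)

/-- Forcing of the atomic relation. -/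
def relF : ∀ {l : ℕ}, SetRel l → (Fin l → Name S.P) → S.P → Prop
  | _, SetRel.mem, xs, p => FMem (xs 0) (xs 1) p

/-- The forcing relation; quantifiers range over hereditarily symmetric names. -/
def Forces : ∀ {n : ℕ}, setL.BoundedFormula Empty n → (Fin n → Name S.P) → S.P → Prop
  | _, .falsum, _, _ => False
  | _, .equal t₁ t₂, v, p =>
    FEq (t₁.realize (Sum.elim Empty.elim v)) (t₂.realize (Sum.elim Empty.elim v)) p
  | _, .rel R ts, v, p => S.relF R (fun i => (ts i).realize (Sum.elim Empty.elim v)) p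
  | _, .imp φ ψ, v, p => ∀ q ≤ p, Forces φ v q → Forces ψ v q
  | _, .all φ, v, p => ∀ x, S.HS x → Forces φ (Fin.snoc v x) p

/-- A sentence is forced outright. -/
def Valid (φ : setL.Sentence) : Prop := S.Forces (n := 0) φ Fin.elim0 ⊤

/-- `p` forces that `f` is the graph of a map from `X` onto `Y`. -/
structure Surj (f X Y : Name S.P) (p : S.P) : Prop where
  tot : ∀ x, S.HS x → ∀ q ≤ p, FMem x X q →
    ∃ r ≤ q, ∃ y, S.HS y ∧ FMem y Y r ∧ FMem (opair x y) f r
  fn : ∀ x y y', S.HS x → S.HS y → S.HS y' → ∀ q ≤ p, FMem x X q → FMem (opair x y) f q →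
    FMem (opair x y') f q → FEq y y' q
  onto : ∀ y, S.HS y → ∀ q ≤ p, FMem y Y q →
    ∃ r ≤ q, ∃ x, S.HS x ∧ FMem x X r ∧ FMem (opair x y) f r

/-- `p` forces that `g` is the graph of a one-to-one map from `Y` into `X`. -/
structure Inj (g Y X : Name S.P) (p : S.P) : Prop where
  tot : ∀ y, S.HS y → ∀ q ≤ p, FMem y Y q →
    ∃ r ≤ q, ∃ x, S.HS x ∧ FMem x X r ∧ FMem (opair y x) g r
  fn : ∀ y x x', S.HS y → S.HS x → S.HS x' → ∀ q ≤ p, FMem y Y q → FMem (opair y x) g q →
    FMem (opair y x') g q → FEq x x' q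
  inj : ∀ y y' x, S.HS y → S.HS y' → S.HS x → ∀ q ≤ p, FMem y Y q → FMem y' Y q →
    FMem (opair y x) g q → FMem (opair y' x) g q → FEq y y' q

/-- The partition principle in semantic form. -/
def PPSem : Prop := ∀ f X Y, S.HS f → S.HS X → S.HS Y → ∀ p, S.Surj f X Y p →
  ∃ q ≤ p, ∃ g, S.HS g ∧ S.Inj g Y X q

/-- Choice along a family of invariant, pairwise distinct names. -/
def ACWOSem : Prop := ∀ (ι : Type 1) (z : ι → Name S.P), (∀ i, S.HS (z i)) →
  (∀ i (g : S.G), g • z i = z i) → (∀ i j p, FEq (z i) (z j) p → i = j) → ∀ f, S.HS f →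
  ∃ g, S.HS g ∧
    (∀ i y q, S.HS y → FMem (opair (z i) y) f q →
      ∃ r ≤ q, ∃ y', S.HS y' ∧ FMem (opair (z i) y') g r ∧ FMem (opair (z i) y') f r) ∧
    (∀ i y y' q, FMem (opair (z i) y) g q → FMem (opair (z i) y') g q → FEq y y' q)

/-- A family of non-empty pairwise disjoint sets without a choice set. -/
def NotACSem : Prop := ∃ F, S.HS F ∧
  (∀ x q, S.HS x → FMem x F q → ∃ r ≤ q, ∃ y, S.HS y ∧ FMem y x r) ∧
  (∀ x x' y q, S.HS x → S.HS x' → S.HS y → FMem x F q → FMem x' F q → FMem y x q → FMem y x' q →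
    FEq x x' q) ∧
  ∀ c p, S.HS c → ∃ q ≤ p, ∃ x, S.HS x ∧ FMem x F q ∧
    ((∀ r ≤ q, ∀ y, S.HS y → ¬ (FMem y x r ∧ FMem y c r)) ∨
      ∃ y y', S.HS y ∧ S.HS y' ∧ FMem y x q ∧ FMem y c q ∧ FMem y' x q ∧ FMem y' c q ∧
        ∀ r ≤ q, ¬ FEq y y' r)

end Sys

end Crest.Agent.R296
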