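import Crest.Agent.R296.MonDefs

/-!
Row 296: the frame obtained from the final monoid (semilattice of the elements lying below a cofinal
chain, group of the right-equivariant permutations, back-and-forth).
-/

set_option autoImplicit false

namespace Crest.Agent.R296

namespace Frame0

section Mon

variable {M : Type 1} [Monoid M] {h : M → ℝ} {st : M → Ordinal.{0}} {len : M → ℕ}

theorem antisymm (hG : Good M h) {s t : M} (h₁ : s ∣ t) (h₂ : t ∣ s) : s = t := by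
  obtain ⟨a, rfl⟩ := h₁
  obtain ⟨b, hb⟩ := h₂
  have h1 : s * 1 = s * (a * b) := by rw [mul_one, ← mul_assoc]; exact hb
  have h2 : a = 1 := hG.unit a b (hG.cancel _ _ _ h1).symm
  rw [h2, mul_one]

theorem meet_unique (hG : Good M h) {s t m m' : M} (h₁ : IsMeet s t m) (h₂ : IsMeet s t m') :
    m = m' :=
  antisymm hG ((h₁ m').2 ((h₂ m').1 dvd_rfl)) ((h₂ m).2 ((h₁ m).1 dvd_rfl))

theorem st_cofactor (hF : IsFinal M h st len) {x q : M} {α : Ordinal.{0}} (hx : st x ≤ α)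
    (hr : st (x * q) < α) : st q < α := by
  rcases le_or_gt (st x) (st q) with h1 | h1
  · exact lt_of_le_of_lt (hF.st_right x q h1) hr
  · exact lt_of_lt_of_le h1 hx

/-- The set of old elements above `c` is a valid filter. -/
theorem validAt_of_room (hF : IsFinal M h st len) {α : Ordinal.{0}} {p q q₁ q₂ c : M}
    (hp : st p < α) (hq : st q < α) (hq₁ : st q₁ < α) (hq₂ : st q₂ < α) (hc : st c < α)
    (hne : q ≠ 1) (glue : ∃ w, IsMeet p q (q * w) ∧ q₁ * w = q₂ * w ∧ IsMeet q₁ q₂ (q₁ * w))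
    (h₁ : c ∣ q₁) (h₂ : c ∣ q₂) (n₁ : c ≠ q₁) (n₂ : c ≠ q₂) :
    (⟨p, q, q₁, q₂, {e | st e < α ∧ e ∣ c}⟩ : Task M).ValidAt st α where
  st_p := hp
  st_q := hq
  st_q₁ := hq₁
  st_q₂ := hq₂
  st_E := fun _ he => he.1
  q_ne := hne
  glue := glue
  one_mem := ⟨by rw [hF.st_one]; exact lt_of_le_of_lt (by simp) hc, one_dvd _⟩
  up := fun _ he _ h1 h2 => ⟨h1, h2.trans he.2⟩
  dir := fun _ he _ he' => ⟨c, ⟨hc, dvd_rfl⟩, he.2, he'.2⟩
  room := ⟨c, hc, fun _ he => he.2, h₁, h₂, n₁, n₂⟩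

theorem glue_simple (q r : M) :
    ∃ w, IsMeet (1 : M) q (q * w) ∧ r * w = r * w ∧ IsMeet r r (r * w) :=
  ⟨1, fun v => by simp, rfl, fun v => by simp⟩

/-- The simple task. -/
theorem simple (hF : IsFinal M h st len) {α : Ordinal.{0}} {q r c : M} (hq : st q < α)
    (hr : st r < α) (hc : st c < α) (hne : q ≠ 1) (h₁ : c ∣ r) (n₁ : c ≠ r) :
    ∃ x, st x = α ∧ x * q = r ∧ c ∣ x ∧ ∀ o, st o < α → x ∣ o → r ∣ o := by
  have h0 : st (1 : M) < α := by rw [hF.st_one]; exact lt_of_le_of_lt (by simp) hc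
  obtain ⟨x₁, x₂, e₁, -, m₁, -, -, -, hE, ho, -⟩ :=
    hF.task α _ (validAt_of_room hF h0 hq hr hr hc hne (glue_simple q r) h₁ h₁ n₁ n₁)
  exact ⟨x₁, e₁, m₁, (hE c ⟨hc, dvd_rfl⟩).1, ho⟩

theorem exists_chain (hF : IsFinal M h st len) :
    ∃ (b : M) (u : ℕ → M), b ≠ 1 ∧ ∀ n, u (n + 1) * b = u n := by
  obtain ⟨b, hb⟩ := hF.nontriv
  have key : ∀ r : {r : M // r ≠ 1}, ∃ x : {r : M // r ≠ 1}, x.1 * b = r.1 := by
    intro r
    set α := max (st b) (st r.1) + 1 with hα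
    have hlt : max (st b) (st r.1) < α := by rw [hα]; exact lt_add_one _
    have h0 : st (1 : M) < α := by rw [hF.st_one]; exact lt_of_le_of_lt (by simp) hlt
    obtain ⟨x, hx, hm, -, -⟩ := simple hF (lt_of_le_of_lt (le_max_left _ _) hlt)
      (lt_of_le_of_lt (le_max_right _ _) hlt) h0 hb (one_dvd r.1) r.2.symm
    refine ⟨⟨x, ?_⟩, hm⟩
    rintro rfl
    exact absurd hx h0.ne
  choose f hf using key
  exact ⟨b, fun n => (f^[n] ⟨b, hb⟩).1, hb, fun n => by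
    simp only [Function.iterate_succ_apply']; exact hf _⟩

/-- Meets of a new element with an old one. -/
theorem meet_cases (hF : IsFinal M h st len) {β : Ordinal.{0}} (hβ : 0 < β) {o : M}
    (ho : st o < β) : ∀ (n : ℕ) (v m : M), len v = n → st v = β → IsMeet v o m →
      o ∣ v ∨ st m < β ∨ (st m = β ∧ len m < len v) := by
  intro n
  induction n using Nat.strong_induction_on with
  | _ n ih =>
    intro v m hn hv hm
    obtain ⟨u₁, hd, hlt, hstep⟩ := hF.step v (hv ▸ hβ)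
    rcases hstep o (hv ▸ ho) with h1 | h1
    · exact Or.inl h1
    right
    have hm₁ : IsMeet u₁ o m := fun w =>
      ⟨fun hw => ⟨h1 w ((hm w).1 hw).1 ((hm w).1 hw).2, ((hm w).1 hw).2⟩,
        fun hw => (hm w).2 ⟨hd.trans hw.1, hw.2⟩⟩
    rcases hlt with h2 | ⟨h2, h3⟩
    · exact Or.inl (lt_of_le_of_lt (hF.st_meet _ _ _ hm₁) (max_lt (hv ▸ h2) ho))
    · rcases ih (len u₁) (hn ▸ h3) u₁ m rfl (h2.trans hv) hm₁ with h4 | h4 | ⟨h4, h5⟩
      · have : m = u₁ := antisymm hF.good ((hm₁ u₁).2 ⟨dvd_rfl, h4⟩) ((hm₁ m).1 dvd_rfl).1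
        subst this
        exact Or.inr ⟨h2.trans hv, h3⟩
      · exact Or.inl h4
      · exact Or.inr ⟨h4, h5.trans h3⟩

/-- Propagation of the last clause of a task to all later stages. -/
theorem later (hF : IsFinal M h st len) {α : Ordinal.{0}} {x z o : M} {P : M → Prop}
    (hP : ∀ u u', u ∣ u' → P u' → P u) (hx : st x = α) (ho : st o < α) (hxz : x ∣ z)
    (hxo : ¬ x ∣ o) (base : ∀ u, st u ≤ α → u ∣ z → u ∣ o → P u) :
    ∀ u, u ∣ z → u ∣ o → P u := by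
  have key : ∀ (β : Ordinal.{0}) (n : ℕ) (u : M), st u = β → len u = n → u ∣ z → u ∣ o → P u := by
    intro β
    induction β using WellFoundedLT.induction with
    | ind β ihβ =>
      intro n
      induction n using Nat.strong_induction_on with
      | _ n ihn =>
        intro u hβ hn hz huo
        rcases le_or_gt (st u) α with h1 | h1
        · exact base u h1 hz huo
        obtain ⟨u₁, hd, hlt, hstep⟩ := hF.step u (lt_of_le_of_lt (by simp) h1)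
        have h2 : u₁ ∣ z := by
          rcases hstep x (hx ▸ h1) with h3 | h3
          · exact absurd (h3.trans huo) hxo
          · exact h3 z hz hxz
        have h3 : u₁ ∣ o := by
          rcases hstep o (ho.trans h1) with h3 | h3
          · have : u = o := antisymm hF.good huo h3
            subst this
            exact absurd (ho.trans h1) (lt_irrefl _)
          · exact h3 o huo dvd_rfl
        refine hP u u₁ hd ?_
        rcases hlt with h4 | ⟨h4, h5⟩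
        · exact ihβ (st u₁) (hβ ▸ h4) _ u₁ rfl rfl h2 h3
        · exact ihn (len u₁) (hn ▸ h5) u₁ (h4.trans hβ) rfl h2 h3
  exact fun u => key _ _ u rfl rfl

end Mon

/-- The final monoid together with a strictly increasing chain. -/
structure Data where
  M : Type 1
  [mon : Monoid M]
  h : M → ℝ
  st : M → Ordinal.{0}
  len : M → ℕ
  fin : IsFinal M h st len
  b : M
  u : ℕ → M
  hb : b ≠ 1
  hu : ∀ n, u (n + 1) * b = u n

attribute [instance] Data.mon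

namespace Data

variable (D : Data)

theorem u_succ_dvd (n : ℕ) : D.u (n + 1) ∣ D.u n := ⟨D.b, (D.hu n).symm⟩

theorem u_anti {n m : ℕ} (hnm : n ≤ m) : D.u m ∣ D.u n := by
  induction hnm with
  | refl => exact dvd_rfl
  | step _ ih => exact (D.u_succ_dvd _).trans ih

theorem not_u_dvd (n : ℕ) : ¬ D.u n ∣ D.u (n + 1) := by
  intro hd
  have h1 := antisymm D.fin.good hd (D.u_succ_dvd n)
  have h2 : D.u (n + 1) * D.b = D.u (n + 1) * 1 := by rw [D.hu n, mul_one, h1]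
  exact D.hb (D.fin.good.cancel _ _ _ h2)

/-- Elements lying below the chain. -/
def Mem (s : D.M) : Prop := ∃ n, D.u n ∣ s

theorem Mem.of_dvd {D : Data} {s t : D.M} (hs : D.Mem s) (hst : s ∣ t) : D.Mem t :=
  let ⟨n, hn⟩ := hs; ⟨n, hn.trans hst⟩

theorem mem_u (n : ℕ) : D.Mem (D.u n) := ⟨n, dvd_rfl⟩

/-- Far elements of the chain lie strictly above a given element. -/
theorem Mem.above {D : Data} {s : D.M} (hs : D.Mem s) :
    ∃ n, ∀ m, n ≤ m → D.u m ∣ s ∧ ¬ s ∣ D.u m := by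
  obtain ⟨n, hn⟩ := hs
  refine ⟨n + 1, fun m hm => ⟨(D.u_anti (by omega)).trans hn, fun hd => ?_⟩⟩
  exact D.not_u_dvd n (hn.trans (hd.trans (D.u_anti hm)))

/-- The semilattice. -/
def L : Type 1 := {s : D.M // D.Mem s}

noncomputable def meet (s t : D.M) : D.M := Classical.choose (D.fin.good.meet s t)

theorem meet_spec (s t : D.M) : IsMeet s t (D.meet s t) := Classical.choose_spec (D.fin.good.meet s t)

noncomputable instance : SemilatticeInf D.L where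
  le x y := y.1 ∣ x.1
  le_refl _ := dvd_rfl
  le_trans _ _ _ h₁ h₂ := dvd_trans h₂ h₁
  le_antisymm _ _ h₁ h₂ := Subtype.ext (antisymm D.fin.good h₂ h₁)
  inf x y := ⟨D.meet x.1 y.1, x.2.of_dvd ((D.meet_spec _ _ _).1 dvd_rfl).1⟩
  inf_le_left _ _ := ((D.meet_spec _ _ _).1 dvd_rfl).1
  inf_le_right _ _ := ((D.meet_spec _ _ _).1 dvd_rfl).2
  le_inf _ _ _ h₁ h₂ := (D.meet_spec _ _ _).2 ⟨h₁, h₂⟩

variable {D}

theorem le_iff {x y : D.L} : x ≤ y ↔ y.1 ∣ x.1 := Iff.rfl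

theorem lt_iff {x y : D.L} : x < y ↔ y.1 ∣ x.1 ∧ ¬ x.1 ∣ y.1 := lt_iff_le_not_ge

theorem isMeet_inf (x y : D.L) : IsMeet x.1 y.1 (x ⊓ y).1 := D.meet_spec _ _

/-- Right multiplication. -/
def act (x : D.L) (s : D.M) : D.L := ⟨x.1 * s, x.2.of_dvd (dvd_mul_right _ _)⟩

@[simp] theorem act_val (x : D.L) (s : D.M) : (act x s).1 = x.1 * s := rfl

theorem eq_act {x y : D.L} {s : D.M} (h : x.1 = y.1 * s) : x = act y s := Subtype.ext h

variable (D) in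
/-- The group of right-equivariant permutations. -/
def G : Subgroup (Equiv.Perm D.L) where
  carrier := {g | ∀ x s, g (act x s) = act (g x) s}
  one_mem' := fun _ _ => rfl
  mul_mem' := fun {g g'} hg hg' x s => by
    simp only [Equiv.Perm.coe_mul, Function.comp_apply]
    rw [hg', hg]
  inv_mem' := fun {g} hg x s => by
    apply g.injective
    rw [hg]
    simp

theorem smul_act (g : D.G) (x : D.L) (s : D.M) : g • act x s = act (g • x) s := g.2 x s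

theorem smul_val_of_eq (g : D.G) {x y : D.L} {s : D.M} (h : x.1 = y.1 * s) :
    (g • x).1 = (g • y).1 * s := by
  rw [eq_act h, smul_act, act_val]

/-- One half of a back-and-forth step. -/
theorem half (α : Ordinal.{0}) (k : ℕ) {x x' : D.M} (hx : D.Mem x) (hx' : D.Mem x') :
    ∃ y y' d : D.M, D.Mem y ∧ D.Mem y' ∧ y ∣ D.u k ∧ x = y * d ∧ x' = y' * d ∧
      ∀ s, D.st (y' * s) < α → ∃ t, s = d * t := by
  obtain ⟨n, hn⟩ := hx.above
  obtain ⟨n', hn'⟩ := hx'.above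
  obtain ⟨⟨d, hd⟩, hnd⟩ := hn (max n k) (le_max_left _ _)
  obtain ⟨he, hne⟩ := hn' n' le_rfl
  have hd1 : d ≠ 1 := by
    rintro rfl
    exact hnd (by rw [hd, mul_one])
  set a := max α (max (D.st d) (max (D.st x') (D.st (D.u n'))) + 1) with ha
  have hlt : max (D.st d) (max (D.st x') (D.st (D.u n'))) < a :=
    lt_of_lt_of_le (lt_add_one _) (le_max_right _ _)
  obtain ⟨y', -, hm, hc, ho⟩ := simple D.fin (α := a) (q := d) (r := x') (c := D.u n')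
    (lt_of_le_of_lt (le_max_left _ _) hlt)
    (lt_of_le_of_lt ((le_max_left _ _).trans (le_max_right _ _)) hlt)
    (lt_of_le_of_lt ((le_max_right _ _).trans (le_max_right _ _)) hlt) hd1 he
    (fun h => hne (h ▸ dvd_rfl))
  refine ⟨D.u (max n k), y', d, D.mem_u _, (D.mem_u n').of_dvd hc, D.u_anti (le_max_right _ _), hd,
    hm.symm, fun s hs => ?_⟩
  obtain ⟨t, ht⟩ := ho _ (lt_of_lt_of_le hs (le_max_left _ _)) (dvd_mul_right _ _)
  refine ⟨t, D.fin.good.cancel y' _ _ ?_⟩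
  rw [ht, ← hm, mul_assoc]

/-- The invariant of the back-and-forth construction. -/
def Inv (r : D.M) (α : Ordinal.{0}) (x : D.M × D.M) : Prop :=
  D.Mem x.1 ∧ D.Mem x.2 ∧ ∀ s, D.st (x.1 * s) < α → ¬ r ∣ x.1 * s → α ≤ D.st (x.2 * s)

theorem full (r : D.M) (α : Ordinal.{0}) (k : ℕ) (x : {x : D.M × D.M // Inv r α x}) :
    ∃ y : {x : D.M × D.M // Inv r α x}, y.1.1 ∣ D.u k ∧ y.1.2 ∣ D.u k ∧
      ∃ d, x.1.1 = y.1.1 * d ∧ x.1.2 = y.1.2 * d := by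
  obtain ⟨⟨x, x'⟩, hx, hx', hI⟩ := x
  dsimp only at hx hx' hI ⊢
  obtain ⟨y, y', d, hy, hy', hyk, e, e', ho⟩ := half α k hx hx'
  obtain ⟨z', z, d', hz', hz, hzk, f', f, ho'⟩ := half α k hy' hy
  have hI₁ : ∀ s, D.st (y * s) < α → ¬ r ∣ y * s → α ≤ D.st (y' * s) := by
    intro s h1 h2
    by_contra h3
    obtain ⟨t, rfl⟩ := ho s (not_le.1 h3)
    rw [← mul_assoc, ← e] at h1 h2
    rw [← mul_assoc, ← e'] at h3
    exact h3 (hI t h1 h2)
  refine ⟨⟨(z, z'), hz, hz', fun s h1 h2 => ?_⟩, ?_, hzk, d' * d, ?_, ?_⟩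
  · dsimp only at h1 h2 ⊢
    obtain ⟨t, rfl⟩ := ho' s h1
    rw [← mul_assoc, ← f] at h1 h2
    rw [← mul_assoc, ← f']
    exact hI₁ t h1 h2
  · exact (Dvd.intro d' f.symm).trans hyk
  · dsimp only; rw [e, f, mul_assoc]
  · dsimp only; rw [e', f', mul_assoc]

/-- Back and forth. -/
theorem back_forth (r r' : D.L) (α : Ordinal.{0}) :
    ∃ g : D.G, g • r = r' ∧ ∀ s : D.L, D.st s.1 < α → ¬ s ≤ r → α ≤ D.st (g • s).1 := by
  choose f hf₁ hf₂ hf₃ using full (D := D) r.1 α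
  let x : ℕ → {x : D.M × D.M // Inv r.1 α x} := fun n =>
    Nat.rec ⟨(r.1, r'.1), r.2, r'.2, fun s _ h2 => absurd (dvd_mul_right _ _) h2⟩
      (fun k y => f k y) n
  have hx0 : (x 0).1 = (r.1, r'.1) := rfl
  have hxs : ∀ n, x (n + 1) = f n (x n) := fun _ => rfl
  have hmono : ∀ n m, n ≤ m → ∃ d, (x n).1.1 = (x m).1.1 * d ∧ (x n).1.2 = (x m).1.2 * d := by
    intro n m hnm
    induction hnm with
    | refl => exact ⟨1, by simp, by simp⟩
    | @step m _ ih =>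
      obtain ⟨d, e, e'⟩ := ih
      obtain ⟨d', g, g'⟩ := hf₃ m (x m)
      rw [← hxs] at g g'
      exact ⟨d' * d, by rw [e, g, mul_assoc], by rw [e', g', mul_assoc]⟩
  let R : D.L → D.L → Prop := fun s s' => ∃ n t, s.1 = (x n).1.1 * t ∧ s'.1 = (x n).1.2 * t
  have hfun : ∀ s₁ s₁' s₂ s₂', R s₁ s₁' → R s₂ s₂' → (s₁ = s₂ ↔ s₁' = s₂') := by
    rintro s₁ s₁' s₂ s₂' ⟨n, t, e, e'⟩ ⟨m, v, g, g'⟩
    obtain ⟨d, a, a'⟩ := hmono n (max n m) (le_max_left _ _)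
    obtain ⟨c, b, b'⟩ := hmono m (max n m) (le_max_right _ _)
    rw [a, mul_assoc] at e
    rw [a', mul_assoc] at e'
    rw [b, mul_assoc] at g
    rw [b', mul_assoc] at g'
    constructor
    · rintro rfl
      have := D.fin.good.cancel _ _ _ (e.symm.trans g)
      exact Subtype.ext (by rw [e', g', this])
    · rintro rfl
      have := D.fin.good.cancel _ _ _ (e'.symm.trans g')
      exact Subtype.ext (by rw [e, g, this])
  have htot : ∀ s, ∃ s', R s s' := by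
    intro s
    obtain ⟨k, hk⟩ := s.2
    obtain ⟨t, ht⟩ := (hf₁ k (x k)).trans hk
    rw [← hxs] at ht
    exact ⟨⟨_, (x (k + 1)).2.2.1.of_dvd (dvd_mul_right _ t)⟩, k + 1, t, ht, rfl⟩
  have htot' : ∀ s', ∃ s, R s s' := by
    intro s
    obtain ⟨k, hk⟩ := s.2
    obtain ⟨t, ht⟩ := (hf₂ k (x k)).trans hk
    rw [← hxs] at ht
    exact ⟨⟨_, (x (k + 1)).2.1.of_dvd (dvd_mul_right _ t)⟩, k + 1, t, rfl, ht⟩
  choose φ hφ using htot
  choose ψ hψ using htot'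
  let e : Equiv.Perm D.L :=
    ⟨φ, ψ, fun s => (hfun _ _ _ _ (hψ (φ s)) (hφ s)).2 rfl,
      fun s => (hfun _ _ _ _ (hφ (ψ s)) (hψ s)).1 rfl⟩
  have he : e ∈ D.G := by
    intro s t
    refine (hfun _ _ _ _ (hφ (act s t)) (?_ : R (act s t) (act (φ s) t))).1 rfl
    obtain ⟨n, v, a, a'⟩ := hφ s
    exact ⟨n, v * t, by rw [act_val, a, mul_assoc], by rw [act_val, a', mul_assoc]⟩
  refine ⟨⟨e, he⟩, ?_, fun s hs hsr => ?_⟩
  · exact (hfun _ _ _ _ (hφ r) ⟨0, 1, by rw [hx0, mul_one], by rw [hx0, mul_one]⟩).1 rfl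
  · obtain ⟨n, v, a, a'⟩ := hφ s
    show α ≤ D.st (φ s).1
    rw [a']
    exact (x n).2.2.2 v (a ▸ hs) (by rw [← a]; exact hsr)

theorem trans_act (r r' : D.L) : ∃ g : D.G, g • r = r' :=
  let ⟨g, hg, _⟩ := back_forth r r' 0; ⟨g, hg⟩

theorem filt (F : Set D.L) (hF : ∀ x ∈ F, ∀ y ∈ F, x ⊓ y ∈ F) (z : D.L) (hz : z ∈ F) :
    (∃ o ∈ F, D.st o.1 < D.st z.1 ∧ o ≤ z) ∨
      (∃ z' ∈ F, ∀ o ∈ F, D.st o.1 < D.st z.1 → z' ≤ o) := by
  classical
  by_cases h1 : ∃ o ∈ F, D.st o.1 < D.st z.1 ∧ o ≤ z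
  · exact Or.inl h1
  right
  have hex : ∃ n, ∃ v ∈ F, v ≤ z ∧ D.st v.1 = D.st z.1 ∧ D.len v.1 = n := ⟨_, z, hz, le_rfl, rfl, rfl⟩
  obtain ⟨v, hv, hvz, hst, hlen⟩ := Nat.find_spec hex
  refine ⟨v, hv, fun o ho hlt => ?_⟩
  rcases meet_cases D.fin (lt_of_le_of_lt (by simp) hlt) hlt _ v.1 _ rfl hst (isMeet_inf v o) with
    h2 | h2 | ⟨h2, h3⟩
  · exact h2
  · exact absurd ⟨v ⊓ o, hF v hv o ho, h2, inf_le_left.trans hvz⟩ h1
  · exact absurd ⟨v ⊓ o, hF v hv o ho, inf_le_left.trans hvz, h2, rfl⟩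
      (Nat.find_min hex (hlen ▸ h3))

theorem ext (x r c : D.L) (E : Set D.L) (α : Ordinal.{0}) (hrx : r < x)
    (hE : IsFilt (fun y : D.L => D.st y.1) α E) (hrc : r < c) (hc : ∀ e ∈ E, c ≤ e)
    (sx : D.st x.1 < α) (sr : D.st r.1 < α) (sc : D.st c.1 < α) :
    ∃ g : D.G, g • r = r ∧ D.st (g • x).1 = α ∧ (∀ e ∈ E, g • x ≤ e) ∧ g • x ∉ E ∧
      ∀ z o u : D.L, z ≤ g • x → ¬ z ≤ r → D.st o.1 < α → ¬ o ≤ r → z ≤ u → o ≤ u → u ∈ E := by
  obtain ⟨⟨q, hq⟩, hn⟩ := lt_iff.1 hrx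
  obtain ⟨hcr, hnrc⟩ := lt_iff.1 hrc
  have hq1 : q ≠ 1 := by
    rintro rfl
    exact hn (by rw [hq, mul_one])
  have h0 : D.st (1 : D.M) < α := by rw [D.fin.st_one]; exact lt_of_le_of_lt (by simp) sc
  have hval : (⟨1, q, r.1, r.1, {e | D.st e < α ∧ ∃ o ∈ E, e ∣ o.1}⟩ : Task D.M).ValidAt D.st α :=
    { st_p := h0
      st_q := st_cofactor D.fin sx.le (hq ▸ sr)
      st_q₁ := sr
      st_q₂ := sr
      st_E := fun _ he => he.1
      q_ne := hq1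
      glue := glue_simple q r.1
      one_mem := ⟨h0, let ⟨o, ho⟩ := hE.ne; ⟨o, ho, one_dvd _⟩⟩
      up := fun _ ⟨_, o, ho, hd⟩ _ h1 h2 => ⟨h1, o, ho, h2.trans hd⟩
      dir := fun e ⟨_, o, ho, hd⟩ e' ⟨_, o', ho', hd'⟩ => by
        obtain ⟨o'', ho'', hs, hle⟩ := hE.gen _ (hE.inf o ho o' ho')
        exact ⟨o''.1, ⟨hs, o'', ho'', dvd_rfl⟩, hd.trans (le_iff.1 (hle.trans inf_le_left)),
          hd'.trans (le_iff.1 (hle.trans inf_le_right))⟩
      room := ⟨c.1, sc, fun _ ⟨_, o, ho, hd⟩ => hd.trans (le_iff.1 (hc o ho)), hcr, hcr,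
        fun h => hnrc (h ▸ dvd_rfl), fun h => hnrc (h ▸ dvd_rfl)⟩ }
  obtain ⟨x₁, x₂, e₁, -, m₁, -, -, -, hEx, hold, -, hlast⟩ := D.fin.task α _ hval
  dsimp only at m₁ hEx hold hlast
  have hup : ∀ e ∈ E, e.1 ∣ x₁ := by
    intro e he
    obtain ⟨o, ho, hs, hle⟩ := hE.gen e he
    exact (le_iff.1 hle).trans (hEx o.1 ⟨hs, o, ho, dvd_rfl⟩).1
  obtain ⟨e₀, he₀⟩ := hE.ne
  obtain ⟨g, hg⟩ := trans_act x ⟨x₁, e₀.2.of_dvd (hup e₀ he₀)⟩
  have hgx : (g • x).1 = x₁ := by rw [hg]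
  refine ⟨g, Subtype.ext ?_, by rw [hgx, e₁], fun e he => by rw [le_iff, hgx]; exact hup e he, ?_, ?_⟩
  · rw [smul_val_of_eq g hq, hgx, m₁]
  · intro hmem
    obtain ⟨o, ho, hs, hle⟩ := hE.gen _ hmem
    rw [le_iff, hgx] at hle
    exact hnrc ((hold o.1 hs hle).trans (le_iff.1 (hc o ho)))
  · intro z o u hz hzr so hor hzu hou
    rw [le_iff, hgx] at hz
    obtain ⟨o', ho', hd⟩ := later D.fin (P := fun u => ∃ o ∈ E, u ∣ o.1)
      (fun _ _ hd ⟨o, ho, hd'⟩ => ⟨o, ho, hd.trans hd'⟩) e₁ so hz (fun hd => hor (hold _ so hd))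
      (fun u su huz huo => by
        obtain ⟨e, ⟨-, o', ho', hd'⟩, hd⟩ := hlast rfl u z.1 o.1 su so hz huz hzr huo hor
        exact ⟨o', ho', hd.trans hd'⟩) u.1 hzu hou
    exact hE.up o' ho' u hd

theorem digon (x p q : D.L) (g : D.G) (α : Ordinal.{0}) (hp : p ≤ x) (hq : q < x)
    (hg : g • (p ⊓ q) = p ⊓ q) (hqq : q ⊓ g • q = p ⊓ q) :
    ∃ g₁ g₂ : D.G, g₁ • q = q ∧ g₂ • q = g • q ∧ g₁ • p = g₂ • p ∧ (g₁ • x) ⊓ (g₂ • x) = g₁ • p ∧
      (∀ o : D.L, D.st o.1 < α → o ≤ g₁ • x → o ≤ q) ∧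
      (∀ o : D.L, D.st o.1 < α → o ≤ g₂ • x → o ≤ g • q) := by
  obtain ⟨p₀, hp₀⟩ := le_iff.1 hp
  obtain ⟨⟨q₀, hq₀⟩, hn⟩ := lt_iff.1 hq
  have hq1 : q₀ ≠ 1 := by
    rintro rfl
    exact hn (by rw [hq₀, mul_one])
  obtain ⟨w, hw⟩ := ((D.meet_spec p₀ q₀ _).1 dvd_rfl).2
  have hm₀ : IsMeet p₀ q₀ (q₀ * w) := hw ▸ D.meet_spec p₀ q₀
  have hm : IsMeet p.1 q.1 (q.1 * w) := by
    intro v
    rw [hp₀, hq₀, mul_assoc]
    constructor
    · intro hv
      obtain ⟨h1, h2⟩ := (hm₀ _).1 dvd_rfl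
      exact ⟨(mul_dvd_mul_left _ h1).trans hv, (mul_dvd_mul_left _ h2).trans hv⟩
    · rintro ⟨⟨a, ha⟩, ⟨b, hb⟩⟩
      have h1 : p₀ * a = q₀ * b :=
        D.fin.good.cancel x.1 _ _ (by rw [← mul_assoc, ← mul_assoc, ← ha, ← hb])
      have h2 : q₀ * w ∣ p₀ * a := (hm₀ _).2 ⟨dvd_mul_right _ _, h1 ▸ dvd_mul_right _ _⟩
      rw [ha, mul_assoc]
      exact mul_dvd_mul_left _ h2
  have hpq : (p ⊓ q).1 = q.1 * w := meet_unique D.fin.good (isMeet_inf p q) hm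
  have hgw : q.1 * w = (g • q).1 * w := by rw [← smul_val_of_eq g hpq, hg, hpq]
  have hm' : IsMeet q.1 (g • q).1 (q.1 * w) := by
    rw [← hpq, ← hqq]; exact isMeet_inf _ _
  obtain ⟨n, hn₁⟩ := q.2.above
  obtain ⟨n', hn₂⟩ := (g • q).2.above
  obtain ⟨d₁, nd₁⟩ := hn₁ (max n n') (le_max_left _ _)
  obtain ⟨d₂, nd₂⟩ := hn₂ (max n n') (le_max_right _ _)
  set c := D.u (max n n') with hc
  set β := max (max (D.st p₀) (D.st q₀)) (max (max (D.st q.1) (D.st (g • q).1)) (D.st c)) with hβ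
  have hlt : β < max α (β + 1) := lt_of_lt_of_le (lt_add_one _) (le_max_right _ _)
  have hlt' := hlt
  rw [hβ] at hlt'
  simp only [max_lt_iff] at hlt'
  obtain ⟨⟨s₁, s₂⟩, ⟨s₃, s₄⟩, s₅⟩ := hlt'
  rw [← hβ] at s₁ s₂ s₃ s₄ s₅
  obtain ⟨x₁, x₂, -, -, m₁, m₂, mp, hmeet, hEx, hold₁, hold₂, -⟩ := D.fin.task _ _
    (validAt_of_room D.fin s₁ s₂ s₃ s₄ s₅ hq1 ⟨w, hm₀, hgw, hm'⟩ d₁ d₂
      (fun h => nd₁ (h ▸ dvd_rfl)) (fun h => nd₂ (h ▸ dvd_rfl)))
  dsimp only at m₁ m₂ mp hmeet hEx hold₁ hold₂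
  obtain ⟨c₁, c₂⟩ := hEx c ⟨s₅, dvd_rfl⟩
  obtain ⟨g₁, hg₁⟩ := trans_act x ⟨x₁, (D.mem_u _).of_dvd c₁⟩
  obtain ⟨g₂, hg₂⟩ := trans_act x ⟨x₂, (D.mem_u _).of_dvd c₂⟩
  have e₁ : (g₁ • x).1 = x₁ := by rw [hg₁]
  have e₂ : (g₂ • x).1 = x₂ := by rw [hg₂]
  refine ⟨g₁, g₂, Subtype.ext ?_, Subtype.ext ?_, Subtype.ext ?_, Subtype.ext ?_, ?_, ?_⟩
  · rw [smul_val_of_eq g₁ hq₀, e₁, m₁]
  · rw [smul_val_of_eq g₂ hq₀, e₂, m₂]
  · rw [smul_val_of_eq g₁ hp₀, smul_val_of_eq g₂ hp₀, e₁, e₂, mp]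
  · refine meet_unique D.fin.good (isMeet_inf _ _) ?_
    rw [smul_val_of_eq g₁ hp₀, e₁, e₂]
    intro v
    exact ⟨fun hv => ⟨(dvd_mul_right _ _).trans hv, (dvd_mul_right _ p₀).trans (mp ▸ hv)⟩,
      fun hv => hmeet v hv.1 hv.2⟩
  · intro o so ho
    rw [le_iff, e₁] at ho
    exact hold₁ _ (lt_of_lt_of_le so (le_max_left _ _)) ho
  · intro o so ho
    rw [le_iff, e₂] at ho
    exact hold₂ _ (lt_of_lt_of_le so (le_max_left _ _)) ho

variable (D) in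
/-- The frame. -/
noncomputable def frame : Frame where
  L := D.L
  G := D.G
  st := fun x => D.st x.1
  h := fun x => D.h x.1
  ne := ⟨⟨D.u 0, D.mem_u 0⟩⟩
  smul_le := fun g x y hxy => by
    obtain ⟨s, hs⟩ := le_iff.1 hxy
    exact le_iff.2 ⟨s, smul_val_of_eq g hs⟩
  fix_below := fun g w v hw hvw => by
    obtain ⟨s, hs⟩ := le_iff.1 hvw
    exact Subtype.ext (by rw [smul_val_of_eq g hs, hw, hs])
  directed := fun x y => by
    obtain ⟨n, hn⟩ := x.2.above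
    obtain ⟨m, hm⟩ := y.2.above
    exact ⟨⟨D.u (max n m), D.mem_u _⟩, lt_iff.2 (hn _ (le_max_left _ _)),
      lt_iff.2 (hm _ (le_max_right _ _))⟩
  small_st := fun α => by
    have := D.fin.small α
    refine small_of_injective
      (f := fun x : {x : D.L // D.st x.1 < α} => (⟨x.1.1, x.2⟩ : {x : D.M // D.st x < α})) ?_
    rintro ⟨a, ha⟩ ⟨b, hb⟩ he
    simp only [Subtype.mk.injEq] at he ⊢
    exact Subtype.ext he
  st_inf := fun x y => D.fin.st_meet _ _ _ (isMeet_inf x y)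
  h_pos := fun x => D.fin.good.h_pos _
  h_mono := fun x y hxy => by
    obtain ⟨⟨s, hs⟩, hn⟩ := lt_iff.1 hxy
    have hs1 : s ≠ 1 := by
      rintro rfl
      exact hn (by rw [hs, mul_one])
    show D.h x.1 < D.h y.1
    rw [hs]
    exact D.fin.good.h_lt _ _ hs1
  st_pull := fun g w' w γ h1 h2 h3 hle => by
    obtain ⟨s, hs⟩ := le_iff.1 hle
    have h4 : D.st s < γ := st_cofactor D.fin h3 (hs ▸ h2)
    show D.st (g⁻¹ • w).1 < γ
    rw [smul_val_of_eq g⁻¹ hs, inv_smul_smul]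
    exact lt_of_le_of_lt (D.fin.st_mul _ _) (max_lt h1 h4)
  filt := filt
  move := fun w α => back_forth w w α
  ext := ext
  digon := digon

end Data

end Frame0

theorem frameStmt : FrameStmt := by
  rintro ⟨M, _, h, st, len, hF⟩
  obtain ⟨b, u, hb, hu⟩ := Frame0.exists_chain hF
  exact ⟨(⟨M, h, st, len, hF, b, u, hb, hu⟩ : Frame0.Data).frame⟩

end Crest.Agent.R296
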