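import Mathlib

/-!
Row 296 (partition principle without choice): the combinatorial layer.
A left-cancellative monoid with meets is built by transfinitely many "attachments"; from it one gets a
`Frame`: a meet-semilattice `L` with a group `G` acting on it.  The order on the monoid is reverse
divisibility: `s` is *below* `t` when `t ∣ s`, i.e. `s = t * v`.
-/

set_option autoImplicit false

namespace Crest.Agent.R296

universe v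

/-- `m` is the meet of `s` and `t` (a least common right multiple). -/
def IsMeet {M : Type v} [Monoid M] (s t m : M) : Prop := ∀ v, m ∣ v ↔ (s ∣ v ∧ t ∣ v)

/-- Good monoids: left cancellative, trivial units, binary meets, strictly monotone height. -/
structure Good (M : Type v) [Monoid M] (h : M → ℝ) : Prop where
  cancel : ∀ t s s' : M, t * s = t * s' → s = s'
  unit : ∀ t s : M, t * s = 1 → t = 1
  meet : ∀ s t : M, ∃ m, IsMeet s t m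
  h_pos : ∀ s, 0 < h s
  h_le : ∀ s, h s ≤ 1
  h_lt : ∀ t s : M, s ≠ 1 → h (t * s) < h t

/-- The data of an attachment. -/
@[ext] structure Task (M : Type v) where
  p : M
  q : M
  q₁ : M
  q₂ : M
  E : Set M

/-- A valid attachment: `E` is a filter, with room between `q₁, q₂` and `E`. -/
structure Task.Valid {M : Type v} [Monoid M] (τ : Task M) : Prop where
  q_ne : τ.q ≠ 1
  glue : ∃ w, IsMeet τ.p τ.q (τ.q * w) ∧ τ.q₁ * w = τ.q₂ * w ∧ IsMeet τ.q₁ τ.q₂ (τ.q₁ * w)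
  one_mem : (1 : M) ∈ τ.E
  up : ∀ e ∈ τ.E, ∀ e', e' ∣ e → e' ∈ τ.E
  dir : ∀ e ∈ τ.E, ∀ e' ∈ τ.E, ∃ e'' ∈ τ.E, e ∣ e'' ∧ e' ∣ e''
  room : ∃ c, (∀ e ∈ τ.E, e ∣ c) ∧ c ∣ τ.q₁ ∧ c ∣ τ.q₂ ∧ c ≠ τ.q₁ ∧ c ≠ τ.q₂

/-- One step: all valid attachments of a good monoid are realised in a good extension. -/
structure IsSucc {M M' : Type v} [Monoid M] [Monoid M'] (h : M → ℝ) (h' : M' → ℝ) (i : M →* M')
    (len : M' → ℕ) : Prop where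
  good : Good M' h'
  inj : Function.Injective i
  h_eq : ∀ m, h' (i m) = h m
  small : Small.{0} M → Small.{0} M'
  right : ∀ t s : M', t * s ∈ Set.range i → s ∈ Set.range i
  meet_old : ∀ x y m : M, IsMeet x y m → IsMeet (i x) (i y) (i m)
  step : ∀ u : M', u ∉ Set.range i → ∃ u₁, u ∣ u₁ ∧ (u₁ ∈ Set.range i ∨ len u₁ < len u) ∧
    ∀ o : M, i o ∣ u ∨ ∀ v, u ∣ v → i o ∣ v → u₁ ∣ v
  task : ∀ τ : Task M, τ.Valid → ∃ x₁ x₂ : M', x₁ ∉ Set.range i ∧ x₂ ∉ Set.range i ∧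
    x₁ * i τ.q = i τ.q₁ ∧ x₂ * i τ.q = i τ.q₂ ∧ x₁ * i τ.p = x₂ * i τ.p ∧
    (∀ v, x₁ ∣ v → x₂ ∣ v → x₁ * i τ.p ∣ v) ∧
    (∀ e ∈ τ.E, i e ∣ x₁ ∧ i e ∣ x₂) ∧
    (∀ o : M, x₁ ∣ i o → τ.q₁ ∣ o) ∧ (∀ o : M, x₂ ∣ i o → τ.q₂ ∣ o) ∧
    (τ.q₁ = τ.q₂ → ∀ (u z : M') (o : M), x₁ ∣ z → u ∣ z → ¬ i τ.q₁ ∣ z → u ∣ i o → ¬ τ.q₁ ∣ o →
      ∃ e ∈ τ.E, u ∣ i e)

def SuccStmt : Prop :=
  ∀ (M : Type 1) [Monoid M] (h : M → ℝ), Good M h →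
    ∃ (M' : Type 1) (_ : Monoid M') (h' : M' → ℝ) (i : M →* M') (len : M' → ℕ), IsSucc h h' i len

/-- A task all of whose data were born before stage `α`, valid in the part born before `α`. -/
structure Task.ValidAt {M : Type 1} [Monoid M] (st : M → Ordinal.{0}) (α : Ordinal.{0})
    (τ : Task M) : Prop where
  st_p : st τ.p < α
  st_q : st τ.q < α
  st_q₁ : st τ.q₁ < α
  st_q₂ : st τ.q₂ < α
  st_E : ∀ e ∈ τ.E, st e < α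
  q_ne : τ.q ≠ 1
  glue : ∃ w, IsMeet τ.p τ.q (τ.q * w) ∧ τ.q₁ * w = τ.q₂ * w ∧ IsMeet τ.q₁ τ.q₂ (τ.q₁ * w)
  one_mem : (1 : M) ∈ τ.E
  up : ∀ e ∈ τ.E, ∀ e', st e' < α → e' ∣ e → e' ∈ τ.E
  dir : ∀ e ∈ τ.E, ∀ e' ∈ τ.E, ∃ e'' ∈ τ.E, e ∣ e'' ∧ e' ∣ e''
  room : ∃ c, st c < α ∧ (∀ e ∈ τ.E, e ∣ c) ∧ c ∣ τ.q₁ ∧ c ∣ τ.q₂ ∧ c ≠ τ.q₁ ∧ c ≠ τ.q₂

/-- The monoid obtained by iterating the step along all ordinals; `st` is the birth stage. -/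
structure IsFinal (M : Type 1) [Monoid M] (h : M → ℝ) (st : M → Ordinal.{0}) (len : M → ℕ) :
    Prop where
  good : Good M h
  nontriv : ∃ b : M, b ≠ 1
  st_one : st 1 = 0
  st_mul : ∀ s t : M, st (s * t) ≤ max (st s) (st t)
  st_right : ∀ t s : M, st t ≤ st s → st s ≤ st (t * s)
  st_meet : ∀ s t m : M, IsMeet s t m → st m ≤ max (st s) (st t)
  small : ∀ α, Small.{0} {x : M // st x < α}
  step : ∀ u : M, 0 < st u → ∃ u₁, u ∣ u₁ ∧ (st u₁ < st u ∨ (st u₁ = st u ∧ len u₁ < len u)) ∧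
    ∀ o, st o < st u → o ∣ u ∨ ∀ v, u ∣ v → o ∣ v → u₁ ∣ v
  task : ∀ (α : Ordinal.{0}) (τ : Task M), τ.ValidAt st α → ∃ x₁ x₂ : M, st x₁ = α ∧ st x₂ = α ∧
    x₁ * τ.q = τ.q₁ ∧ x₂ * τ.q = τ.q₂ ∧ x₁ * τ.p = x₂ * τ.p ∧
    (∀ v, x₁ ∣ v → x₂ ∣ v → x₁ * τ.p ∣ v) ∧
    (∀ e ∈ τ.E, e ∣ x₁ ∧ e ∣ x₂) ∧
    (∀ o, st o < α → x₁ ∣ o → τ.q₁ ∣ o) ∧ (∀ o, st o < α → x₂ ∣ o → τ.q₂ ∣ o) ∧
    (τ.q₁ = τ.q₂ → ∀ u z o : M, st u ≤ α → st o < α → x₁ ∣ z → u ∣ z → ¬ τ.q₁ ∣ z → u ∣ o →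
      ¬ τ.q₁ ∣ o → ∃ e ∈ τ.E, u ∣ e)

def FinalStmt : Prop :=
  ∃ (M : Type 1) (_ : Monoid M) (h : M → ℝ) (st : M → Ordinal.{0}) (len : M → ℕ), IsFinal M h st len

/-- A filter in a meet-semilattice generated by its elements born before `α`. -/
structure IsFilt {L : Type 1} [SemilatticeInf L] (st : L → Ordinal.{0}) (α : Ordinal.{0})
    (E : Set L) : Prop where
  ne : E.Nonempty
  up : ∀ e ∈ E, ∀ e', e ≤ e' → e' ∈ E
  inf : ∀ e ∈ E, ∀ e' ∈ E, e ⊓ e' ∈ E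
  gen : ∀ e ∈ E, ∃ o ∈ E, st o < α ∧ o ≤ e

/-- The combinatorial input of the forcing construction. -/
structure Frame where
  L : Type 1
  [instL : SemilatticeInf L]
  G : Type 1
  [instG : Group G]
  [instA : MulAction G L]
  st : L → Ordinal.{0}
  h : L → ℝ
  ne : Nonempty L
  smul_le : ∀ (g : G) (x y : L), x ≤ y → g • x ≤ g • y
  fix_below : ∀ (g : G) (w v : L), g • w = w → v ≤ w → g • v = v
  directed : ∀ x y : L, ∃ z, x < z ∧ y < z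
  small_st : ∀ α, Small.{0} {x : L // st x < α}
  st_inf : ∀ x y : L, st (x ⊓ y) ≤ max (st x) (st y)
  h_pos : ∀ x, 0 < h x
  h_mono : StrictMono h
  st_pull : ∀ (g : G) (w' w : L) (γ : Ordinal.{0}), st w' < γ → st w < γ → st (g • w') ≤ γ →
    w ≤ g • w' → st (g⁻¹ • w) < γ
  filt : ∀ F : Set L, (∀ x ∈ F, ∀ y ∈ F, x ⊓ y ∈ F) → ∀ z ∈ F,
    (∃ o ∈ F, st o < st z ∧ o ≤ z) ∨ (∃ z' ∈ F, ∀ o ∈ F, st o < st z → z' ≤ o)
  move : ∀ (w : L) (α : Ordinal.{0}), ∃ k : G, k • w = w ∧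
    ∀ s, st s < α → ¬ s ≤ w → α ≤ st (k • s)
  ext : ∀ (x r c : L) (E : Set L) (α : Ordinal.{0}), r < x → IsFilt st α E → r < c →
    (∀ e ∈ E, c ≤ e) → st x < α → st r < α → st c < α →
    ∃ g : G, g • r = r ∧ st (g • x) = α ∧ (∀ e ∈ E, g • x ≤ e) ∧ g • x ∉ E ∧
      ∀ z o u : L, z ≤ g • x → ¬ z ≤ r → st o < α → ¬ o ≤ r → z ≤ u → o ≤ u → u ∈ E
  digon : ∀ (x p q : L) (g : G) (α : Ordinal.{0}), p ≤ x → q < x → g • (p ⊓ q) = p ⊓ q →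
    q ⊓ g • q = p ⊓ q →
    ∃ g₁ g₂ : G, g₁ • q = q ∧ g₂ • q = g • q ∧ g₁ • p = g₂ • p ∧ (g₁ • x) ⊓ (g₂ • x) = g₁ • p ∧
      (∀ o, st o < α → o ≤ g₁ • x → o ≤ q) ∧ (∀ o, st o < α → o ≤ g₂ • x → o ≤ g • q)

attribute [instance] Frame.instL Frame.instG Frame.instA

def FinalOfSuccStmt : Prop := SuccStmt → FinalStmt

def FrameStmt : Prop := FinalStmt → Nonempty Frame

end Crest.Agent.R296
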