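import Crest.Agent.R296.Defs

/-!
Row 296: failure of choice in the symmetric system of a frame.
-/

set_option autoImplicit false

namespace Crest.Agent.R296

open Name Cond

namespace NotAC

variable (F : Frame)

/-- Invariant names of the ordinals. -/
noncomputable def eN : Ordinal.{0} → Name (Cond F) :=
  Ordinal.lt_wf.fix fun a rec => Name.mk {b // b < a} (fun b => rec b.1 b.2) (fun _ => ⊤)

theorem eN_eq (a : Ordinal.{0}) :
    eN F a = Name.mk {b // b < a} (fun b => eN F b.1) (fun _ => ⊤) := by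
  rw [eN, WellFounded.fix_eq]

variable {F}

theorem smul_eN (g : F.G) (a : Ordinal.{0}) : g • eN F a = eN F a := by
  induction a using WellFoundedLT.induction with
  | ind a ih =>
    rw [eN_eq, smul_mk]
    congr 1
    funext b
    exact ih b.1 b.2

theorem hs_eN (a : Ordinal.{0}) : F.sys.HS (eN F a) := by
  induction a using WellFoundedLT.induction with
  | ind a ih =>
    obtain ⟨w⟩ := F.ne
    have h : F.sys.Supp w (eN F a) := fun k _ => FEq.of_eq (smul_eN k a) _
    rw [eN_eq] at h ⊢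
    exact ⟨⟨w, h⟩, fun b => ih b.1 b.2⟩

theorem eN_mem {a b : Ordinal.{0}} (h : a < b) (p : Cond F) : FMem (eN F a) (eN F b) p := by
  rw [eN_eq F b]
  exact fmem_mk.2 fun q _ => ⟨q, le_rfl, ⟨a, h⟩, le_top, FEq.refl _ _⟩

theorem eN_inj {a b : Ordinal.{0}} {p : Cond F} (h : FEq (eN F a) (eN F b) p) : a = b := by
  rcases lt_trichotomy a b with hab | hab | hab
  · exact absurd (eN_mem hab p) (not_fmem_of_feq h.symm)
  · exact hab
  · exact absurd (eN_mem hab p) (not_fmem_of_feq h)

open Classical in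
/-- The condition with a single value. -/
noncomputable def one (u : F.L) (γ : Ordinal.{0}) : Cond F :=
  ⟨fun x => if x = (u, γ) then some true else none, by
    have : Subsingleton {x : F.L × Ordinal.{0} //
        (if x = (u, γ) then some true else none : Option Bool) ≠ none} :=
      ⟨fun x y => Subtype.ext (by
        have hx : x.1 = (u, γ) := by by_contra h; exact x.2 (if_neg h)
        have hy : y.1 = (u, γ) := by by_contra h; exact y.2 (if_neg h)
        rw [hx, hy])⟩
    infer_instance⟩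

open Classical in
theorem one_val (u : F.L) (γ : Ordinal.{0}) (x : F.L × Ordinal.{0}) :
    (one u γ).val x = if x = (u, γ) then some true else none := rfl

theorem le_one_iff {p : Cond F} {u : F.L} {γ : Ordinal.{0}} :
    p ≤ one u γ ↔ p.val (u, γ) = some true := by
  refine ⟨fun h => h _ _ (by rw [one_val, if_pos rfl]), fun h x b hx => ?_⟩
  rw [one_val] at hx
  split_ifs at hx with h'
  rw [h', h, hx]

theorem smul_one (k : F.G) (u : F.L) (γ : Ordinal.{0}) : k • one u γ = one (k • u) γ := by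
  ext1
  funext ⟨v, δ⟩
  rw [smul_val, one_val, one_val]
  have h : ((k⁻¹ • v, δ) = (u, γ)) ↔ ((v, δ) = (k • u, γ)) := by
    rw [Prod.mk.injEq, Prod.mk.injEq, inv_smul_eq_iff]
  by_cases h' : (v, δ) = (k • u, γ)
  · rw [if_pos h', if_pos (h.2 h')]
  · rw [if_neg h', if_neg (mt h.1 h')]

/-- The generic column of a point. -/
noncomputable def col (u : F.L) : Name (Cond F) :=
  Name.mk Ordinal.{0} (fun γ => eN F γ) (fun γ => one u γ)

theorem smul_col (k : F.G) (u : F.L) : k • col u = col (k • u) := by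
  simp only [col, smul_mk, smul_eN, smul_one]

theorem hs_col (u : F.L) : F.sys.HS (col u) :=
  ⟨⟨u, fun k hk => FEq.of_eq (by
    have hk' : k • u = u := hk
    exact (smul_col k u).trans (congrArg col hk')) _⟩, fun γ => hs_eN γ⟩

theorem col_val {u v : F.L} {q : Cond F} (h : FEq (col u) (col v) q) {γ : Ordinal.{0}}
    (hu : q.val (u, γ) = some true) (hv : q.val (v, γ) = some false) : False := by
  have h1 : FMem (eN F γ) (col u) q := FMem.fn_mem (col u) γ (le_one_iff.2 hu)
  obtain ⟨r, hr, δ, hδ, he⟩ := fmem_mk.1 (FMem.congr_right h h1) q le_rfl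
  obtain rfl := eN_inj he
  have h2 := le_one_iff.1 hδ
  rw [hr _ _ hv] at h2
  cases h2

theorem col_inj (api : CondAPI F) {u v : F.L} {p : Cond F} (h : FEq (col u) (col v) p) : u = v := by
  by_contra huv
  obtain ⟨q, hq, hs⟩ := api.separate p {u, v} inferInstance
  obtain ⟨γ, b, h1, h2⟩ := hs u (by simp) v (by simp) huv
  cases b
  · exact col_val (h.mono hq).symm h2 h1
  · exact col_val (h.mono hq) h1 h2

/-- The pair of two columns. -/
noncomputable def pr (u v : F.L) : Name (Cond F) := opair (col u) (col v)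

theorem smul_pr (k : F.G) (u v : F.L) (p : Cond F) : FEq (k • pr u v) (pr (k • u) (k • v)) p := by
  have := Sys.smul_opair (S := F.sys) k (col u) (col v) p
  rw [pr, pr, ← smul_col, ← smul_col]
  exact this

theorem hs_pr (u v : F.L) : F.sys.HS (pr u v) := (hs_col u).opair (hs_col v)

theorem smul_lt (k : F.G) {u v : F.L} (h : u < v) : k • u < k • v :=
  lt_of_le_of_ne (F.smul_le k _ _ h.le) fun h' => h.ne (MulAction.injective k h')

/-- The members of the family. -/
noncomputable def fam (u : F.L) : Name (Cond F) :=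
  Name.mk {v // u < v} (fun v => pr u v.1) (fun _ => ⊤)

theorem pr_mem {u v : F.L} (h : u < v) (p : Cond F) : FMem (pr u v) (fam u) p :=
  FMem.fn_mem (fam u) ⟨v, h⟩ le_top

theorem mem_fam {y : Name (Cond F)} {u : F.L} {p : Cond F} (h : FMem y (fam u) p) :
    ∃ r ≤ p, ∃ v, u < v ∧ FEq y (pr u v) r := by
  obtain ⟨r, hr, ⟨v, hv⟩, -, he⟩ := fmem_mk.1 h p le_rfl
  exact ⟨r, hr, v, hv, he⟩

theorem smul_fam (k : F.G) (u : F.L) (p : Cond F) : FEq (k • fam u) (fam (k • u)) p := by
  rw [feq_iff]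
  constructor
  · rintro ⟨v, hv⟩ q - -
    exact FMem.congr_left (smul_pr k u v q).symm (pr_mem (smul_lt k hv) q)
  · rintro ⟨v, hv⟩ q - -
    have h1 : u < k⁻¹ • v := by simpa using smul_lt k⁻¹ hv
    have h2 := smul_pr k u (k⁻¹ • v) q
    rw [smul_inv_smul] at h2
    exact FMem.of_idx (y := k • fam u) ⟨k⁻¹ • v, h1⟩ le_top h2.symm

theorem hs_fam (u : F.L) : F.sys.HS (fam u) :=
  ⟨⟨u, fun k hk => by
    have hk' : k • u = u := hk
    have := smul_fam k u ⊤
    rw [hk'] at this
    exact this⟩, fun v => hs_pr u v.1⟩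

/-- The family without a choice set. -/
noncomputable def FF (F : Frame) : Name (Cond F) := Name.mk F.L fam (fun _ => ⊤)

theorem fam_mem (u : F.L) (p : Cond F) : FMem (fam u) (FF F) p := FMem.fn_mem (FF F) u le_top

theorem mem_FF {x : Name (Cond F)} {p : Cond F} (h : FMem x (FF F) p) :
    ∃ r ≤ p, ∃ u, FEq x (fam u) r := by
  obtain ⟨r, hr, u, -, he⟩ := fmem_mk.1 h p le_rfl
  exact ⟨r, hr, u, he⟩

theorem hs_FF : F.sys.HS (FF F) := by
  obtain ⟨w⟩ := F.ne
  exact ⟨⟨w, Sys.supp_mk (S := F.sys) fun k _ u q _ =>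
    FMem.congr_left (smul_fam k u q).symm (fam_mem _ q)⟩, fun u => hs_fam u⟩

theorem exists_move (api : CondAPI F) {a v : F.L} (hv : a < v) (t : Cond F) :
    ∃ k : F.G, k • a = a ∧ k • v ≠ v ∧ Compat (k • t) t := by
  obtain ⟨α, hα⟩ := api.bound t
  obtain ⟨k, hk, hmove⟩ := F.move a (max α (Order.succ (F.st v)))
  have hv' : F.st v < max α (Order.succ (F.st v)) :=
    (Order.lt_succ _).trans_le (le_max_right _ _)
  refine ⟨k, hk, fun h => ?_, (api.compat_iff _ _).2 ?_⟩
  · have := hmove v hv' (not_le_of_gt hv)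
    rw [h] at this
    exact absurd hv' (not_lt.2 this)
  · rintro ⟨u, γ⟩ b b' h1 h2
    rw [smul_val] at h1
    have hs1 := (hα _ _ (by rw [h1]; simp)).1
    have hs2 := (hα _ _ (by rw [h2]; simp)).1
    have hle : k⁻¹ • u ≤ a := by
      by_contra hn
      have := hmove _ (hs1.trans_le (le_max_left _ _)) hn
      rw [smul_inv_smul] at this
      exact absurd hs2 (not_lt.2 ((le_max_left _ _).trans this))
    have hfix := F.fix_below k a _ hk hle
    rw [smul_inv_smul] at hfix
    rw [← hfix] at h1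
    exact Option.some.inj (h1.symm.trans h2)

end NotAC

open NotAC in
theorem notACStmt : NotACStmt := by
  intro F api
  refine ⟨FF F, hs_FF, fun x q _ hx => ?_, fun x x' y q _ _ _ hx hx' hy hy' => ?_,
    fun c p hc => ?_⟩
  · obtain ⟨r, hr, u, he⟩ := mem_FF hx
    obtain ⟨v, hv, -⟩ := F.directed u u
    exact ⟨r, hr, pr u v, hs_pr u v, FMem.congr_right he.symm (pr_mem hv r)⟩
  · refine FEq.of_dense fun q' hq' => ?_
    obtain ⟨r₁, h₁, u, he⟩ := mem_FF (hx.mono hq')
    obtain ⟨r₂, h₂, u', he'⟩ := mem_FF (hx'.mono (h₁.trans hq'))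
    obtain ⟨r₃, h₃, v, -, e₃⟩ := mem_fam
      (FMem.congr_right (he.mono h₂) (hy.mono (h₂.trans (h₁.trans hq'))))
    obtain ⟨r₄, h₄, v', -, e₄⟩ := mem_fam
      (FMem.congr_right (he'.mono h₃) (hy'.mono (h₃.trans (h₂.trans (h₁.trans hq')))))
    obtain rfl : u = u' := col_inj api (feq_opair_left ((e₃.mono h₄).symm.trans e₄))
    exact ⟨r₂, h₂.trans h₁, (he.mono h₂).trans he'.symm⟩
  · obtain ⟨a, ha⟩ := hc.supp
    by_cases h : ∀ r ≤ p, ∀ y, F.sys.HS y → ¬ (FMem y (fam a) r ∧ FMem y c r)
    · exact ⟨p, le_rfl, fam a, hs_fam a, fam_mem a p, Or.inl h⟩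
    · push Not at h
      obtain ⟨r, hr, y, -, h1, h2⟩ := h
      obtain ⟨t, ht, v, hv, he⟩ := mem_fam h1
      have h3 : FMem (pr a v) c t := FMem.congr_left he (h2.mono ht)
      obtain ⟨k, hk, hkv, q, hq1, hq2⟩ := exists_move api hv t
      have h4 : FMem (k • pr a v) (k • c) q := (Sys.fmem_smul (S := F.sys) k h3).mono hq1
      have h5 := smul_pr k a v q
      rw [hk] at h5
      have h6 : FMem (pr a (k • v)) c q :=
        FMem.congr_right (ha.feq (k := k) hk q) (FMem.congr_left h5 h4)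
      have h7 : a < k • v := by
        have := smul_lt k hv
        rwa [hk] at this
      exact ⟨q, hq2.trans (ht.trans hr), fam a, hs_fam a, fam_mem a q, Or.inr
        ⟨pr a v, pr a (k • v), hs_pr _ _, hs_pr _ _, pr_mem hv q, h3.mono hq2, pr_mem h7 q, h6,
          fun s _ hs => hkv (col_inj api (feq_opair_right hs)).symm⟩⟩

end Crest.Agent.R296
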