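import Crest.Agent.R296.PPA

/-!
Row 296: the partition principle holds in the symmetric model of a frame.
-/

set_option autoImplicit false

namespace Crest.Agent.R296

open Name Cond Sys

namespace Frame

variable {F : Frame}

theorem IsFilt.mono' {α β : Ordinal.{0}} {E : Set F.L} (h : IsFilt F.st α E) (hαβ : α ≤ β) :
    IsFilt F.st β E :=
  ⟨h.ne, h.up, h.inf, fun e he => (h.gen e he).imp fun _ ho => ⟨ho.1, ho.2.1.trans_le hαβ, ho.2.2⟩⟩

/-- The family of values attached to a code. -/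
structure Fam (a b a' : F.L) (x : Name (Cond F)) (r : Cond F) (π : Set F.L) (α : Ordinal.{0})
    (C : Set Ordinal.{0}) (A : Set (Cond F)) (gq : Cond F → F.G) : Prop where
  anti : ∀ q ∈ A, ∀ q' ∈ A, Compat q q' → q = q'
  fix : ∀ q ∈ A, gq q • a = a
  src : ∀ q ∈ A, ∀ t, t ≤ r → t ≤ q → t ≤ gq q • r
  inv : ∀ q ∈ A, ∀ (k : F.G) (w : F.L), k • b = b → w ∈ π → k • w = w →
    k • q = q ∧ ∀ t, FEq (k • gq q • x) (gq q • x) t
  dense : ∀ t, t ≤ r.restrict (Set.Iic a) → ∃ q ∈ A, Compat t q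
  case₂ : a ∈ F.piSet a x r → ∀ q ∈ A, gq q = 1
  case₁ : a ∉ F.piSet a x r → ∀ q ∈ A, gq q • a' ∈ lowerBounds π ∧ gq q • a' ∉ π ∧
    F.st (gq q • a') ∈ C ∧ α ≤ F.st (gq q • a') ∧
    (∀ e, e ∈ π ↔ (b ≤ e ∧ (gq q)⁻¹ • e ∈ F.piSet a x r)) ∧
    (∀ v, (gq q)⁻¹ • v ∈ F.piSet a x r → v ∉ π → F.st (gq q • a') ≤ F.st v)

theorem exists_fam (h₁ : SupInfStmt) (h₄ : ConjStmt) (api : CondAPI F) {a b : F.L}
    {f X Y : Name (Cond F)} {p₁ : Cond F} {s : Y.idx → F.L} (hab : a < b)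
    {τ : Y.idx × F.L × Cond F} {g₀ : F.G} {a' : F.L} {x : Name (Cond F)} {α : Ordinal.{0}}
    (W : Wit a b f X Y p₁ s τ g₀ a' x α) (C : Set Ordinal.{0}) (hC : ∀ β, ∃ γ ∈ C, β ≤ γ) :
    ∃ A gq, Fam a b a' x τ.2.2 (F.piSet b (g₀ • Y.fn τ.1) τ.2.2) α C A gq := by
  by_cases ha : a ∈ F.piSet a x τ.2.2
  · refine ⟨{⊤}, fun _ => 1, ?_, fun _ _ => one_smul _ _, fun q _ t ht _ => by simpa using ht, ?_,
      fun t _ => ⟨⊤, rfl, t, le_rfl, le_top⟩, fun _ _ _ => rfl, fun h => absurd ha h⟩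
    · rintro q rfl q' rfl -; rfl
    · rintro q rfl k w hk - -
      refine ⟨rfl, fun t => ?_⟩
      simpa using supp_feq (W.supp_a ha) (F.fix_below k b a hk hab.le) t
  · have haa' : a < a' := hab.trans_le W.le_a'
    obtain ⟨A, g, hanti, hA, hd⟩ := h₄ F api a b a' (F.piSet a x τ.2.2)
      (F.piSet b (g₀ • Y.fn τ.1) τ.2.2) α C τ.2.2 hab haa'
      ⟨haa'.le, sup_self W.hs_x W.supp_x _⟩ ha
      (fun e he e' hee' => ⟨he.1.trans hee', he.2.up hee'⟩)
      (fun e he e' he' => ⟨le_inf he.1 he'.1, h₁ F api _ _ _ _ he.2 he'.2⟩)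
      W.filt (fun e he => he.1) hC W.lives
    refine ⟨A, g, hanti, fun q hq => (hA q hq).2.1, fun q hq t _ ht => ht.trans (hA q hq).2.2.1,
      ?_, hd, fun h => absurd h ha, fun _ q hq => (hA q hq).2.2.2⟩
    intro q hq k w _ hw hkw
    obtain ⟨hl, -, -, hlb, -⟩ := hA q hq
    refine ⟨api.smul_of_lives k w q hkw fun u γ h => hl u γ h hw, fun t => ?_⟩
    exact supp_feq (supp_smul W.supp_x (g q)) (F.fix_below k w _ hkw (hlb hw)) t

/-- The birth stage of the support of a value is an invariant of the value. -/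
theorem stage_eq (api : CondAPI F) {π π' : Set F.L} {α α' : Ordinal.{0}} (hπ : IsFilt F.st α π)
    (hπ' : IsFilt F.st α' π') {k : F.G} (hk : ∀ v, v ∈ π' ↔ k • v ∈ π) {u u' : F.L}
    (hu : u ∈ lowerBounds π) (hu' : u' ∈ lowerBounds π') (hα : α ≤ F.st u) (hα' : α' ≤ F.st u')
    (h₁ : F.st u' ≤ F.st (k⁻¹ • u)) (h₂ : F.st u ≤ F.st (k • u')) : F.st u = F.st u' := by
  obtain ⟨e, he⟩ := hπ.ne
  obtain ⟨o, ho, hos, -⟩ := hπ.gen e he
  obtain ⟨e', he'⟩ := hπ'.ne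
  obtain ⟨o', ho', hos', -⟩ := hπ'.gen e' he'
  obtain ⟨w, hw, hw₁, hw₂, -, -⟩ := api.old_pair k π' π (max α α') o' o
    (IsFilt.mono' hπ' (le_max_right _ _)) (IsFilt.mono' hπ (le_max_left _ _)) hk ho' ho
    (hos'.trans_le (le_max_right _ _)) (hos.trans_le (le_max_left _ _))
  rcases lt_trichotomy (F.st u) (F.st u') with hlt | heq | hlt
  · exfalso
    have hm : max α α' ≤ F.st u' := max_le (hα.trans hlt.le) hα'
    have hle : k⁻¹ • u ≤ w := by
      have := F.smul_le k⁻¹ _ _ (hu ((hk w).1 hw))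
      simpa using this
    have := (api.st_smul k w (k⁻¹ • u) (F.st u') (hw₁.trans_le hm) (hw₂.trans_le hm) hle).2
      (by simpa using hlt)
    exact absurd h₁ (not_le.2 this)
  · exact heq
  · exfalso
    have hm : max α α' ≤ F.st u := max_le hα (hα'.trans hlt.le)
    have := (api.st_smul k w u' (F.st u) (hw₁.trans_le hm) (hw₂.trans_le hm) (hu' hw)).1 hlt
    exact absurd h₂ (not_le.2 this)

theorem rigid_fix {b : F.L} {y : Name (Cond F)} {r t : Cond F} (hr : F.Rigid b y r)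
    {g g' : F.G} (hg : g • b = b) (hg' : g' • b = b) (ht : t ≤ g • r) (ht' : t ≤ g' • r)
    (hπ : ∀ v, v ∈ F.piSet b y r ↔ (g⁻¹ * g') • v ∈ F.piSet b y r) :
    ∃ w ∈ F.piSet b y r, (g⁻¹ * g') • w = w :=
  hr (g⁻¹ * g') (by rw [mul_smul, hg', inv_fix hg]) hπ
    ⟨g⁻¹ • t, (le_smul_iff' g).1 ht, by rw [mul_smul]; exact Cond.smul_mono _ _ _ ht'⟩

end Frame

open _root_.Crest.Agent.R296.Frame

theorem ppStmt : PPStmt := by
  intro h₁ h₂ h₃ h₄ F api f X Y hf hX hY p hS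
  classical
  obtain ⟨w₁, hw₁, hw₁'⟩ := exists_supp₂ (S := F.sys) hf hX
  obtain ⟨w₂, hw₂⟩ := hY.supp
  obtain ⟨a, ha₁, ha₂⟩ := F.directed w₁ w₂
  have hfa := supp_mono hw₁ ha₁.le
  have hXa := supp_mono hw₁' ha₁.le
  have hYa := supp_mono hw₂ ha₂.le
  obtain ⟨b, hab, -⟩ := F.directed a a
  set p₁ := p.restrict (Set.Iic a) with hp₁
  have hS₁ : F.sys.Surj f X Y p₁ := surj_restrict api hfa hXa hYa hS
  have hl₁ : Lives (Set.Iic a) p₁ := api.lives_restrict _ _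
  have hfixp : ∀ k : F.G, k • a = a → k • p₁ = p₁ := fun k hk => api.smul_of_lives k a p₁ hk hl₁
  choose s hs using fun σ : Y.idx => (hY.fn σ).supp
  obtain ⟨lab, hlab⟩ := api.label
  let T : Type 1 := {τ : Y.idx × F.L × Cond F // ∃ g₀ a' x α, Wit a b f X Y p₁ s τ g₀ a' x α}
  choose g₀ a' x α W using fun τ : T => τ.2
  let y : T → Name (Cond F) := fun τ => g₀ τ • Y.fn τ.1.1
  let r : T → Cond F := fun τ => τ.1.2.2
  let π : T → Set F.L := fun τ => F.piSet b (y τ) (r τ)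
  choose A gq Fm using fun τ : T => exists_fam h₁ h₄ api hab (W τ) {β | lab β = τ.1.2}
    (fun β => by obtain ⟨γ, h₁, h₂⟩ := hlab τ.1.2 β; exact ⟨γ, h₂, h₁⟩)
  have hy : ∀ τ, F.sys.HS (y τ) := fun τ => hs_smul _ (hY.fn _)
  have hba : ∀ {g : F.G}, g • b = b → g • a = a := fun hg => F.fix_below _ b a hg hab.le
  let Least : T → Name (Cond F) → Cond F → Prop := fun τ z t =>
    ∀ τ', WellOrderingRel τ' τ → ∀ g' : F.G, g' • b = b → ∀ t' ≤ t,
      ¬ (t' ≤ g' • r τ' ∧ FEq z (g' • y τ') t')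
  let I : Type 1 := Σ (τ : T) (g : {g : F.G // g • b = b}) (q : A τ),
    {t : Cond F // t ≤ g.1 • r τ ∧ t ≤ g.1 • q.1 ∧ Least τ (g.1 • y τ) t}
  let el : I → Name (Cond F) := fun i =>
    opair (i.2.1.1 • y i.1) (i.2.1.1 • gq i.1 i.2.2.1.1 • x i.1)
  let G : Name (Cond F) := Name.mk I el (fun i => i.2.2.2.1)
  -- the source condition
  have hsrc : ∀ (τ : T) (g : F.G) (q : Cond F), q ∈ A τ → ∀ t, t ≤ g • r τ → t ≤ g • q →
      t ≤ (g * gq τ q) • r τ := by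
    intro τ g q hq t h₁ h₂
    rw [mul_smul, le_smul_iff']
    exact (Fm τ).src q hq _ ((le_smul_iff' g).1 h₁) ((le_smul_iff' g).1 h₂)
  have hfix : ∀ (τ : T) (g : F.G) (q : Cond F), q ∈ A τ → g • b = b → (g * gq τ q) • a = a := by
    intro τ g q hq hg
    rw [mul_smul, (Fm τ).fix q hq, hba hg]
  have hGs : F.sys.HS G := by
    refine (hs_iff (S := F.sys) _).2 ⟨⟨b, supp_mk (S := F.sys) ?_⟩, fun i => ?_⟩
    · rintro k hk ⟨τ, g, q, t, h₁, h₂, h₃⟩ q₀ hq₀
      have hk' : k • b = b := hk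
      refine FMem.of_idx (y := G) (⟨τ, ⟨k * g.1, by rw [mul_smul, g.2, hk']⟩, q, k • t,
        by rw [mul_smul]; exact Cond.smul_mono _ _ _ h₁,
        by rw [mul_smul]; exact Cond.smul_mono _ _ _ h₂, ?_⟩ : I) hq₀ ?_
      · rintro τ' hτ' g' hg' t' ht' ⟨h₄, h₅⟩
        refine h₃ τ' hτ' (k⁻¹ * g') (by rw [mul_smul, hg', inv_fix hk']) (k⁻¹ • t')
          ((le_smul_iff' k).1 ht') ⟨by rw [mul_smul]; exact Cond.smul_mono _ _ _ h₄, ?_⟩
        have := feq_smul' k⁻¹ h₅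
        simpa [mul_smul] using this
      · have := Sys.smul_opair (S := F.sys) k (g.1 • y τ) (g.1 • gq τ q.1 • x τ) q₀
        simpa [el, G, mul_smul] using this
    · exact HS.opair (S := F.sys) (hs_smul _ (hy _)) (hs_smul _ (hs_smul _ (W _).hs_x))
  -- reading off an entry
  have hread : ∀ {z v : Name (Cond F)} {q : Cond F}, FMem (opair z v) G q → ∃ t ≤ q,
      ∃ (τ : T) (g : F.G) (c : Cond F), g • b = b ∧ c ∈ A τ ∧ t ≤ g • r τ ∧ t ≤ g • c ∧
        Least τ (g • y τ) t ∧ FEq z (g • y τ) t ∧ FEq v (g • gq τ c • x τ) t := by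
    intro z v q h
    obtain ⟨t, ht, ⟨τ, g, c, t₀, h₁, h₂, h₃⟩, hc, he⟩ := h q le_rfl
    have hc' : t ≤ t₀ := hc
    obtain ⟨e₁, e₂⟩ := feq_opair_iff.1 he
    exact ⟨t, ht, τ, g.1, c.1, g.2, c.2, hc'.trans h₁, hc'.trans h₂,
      fun τ' hτ' g' hg' t' ht' => h₃ τ' hτ' g' hg' t' (ht'.trans hc'), e₁, e₂⟩
  have main : F.sys.Inj G Y X p₁ := by
    refine ⟨fun z hz q hq hm => ?_, fun z v v' hz hv hv' q hq hm m₁ m₂ => ?_,
      fun z z' v hz hz' hv q hq hm hm' m₁ m₂ => ?_⟩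
    · -- total
      have hne : ({τ | ∃ g : F.G, g • b = b ∧ ∃ t ≤ q, t ≤ g • r τ ∧ FEq z (g • y τ) t} :
          Set T).Nonempty := by
        obtain ⟨t, ht, τ, g₁, a₁, x₁, α₁, W₁, htr, he⟩ :=
          exists_wit (s := s) h₁ h₂ h₃ api hab hfa hXa hY hl₁ hS₁ hq hm
        refine ⟨⟨τ, g₁, a₁, x₁, α₁, W₁⟩, 1, one_smul _ _, t, ht, by simpa using htr, ?_⟩
        rw [one_smul]
        refine he.trans ?_
        set τ' : T := ⟨τ, g₁, a₁, x₁, α₁, W₁⟩
        have hk : ((g₀ τ')⁻¹ * g₁) • s τ.1 = s τ.1 := by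
          rw [mul_smul, W₁.g_s, inv_smul_eq_iff]; exact (W τ').g_s.symm
        have := (feq_smul' (g₀ τ') (supp_feq (hs τ.1) hk ⊤)).mono (le_top (a := t))
        simpa [mul_smul] using this
      have wf : WellFounded (WellOrderingRel (α := T)) := IsWellFounded.wf
      obtain ⟨τ, ⟨g, hg, t, ht, htr, he⟩, hmin⟩ := wf.has_min _ hne
      obtain ⟨c, hc, t₁, ht₁, ht₂⟩ := (Fm τ).dense (g⁻¹ • t)
        (((le_smul_iff' g).1 htr).trans (api.le_restrict _ _))
      have e₁ : g • t₁ ≤ t := (smul_le_iff'' g).2 ht₁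
      have e₂ : g • t₁ ≤ g • c := Cond.smul_mono _ _ _ ht₂
      refine ⟨g • t₁, e₁.trans ht, g • gq τ c • x τ, hs_smul _ (hs_smul _ (W τ).hs_x), ?_, ?_⟩
      · have := fmem_smul_of_supp hXa (hfix τ g c hc hg) (W τ).mem_x
        rw [mul_smul g (gq τ c) (x τ)] at this
        exact this.mono (hsrc τ g c hc _ (e₁.trans htr) e₂)
      · refine FMem.of_idx (y := G) (⟨τ, ⟨g, hg⟩, ⟨c, hc⟩, g • t₁, e₁.trans htr, e₂, ?_⟩ : I)
          le_rfl ((he.mono e₁).opair (FEq.refl _ _))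
        rintro τ' hτ' g' hg' t' ht' ⟨h₄, h₅⟩
        exact hmin τ' ⟨g', hg', t', ht'.trans (e₁.trans ht), h₄,
          (he.mono (ht'.trans e₁)).trans h₅⟩ hτ'
    · -- functional
      refine FEq.of_dense fun q₁ hq₁ => ?_
      obtain ⟨t₁, ht₁, τ, g, c, hg, hc, r₁, c₁, l₁, ez, ev⟩ := hread (m₁.mono hq₁)
      obtain ⟨t, ht, τ', g', c', hg', hc', r₂, c₂, l₂, ez', ev'⟩ := hread (m₂.mono (ht₁.trans hq₁))
      have eyy : FEq (g • y τ) (g' • y τ') t := (ez.mono ht).symm.trans ez'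
      obtain rfl : τ = τ' := by
        rcases trichotomous_of WellOrderingRel τ τ' with hlt | heq | hlt
        · exact absurd ⟨ht.trans r₁, eyy.symm⟩ (l₂ τ hlt g hg t le_rfl)
        · exact heq
        · exact absurd ⟨r₂, eyy⟩ (l₁ τ' hlt g' hg' t ht)
      have hπ : ∀ u, u ∈ π τ ↔ (g⁻¹ * g') • u ∈ π τ := by
        intro u
        have i₁ := (W τ).stab_y.mem_smul hg (ht.trans r₁) (g' • u)
        have i₂ := (W τ).stab_y.mem_smul hg' r₂ (g' • u)
        rw [inv_smul_smul] at i₂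
        rw [mul_smul]
        exact i₂.symm.trans ((Set.ext_iff.1 (piSet_congr eyy.symm) _).trans i₁)
      obtain ⟨w, hw, hkw⟩ := rigid_fix (W τ).rigid hg hg' (ht.trans r₁) r₂ hπ
      obtain ⟨hcc, hval⟩ := (Fm τ).inv c' hc' (g⁻¹ * g') w
        (by rw [mul_smul, hg', inv_fix hg]) hw hkw
      obtain rfl : c = c' := by
        refine (Fm τ).anti c hc c' hc' ⟨g⁻¹ • t, (le_smul_iff' g).1 (ht.trans c₁), ?_⟩
        rw [← hcc, mul_smul]
        exact Cond.smul_mono _ _ _ c₂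
      refine ⟨t, ht.trans ht₁, (ev.mono ht).trans (FEq.trans ?_ ev'.symm)⟩
      have := feq_smul' g (hval (g⁻¹ • t))
      simpa [mul_smul] using this.symm
    · -- injective
      refine FEq.of_dense fun q₁ hq₁ => ?_
      obtain ⟨t₁, ht₁, τ, g, c, hg, hc, r₁, c₁, -, ez, ev⟩ := hread (m₁.mono hq₁)
      obtain ⟨t, ht, τ', g', c', hg', hc', r₂, c₂, -, ez', ev'⟩ := hread (m₂.mono (ht₁.trans hq₁))
      refine ⟨t, ht.trans ht₁, (ez.mono ht).trans (FEq.trans ?_ ez'.symm)⟩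
      set h := g * gq τ c with hh
      set h' := g' * gq τ' c' with hh'
      have s₁ : t ≤ h • r τ := hsrc τ g c hc t (ht.trans r₁) (ht.trans c₁)
      have s₂ : t ≤ h' • r τ' := hsrc τ' g' c' hc' t r₂ c₂
      have f₁ : h • a = a := hfix τ g c hc hg
      have f₂ : h' • a = a := hfix τ' g' c' hc' hg'
      have exx : FEq (h • x τ) (h' • x τ') t := by
        rw [hh, hh', mul_smul, mul_smul]; exact (ev.mono ht).symm.trans ev'
      have tp : t ≤ p₁ := ht.trans (ht₁.trans (hq₁.trans hq))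
      have eyy : FEq (h • y τ) (h' • y τ') t :=
        hS₁.fn (h • x τ) _ _ (hs_smul _ (W τ).hs_x) (hs_smul _ (hy τ)) (hs_smul _ (hy τ')) t tp
          ((fmem_smul_of_supp hXa f₁ (W τ).mem_x).mono s₁)
          ((fmem_opair_smul hfa f₁ (W τ).mem_f).mono s₁)
          (((fmem_opair_smul hfa f₂ (W τ').mem_f).mono s₂).congr_left
            (exx.symm.opair (FEq.refl _ _)))
      have hρ : ∀ u, h⁻¹ • u ∈ F.piSet a (x τ) (r τ) ↔ h'⁻¹ • u ∈ F.piSet a (x τ') (r τ') :=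
        fun u => ((W τ).stab_x.mem_smul f₁ s₁ u).symm.trans
          ((Set.ext_iff.1 (piSet_congr exx) _).trans ((W τ').stab_x.mem_smul f₂ s₂ u))
      have haρ := hρ a
      rw [inv_fix f₁, inv_fix f₂] at haρ
      by_cases ha : a ∈ F.piSet a (x τ) (r τ)
      · have e₁ : h = g := by rw [hh, (Fm τ).case₂ ha c hc, mul_one]
        have e₂ : h' = g' := by rw [hh', (Fm τ').case₂ (haρ.1 ha) c' hc', mul_one]
        rwa [e₁, e₂] at eyy
      · obtain ⟨lb, nb, cb, αb, ib, mb⟩ := (Fm τ).case₁ ha c hc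
        obtain ⟨lb', nb', cb', αb', ib', mb'⟩ := (Fm τ').case₁ (fun h => ha (haρ.2 h)) c' hc'
        have hσ : τ.1.1 = τ'.1.1 :=
          Pc.unique ((W τ).pc.smul f₁) ((W τ').pc.smul f₂) s₁ s₂ eyy
        have hkb : (g⁻¹ * g') • b = b := by rw [mul_smul, hg', inv_fix hg]
        have hπ : ∀ v, v ∈ π τ' ↔ (g⁻¹ * g') • v ∈ π τ := by
          intro v
          refine (ib' v).trans (Iff.trans ?_ (ib _).symm)
          have := hρ (g' • v)
          simp only [hh, hh', mul_inv_rev, mul_smul, inv_smul_smul] at this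
          rw [le_smul_of_fix hkb, mul_smul, this]
        have ha'ρ : ∀ σ : T, a' σ ∈ F.piSet a (x σ) (r σ) := fun σ =>
          ⟨hab.le.trans (W σ).le_a', sup_self (W σ).hs_x (W σ).supp_x _⟩
        have hst : F.st (gq τ c • a' τ) = F.st (gq τ' c' • a' τ') := by
          refine stage_eq api (W τ).filt (W τ').filt hπ lb lb' αb αb' (mb' _ ?_ ?_) (mb _ ?_ ?_)
          · have := (hρ (h • a' τ)).1 (by simpa using ha'ρ τ)
            simpa [hh, hh', mul_smul] using this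
          · intro hmem
            apply nb
            have := (hπ _).1 hmem
            rwa [smul_inv_smul] at this
          · have := (hρ (h' • a' τ')).2 (by simpa using ha'ρ τ')
            simpa [hh, hh', mul_smul] using this
          · intro hmem
            exact nb' ((hπ _).2 hmem)
        obtain rfl : τ = τ' := by
          apply Subtype.ext
          refine Prod.ext hσ ?_
          have e₁ : lab (F.st (gq τ c • a' τ)) = τ.1.2 := cb
          have e₂ : lab (F.st (gq τ' c' • a' τ')) = τ'.1.2 := cb'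
          rw [← e₁, ← e₂, hst]
        obtain ⟨w, hw, hkw⟩ := rigid_fix (W τ).rigid hg hg' (ht.trans r₁) r₂ hπ
        have := feq_smul' g (feq_smul_of_sup hw.2 hkw ((le_smul_iff' g).1 (ht.trans r₁))
          (by rw [mul_smul]; exact Cond.smul_mono _ _ _ r₂))
        simpa [mul_smul] using this
  have hpp : p ≤ p₁ := api.le_restrict _ _
  exact ⟨p, le_rfl, G, hGs,
    fun z hz q hq => main.tot z hz q (hq.trans hpp),
    fun z v v' hz hv hv' q hq => main.fn z v v' hz hv hv' q (hq.trans hpp),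
    fun z z' v hz hz' hv q hq => main.inj z z' v hz hz' hv q (hq.trans hpp)⟩

end Crest.Agent.R296
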