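import Crest.Agent.R296.Defs

/-!
Row 296: equivariance of supports, pieces, and good codes for the members of a set.
-/

set_option autoImplicit false

namespace Crest.Agent.R296

open Name Cond Sys

namespace Frame

variable {F : Frame}

theorem smul_le_iff' (g : F.G) {x y : F.L} : g • x ≤ g • y ↔ x ≤ y :=
  ⟨fun h => by simpa using F.smul_le g⁻¹ _ _ h, F.smul_le g x y⟩

theorem inv_fix {g : F.G} {c : F.L} (h : g • c = c) : g⁻¹ • c = c := by
  rw [inv_smul_eq_iff, h]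

theorem le_smul_of_fix {g : F.G} {c u : F.L} (h : g • c = c) : c ≤ g • u ↔ c ≤ u := by
  conv_lhs => rw [← h]
  exact smul_le_iff' g

theorem supp_mono {w w' : F.L} {x : Name (Cond F)} (h : F.sys.Supp w x) (hw : w ≤ w') :
    F.sys.Supp w' x := Supp.mono (S := F.sys) h fun k hk => F.fix_below k w' w hk hw

theorem supp_feq {w : F.L} {x : Name (Cond F)} (h : F.sys.Supp w x) {k : F.G} (hk : k • w = w)
    (p : Cond F) : FEq (k • x) x p := Supp.feq (S := F.sys) h hk p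

theorem supp_smul {w : F.L} {x : Name (Cond F)} (h : F.sys.Supp w x) (g : F.G) :
    F.sys.Supp (g • w) (g • x) :=
  Supp.smul_of_conj (S := F.sys) h g fun k hk => by
    have hk' : k • g • w = g • w := hk
    show (g⁻¹ * k * g) • w = w
    rw [mul_smul, mul_smul, hk', inv_smul_smul]

theorem feq_smul' (g : F.G) {x y : Name (Cond F)} {p : Cond F} (h : FEq x y p) :
    FEq (g • x) (g • y) (g • p) := Sys.feq_smul (S := F.sys) g h

theorem fmem_smul' (g : F.G) {x y : Name (Cond F)} {p : Cond F} (h : FMem x y p) :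
    FMem (g • x) (g • y) (g • p) := Sys.fmem_smul (S := F.sys) g h

theorem le_smul_iff' (g : F.G) {p q : Cond F} : p ≤ g • q ↔ g⁻¹ • p ≤ q :=
  Sys.le_smul_iff (S := F.sys) g

theorem smul_le_iff'' (g : F.G) {p q : Cond F} : g • p ≤ q ↔ p ≤ g⁻¹ • q :=
  Sys.smul_le_iff (S := F.sys) g

theorem hs_smul (g : F.G) {x : Name (Cond F)} (h : F.sys.HS x) : F.sys.HS (g • x) :=
  HS.smul (S := F.sys) g h

theorem fmem_opair_smul {a : F.L} {f x y : Name (Cond F)} (hf : F.sys.Supp a f) {k : F.G}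
    (hk : k • a = a) {p : Cond F} (h : FMem (opair x y) f p) :
    FMem (opair (k • x) (k • y)) f (k • p) :=
  ((fmem_smul' k h).congr_left (Sys.smul_opair (S := F.sys) k x y _)).congr_right (supp_feq hf hk _)

theorem fmem_smul_of_supp {a : F.L} {X x : Name (Cond F)} (hX : F.sys.Supp a X) {k : F.G}
    (hk : k • a = a) {p : Cond F} (h : FMem x X p) : FMem (k • x) X (k • p) :=
  (fmem_smul' k h).congr_right (supp_feq hX hk _)

theorem Sup.mono {w : F.L} {y : Name (Cond F)} {t t' : Cond F} (h : F.Sup w y t) (ht : t' ≤ t) :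
    F.Sup w y t' := by
  obtain ⟨z, h₁, h₂, h₃⟩ := h
  exact ⟨z, h₁, h₂, h₃.mono ht⟩

theorem Sup.up {w w' : F.L} {y : Name (Cond F)} {t : Cond F} (h : F.Sup w y t) (hw : w ≤ w') :
    F.Sup w' y t := by
  obtain ⟨z, h₁, h₂, h₃⟩ := h
  exact ⟨z, h₁, supp_mono h₂ hw, h₃⟩

theorem Sup.congr {w : F.L} {y y' : Name (Cond F)} {t : Cond F} (h : F.Sup w y t)
    (he : FEq y y' t) : F.Sup w y' t := by
  obtain ⟨z, h₁, h₂, h₃⟩ := h
  exact ⟨z, h₁, h₂, he.symm.trans h₃⟩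

theorem Sup.smul {w : F.L} {y : Name (Cond F)} {t : Cond F} (h : F.Sup w y t) (k : F.G) :
    F.Sup (k • w) (k • y) (k • t) := by
  obtain ⟨z, h₁, h₂, h₃⟩ := h
  exact ⟨k • z, hs_smul k h₁, supp_smul h₂ k, feq_smul' k h₃⟩

theorem sup_self {w : F.L} {y : Name (Cond F)} (hy : F.sys.HS y) (h : F.sys.Supp w y)
    (t : Cond F) : F.Sup w y t := ⟨y, hy, h, FEq.refl _ _⟩

theorem piSet_mono {c : F.L} {y : Name (Cond F)} {t t' : Cond F} (ht : t' ≤ t) :
    F.piSet c y t ⊆ F.piSet c y t' := fun _ h => ⟨h.1, h.2.mono ht⟩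

theorem piSet_congr {c : F.L} {y y' : Name (Cond F)} {t : Cond F} (he : FEq y y' t) :
    F.piSet c y t = F.piSet c y' t :=
  Set.ext fun _ => ⟨fun h => ⟨h.1, h.2.congr he⟩, fun h => ⟨h.1, h.2.congr he.symm⟩⟩

theorem Stable.eq {c : F.L} {y : Name (Cond F)} {r t : Cond F} (h : F.Stable c y r) (ht : t ≤ r) :
    F.piSet c y t = F.piSet c y r := (h t ht).antisymm (piSet_mono ht)

theorem Stable.mono {c : F.L} {y : Name (Cond F)} {r t : Cond F} (h : F.Stable c y r)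
    (ht : t ≤ r) : F.Stable c y t := fun s hs => (h s (hs.trans ht)).trans (piSet_mono ht)

theorem Stable.congr {c : F.L} {y y' : Name (Cond F)} {r : Cond F} (h : F.Stable c y r)
    (he : FEq y y' r) : F.Stable c y' r := fun s hs => by
  rw [← piSet_congr he, ← piSet_congr (he.mono hs)]; exact h s hs

/-- The support filter seen below a translate of a stable condition. -/
theorem Stable.mem_smul {c : F.L} {y : Name (Cond F)} {r t : Cond F} (h : F.Stable c y r)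
    {g : F.G} (hg : g • c = c) (ht : t ≤ g • r) (u : F.L) :
    u ∈ F.piSet c (g • y) t ↔ g⁻¹ • u ∈ F.piSet c y r := by
  rw [← h.eq ((le_smul_iff' g).1 ht)]
  constructor
  · rintro ⟨h₁, h₂⟩
    refine ⟨(le_smul_of_fix (inv_fix hg)).2 h₁, ?_⟩
    simpa using h₂.smul g⁻¹
  · rintro ⟨h₁, h₂⟩
    refine ⟨(le_smul_of_fix (inv_fix hg)).1 h₁, ?_⟩
    simpa using h₂.smul g

/-- An element fixing a support seen by `r` fixes the value below `r` and its translate. -/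
theorem feq_smul_of_sup {w : F.L} {y : Name (Cond F)} {r t : Cond F} (h : F.Sup w y r) {k : F.G}
    (hk : k • w = w) (h₁ : t ≤ r) (h₂ : t ≤ k • r) : FEq y (k • y) t := by
  obtain ⟨z, -, hz, he⟩ := h
  exact (he.mono h₁).trans (((feq_smul' k he).mono h₂).trans (supp_feq hz hk t)).symm

theorem surj_restrict (api : CondAPI F) {a : F.L} {f X Y : Name (Cond F)} (hf : F.sys.Supp a f)
    (hX : F.sys.Supp a X) (hY : F.sys.Supp a Y) {p : Cond F} (h : F.sys.Surj f X Y p) :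
    F.sys.Surj f X Y (p.restrict (Set.Iic a)) := by
  refine api.restrict_mem a {r | F.sys.Surj f X Y r} ?_ ?_ ?_ p h
  · intro p hp q hq
    exact ⟨fun x hx r hr => hp.tot x hx r (hr.trans hq),
      fun x y y' hx hy hy' r hr => hp.fn x y y' hx hy hy' r (hr.trans hq),
      fun y hy r hr => hp.onto y hy r (hr.trans hq)⟩
  · intro p hp
    refine ⟨fun x hx q hq hm => ?_, fun x y y' hx hy hy' q hq h₁ h₂ h₃ => ?_,
      fun y hy q hq hm => ?_⟩
    · obtain ⟨r, hr, hs⟩ := hp q hq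
      obtain ⟨s, hs', h'⟩ := hs.tot x hx r le_rfl (hm.mono hr)
      exact ⟨s, hs'.trans hr, h'⟩
    · refine FEq.of_dense fun r hr => ?_
      obtain ⟨s, hs, h'⟩ := hp r (hr.trans hq)
      have e := hs.trans hr
      exact ⟨s, hs, h'.fn x y y' hx hy hy' s le_rfl (h₁.mono e) (h₂.mono e) (h₃.mono e)⟩
    · obtain ⟨r, hr, hs⟩ := hp q hq
      obtain ⟨s, hs', h'⟩ := hs.onto y hy r le_rfl (hm.mono hr)
      exact ⟨s, hs'.trans hr, h'⟩
  · intro k hk p hp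
    have hk' := inv_fix hk
    refine ⟨fun x hx q hq hm => ?_, fun x y y' hx hy hy' q hq h₁ h₂ h₃ => ?_,
      fun y hy q hq hm => ?_⟩
    · obtain ⟨r, hr, y, hy, h₁, h₂⟩ := hp.tot (k⁻¹ • x) (hs_smul _ hx) (k⁻¹ • q)
        ((le_smul_iff' k).1 hq) (fmem_smul_of_supp hX hk' hm)
      refine ⟨k • r, (smul_le_iff'' k).2 hr, k • y, hs_smul _ hy, fmem_smul_of_supp hY hk h₁, ?_⟩
      simpa using fmem_opair_smul hf hk h₂
    · have := hp.fn (k⁻¹ • x) (k⁻¹ • y) (k⁻¹ • y') (hs_smul _ hx) (hs_smul _ hy) (hs_smul _ hy')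
        (k⁻¹ • q) ((le_smul_iff' k).1 hq) (fmem_smul_of_supp hX hk' h₁)
        (fmem_opair_smul hf hk' h₂) (fmem_opair_smul hf hk' h₃)
      simpa using feq_smul' k this
    · obtain ⟨r, hr, x, hx, h₁, h₂⟩ := hp.onto (k⁻¹ • y) (hs_smul _ hy) (k⁻¹ • q)
        ((le_smul_iff' k).1 hq) (fmem_smul_of_supp hY hk' hm)
      refine ⟨k • r, (smul_le_iff'' k).2 hr, k • x, hs_smul _ hx, fmem_smul_of_supp hX hk h₁, ?_⟩
      simpa using fmem_opair_smul hf hk h₂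

theorem fmem_restrict (api : CondAPI F) {w : F.L} {x X : Name (Cond F)} (hx : F.sys.Supp w x)
    (hX : F.sys.Supp w X) {p : Cond F} (h : FMem x X p) : FMem x X (p.restrict (Set.Iic w)) :=
  api.restrict_mem w {r | FMem x X r} (fun _ hp _ hq => FMem.mono hp hq)
    (fun _ hp => FMem.of_dense hp)
    (fun _ hk _ hp => (fmem_smul_of_supp hX hk hp).congr_left (supp_feq hx hk _)) p h

/-! ### Pieces -/

section pieces

variable (a : F.L) (Y : Name (Cond F))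

/-- `y` is forced into the orbit of the `σ`-th listed element of `Y`. -/
def InP (σ : Y.idx) (y : Name (Cond F)) (t : Cond F) : Prop :=
  ∃ g : F.G, g • a = a ∧ FEq y (g • Y.fn σ) t

/-- `σ` is forced to be the first orbit containing `y`. -/
def Pc (σ : Y.idx) (y : Name (Cond F)) (t : Cond F) : Prop :=
  InP a Y σ y t ∧ ∀ σ', WellOrderingRel σ' σ → ∀ t' ≤ t, ¬ InP a Y σ' y t'

variable {a Y}

theorem InP.smul {σ : Y.idx} {y : Name (Cond F)} {t : Cond F} (h : InP a Y σ y t) {k : F.G}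
    (hk : k • a = a) : InP a Y σ (k • y) (k • t) := by
  obtain ⟨g, hg, he⟩ := h
  exact ⟨k * g, by rw [mul_smul, hg, hk], by rw [mul_smul]; exact feq_smul' k he⟩

theorem InP.congr {σ : Y.idx} {y y' : Name (Cond F)} {t t' : Cond F} (h : InP a Y σ y t)
    (ht : t' ≤ t) (he : FEq y y' t') : InP a Y σ y' t' := by
  obtain ⟨g, hg, h'⟩ := h
  exact ⟨g, hg, he.symm.trans (h'.mono ht)⟩

theorem Pc.smul {σ : Y.idx} {y : Name (Cond F)} {t : Cond F} (h : Pc a Y σ y t) {k : F.G}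
    (hk : k • a = a) : Pc a Y σ (k • y) (k • t) := by
  refine ⟨h.1.smul hk, fun σ' hσ t' ht' hin => h.2 σ' hσ (k⁻¹ • t') ((le_smul_iff' k).1 ht') ?_⟩
  simpa using hin.smul (inv_fix hk)

theorem Pc.unique {σ σ' : Y.idx} {y y' : Name (Cond F)} {t t' s : Cond F} (h : Pc a Y σ y t)
    (h' : Pc a Y σ' y' t') (hs : s ≤ t) (hs' : s ≤ t') (he : FEq y y' s) : σ = σ' := by
  rcases trichotomous_of WellOrderingRel σ σ' with hlt | heq | hlt
  · exact absurd (h.1.congr hs he) (h'.2 σ hlt s hs')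
  · exact heq
  · exact absurd (h'.1.congr hs' he.symm) (h.2 σ' hlt s hs)

end pieces

/-! ### Good codes -/

/-- The properties of a code `(σ, u₀, r)` with witnesses `g₀, a', x, α`. -/
structure Wit (a b : F.L) (f X Y : Name (Cond F)) (p₁ : Cond F) (s : Y.idx → F.L)
    (τ : Y.idx × F.L × Cond F) (g₀ : F.G) (a' : F.L) (x : Name (Cond F)) (α : Ordinal.{0}) :
    Prop where
  g_fix : g₀ • a = a
  g_s : g₀ • s τ.1 = τ.2.1
  le_a' : b ≤ a'
  supp_x : F.sys.Supp a' x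
  hs_x : F.sys.HS x
  le_p : τ.2.2 ≤ p₁
  lives : Lives (Set.Iic a') τ.2.2
  pc : Pc a Y τ.1 (g₀ • Y.fn τ.1) τ.2.2
  mem_x : FMem x X τ.2.2
  mem_f : FMem (opair x (g₀ • Y.fn τ.1)) f τ.2.2
  stab_y : F.Stable b (g₀ • Y.fn τ.1) τ.2.2
  filt : IsFilt F.st α (F.piSet b (g₀ • Y.fn τ.1) τ.2.2)
  rigid : F.Rigid b (g₀ • Y.fn τ.1) τ.2.2
  stab_x : F.Stable a x τ.2.2
  supp_a : a ∈ F.piSet a x τ.2.2 → F.sys.Supp a x

theorem exists_wit (h₁ : SupInfStmt) (h₂ : StableStmt) (h₃ : RigidStmt) (api : CondAPI F)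
    {a b : F.L} {f X Y : Name (Cond F)} {p₁ : Cond F} {s : Y.idx → F.L} (hab : a < b)
    (hf : F.sys.Supp a f) (hX : F.sys.Supp a X) (hYs : F.sys.HS Y)
    (hp : Lives (Set.Iic a) p₁) (hS : F.sys.Surj f X Y p₁) {y : Name (Cond F)} {q : Cond F}
    (hq : q ≤ p₁) (hm : FMem y Y q) :
    ∃ t ≤ q, ∃ τ g₀ a' x α, Wit a b f X Y p₁ s τ g₀ a' x α ∧ t ≤ τ.2.2 ∧
      FEq y (g₀ • Y.fn τ.1) t := by
  have hinf := h₁ F api
  have hne : ({σ | ∃ t ≤ q, InP a Y σ y t} : Set Y.idx).Nonempty := by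
    obtain ⟨r, hr, j, -, he⟩ := hm q le_rfl
    exact ⟨j, r, hr, 1, one_smul _ _, by simpa using he⟩
  have wf : WellFounded (WellOrderingRel (α := Y.idx)) := IsWellFounded.wf
  obtain ⟨σ, ⟨t₁, ht₁, g₀, hg₀, he₁⟩, hmin⟩ := wf.has_min _ hne
  set y₀ := g₀ • Y.fn σ with hy₀
  have hy₀s : F.sys.HS y₀ := hs_smul g₀ (hYs.fn σ)
  obtain ⟨t₂, ht₂, x₀, hx₀, hx₀X, hx₀f⟩ :=
    hS.onto y₀ hy₀s t₁ (ht₁.trans hq) ((hm.mono ht₁).congr_left he₁)
  obtain ⟨t₃, ht₃, hst₃, -⟩ := h₂ F api hinf a x₀ hx₀ t₂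
  obtain ⟨x, hx, hex, hxa⟩ : ∃ x, F.sys.HS x ∧ FEq x₀ x t₃ ∧
      (a ∈ F.piSet a x₀ t₃ → F.sys.Supp a x) := by
    by_cases h : a ∈ F.piSet a x₀ t₃
    · obtain ⟨z, hz₁, hz₂, hz₃⟩ := h.2
      exact ⟨z, hz₁, hz₃, fun _ => hz₂⟩
    · exact ⟨x₀, hx₀, FEq.refl _ _, fun h' => absurd h' h⟩
  obtain ⟨w, hw₁, hw₂⟩ := exists_supp₂ (S := F.sys) hx hy₀s
  obtain ⟨a', hwa, hba⟩ := F.directed w b
  have hxa' := supp_mono hw₁ hwa.le
  have hya' := supp_mono hw₂ hwa.le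
  have haa' : a ≤ a' := hab.le.trans hba.le
  obtain ⟨t₄, ht₄, hst₄, α, hfilt⟩ := h₂ F api hinf b y₀ hy₀s t₃
  obtain ⟨t₅, ht₅, hrig⟩ := (h₃ F api hinf b a' y₀ hy₀s hya' hba.le).2 t₄ α hst₄ hfilt
  have h53 : t₅ ≤ t₃ := ht₅.trans ht₄
  have h52 : t₅ ≤ t₂ := h53.trans ht₃
  have h51 : t₅ ≤ t₁ := h52.trans ht₂
  obtain ⟨ey, sy⟩ := (h₃ F api hinf b a' y₀ hy₀s hya' hba.le).1 t₅ (hst₄.mono ht₅)
  obtain ⟨ex, sx⟩ := (h₃ F api hinf a a' x hx hxa' haa').1 t₅ ((hst₃.congr hex).mono h53)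
  refine ⟨t₅, h51.trans ht₁, (σ, g₀ • s σ, t₅.restrict (Set.Iic a')), g₀, a', x, α,
    ⟨hg₀, rfl, hba.le, hxa', hx, ?_, api.lives_restrict _ _, ⟨⟨g₀, hg₀, FEq.refl _ _⟩, ?_⟩,
      fmem_restrict api hxa' (supp_mono hX haa') ((hx₀X.mono h52).congr_left (hex.mono h53)),
      fmem_restrict api (Supp.opair (S := F.sys) hxa' hya') (supp_mono hf haa')
        ((hx₀f.mono h52).congr_left ((hex.mono h53).opair (FEq.refl _ _))),
      sy, ?_, hrig, sx, ?_⟩, api.le_restrict _ _, he₁.mono h51⟩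
  · rintro ⟨u, γ⟩ c hc
    have hu : u ≤ a := hp u γ (by rw [hc]; simp)
    show (t₅.restrict (Set.Iic a')).val (u, γ) = some c
    rw [restrict_val, if_pos (show u ∈ Set.Iic a' from hu.trans haa')]
    exact (h51.trans (ht₁.trans hq)) _ _ hc
  · intro σ' hσ' t' ht' hin
    obtain ⟨k, hk, t'', h₁, h₂⟩ := api.homog a' t₅ t' ht'
    have hka : k • a = a := F.fix_below k a' a hk haa'
    have hin' := (hin.congr h₂ (supp_feq hya' hk t'').symm).smul (inv_fix hka)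
    rw [inv_smul_smul] at hin'
    have hle : k⁻¹ • t'' ≤ t₁ := ((le_smul_iff' k).1 h₁).trans h51
    exact hmin σ' ⟨k⁻¹ • t'', hle.trans ht₁, hin'.congr le_rfl (he₁.mono hle).symm⟩ hσ'
  · show IsFilt F.st α (F.piSet b y₀ (t₅.restrict (Set.Iic a')))
    rw [ey, hst₄.eq ht₅]; exact hfilt
  · intro h
    apply hxa
    change a ∈ F.piSet a x (t₅.restrict (Set.Iic a')) at h
    rwa [ex, (hst₃.congr hex).eq h53, ← piSet_congr hex] at h

end Frame

end Crest.Agent.R296
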