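import Crest.Agent.R296.Defs

/-!
Row 296: forcing of the pair formulas and of the graph formulas.
-/

set_option autoImplicit false

open FirstOrder FirstOrder.Language Crest.LogicCS.SetTheory

namespace Crest.Agent.R296

open Name

namespace Sys

variable {S : Sys} {n : ℕ}

theorem hs_snoc {v : Fin n → Name S.P} (hv : ∀ i, S.HS (v i)) {x : Name S.P} (hx : S.HS x) :
    ∀ i, S.HS ((Fin.snoc v x : Fin (n + 1) → Name S.P) i) := fun i => by
  refine Fin.lastCases ?_ (fun j => ?_) i
  · simpa using hx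
  · simpa using hv j

/-- Forced equality of hereditarily symmetric names is extensional equality over such names. -/
theorem feq_iff_hs_ext {x y : Name S.P} (hx : S.HS x) (hy : S.HS y) {p : S.P} :
    FEq x y p ↔ ∀ z, S.HS z → ∀ q ≤ p, FMem z x q ↔ FMem z y q :=
  ⟨fun h _ _ _ hq => ⟨FMem.congr_right (h.mono hq), FMem.congr_right (h.mono hq).symm⟩,
    feq_of_hs_ext hx hy⟩

theorem fmem_sing_iff {z x : Name S.P} {p : S.P} : FMem z (upair x x) p ↔ FEq z x p :=
  ⟨feq_of_fmem_sing, fun h => FMem.congr_left h.symm (fmem_upair_left x x p)⟩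

theorem forces_isSing {v : Fin n → Name S.P} (hv : ∀ i, S.HS (v i)) (w a : Fin n) (p : S.P) :
    S.Forces (isSing w a) v p ↔ FEq (v w) (upair (v a) (v a)) p := by
  rw [feq_iff_hs_ext (hv w) ((hv a).upair (hv a))]
  simp only [isSing, forces_all, forces_iff, forces_vmem, forces_veq, Fin.snoc_last,
    Fin.snoc_castSucc, fmem_sing_iff]

theorem forces_isUPair {v : Fin n → Name S.P} (hv : ∀ i, S.HS (v i)) (w a b : Fin n) (p : S.P) :
    S.Forces (isUPair w a b) v p ↔ FEq (v w) (upair (v a) (v b)) p := by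
  rw [feq_iff_hs_ext (hv w) ((hv a).upair (hv b))]
  simp only [isUPair, forces_all, forces_iff, forces_sup, forces_vmem, forces_veq, Fin.snoc_last,
    Fin.snoc_castSucc, fmem_upair]

theorem forces_isOPair {v : Fin n → Name S.P} (hv : ∀ i, S.HS (v i)) (z a b : Fin n) (p : S.P) :
    S.Forces (isOPair z a b) v p ↔ FEq (v z) (opair (v a) (v b)) p := by
  rw [feq_iff_hs_ext (hv z) ((hv a).opair (hv b))]
  simp only [isOPair, forces_all]
  refine forall₂_congr fun x hx => ?_
  simp only [forces_iff, forces_sup, forces_vmem, forces_isSing (hs_snoc hv hx),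
    forces_isUPair (hs_snoc hv hx), Fin.snoc_last, Fin.snoc_castSucc, opair,
    fmem_upair (z := x)]

theorem forces_pairMem {v : Fin n → Name S.P} (hv : ∀ i, S.HS (v i)) (f a b : Fin n) (p : S.P) :
    S.Forces (pairMem f a b) v p ↔ FMem (opair (v a) (v b)) (v f) p := by
  rw [pairMem, forces_ex]
  constructor
  · intro h
    refine FMem.of_dense fun q hq => ?_
    obtain ⟨r, hr, x, hx, h'⟩ := h q hq
    simp only [forces_inf, forces_vmem, forces_isOPair (hs_snoc hv hx), Fin.snoc_last,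
      Fin.snoc_castSucc] at h'
    exact ⟨r, hr, FMem.congr_left h'.2 h'.1⟩
  · intro h q hq
    have hx := (hv a).opair (hv b)
    refine ⟨q, le_rfl, _, hx, ?_⟩
    simp only [forces_inf, forces_vmem, forces_isOPair (hs_snoc hv hx), Fin.snoc_last,
      Fin.snoc_castSucc]
    exact ⟨h.mono hq, FEq.refl _ _⟩

/-- The totality clause `∀ a ∈ X, ∃ b ∈ Y, (a, b) ∈ f`. -/
theorem forces_totClause {v : Fin n → Name S.P} (hv : ∀ i, S.HS (v i)) (f X Y : Fin n) (p : S.P) :
    S.Forces (∀' (vmem (Fin.last n) X.castSucc ⟹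
      ∃' (vmem (Fin.last (n + 1)) Y.castSucc.castSucc ⊓
        pairMem f.castSucc.castSucc (Fin.last n).castSucc (Fin.last (n + 1))))) v p ↔
    ∀ x, S.HS x → ∀ q ≤ p, FMem x (v X) q →
      ∃ r ≤ q, ∃ y, S.HS y ∧ FMem y (v Y) r ∧ FMem (opair x y) (v f) r := by
  simp only [forces_all, forces_imp, forces_ex, forces_vmem, Fin.snoc_last, Fin.snoc_castSucc]
  refine forall₂_congr fun x hx => ?_
  constructor
  · intro h q hq hm
    obtain ⟨r, hr, y, hy, h'⟩ := h q hq hm q le_rfl
    simp only [forces_inf, forces_vmem, forces_pairMem (hs_snoc (hs_snoc hv hx) hy),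
      Fin.snoc_last, Fin.snoc_castSucc] at h'
    exact ⟨r, hr, y, hy, h'⟩
  · intro h q hq hm q' hq'
    obtain ⟨r, hr, y, hy, h'⟩ := h q' (hq'.trans hq) (hm.mono hq')
    refine ⟨r, hr, y, hy, ?_⟩
    simp only [forces_inf, forces_vmem, forces_pairMem (hs_snoc (hs_snoc hv hx) hy),
      Fin.snoc_last, Fin.snoc_castSucc]
    exact h'

/-- The surjectivity clause `∀ b ∈ Y, ∃ a ∈ X, (a, b) ∈ f`. -/
theorem forces_ontoClause {v : Fin n → Name S.P} (hv : ∀ i, S.HS (v i)) (f X Y : Fin n)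
    (p : S.P) :
    S.Forces (∀' (vmem (Fin.last n) Y.castSucc ⟹
      ∃' (vmem (Fin.last (n + 1)) X.castSucc.castSucc ⊓
        pairMem f.castSucc.castSucc (Fin.last (n + 1)) (Fin.last n).castSucc))) v p ↔
    ∀ y, S.HS y → ∀ q ≤ p, FMem y (v Y) q →
      ∃ r ≤ q, ∃ x, S.HS x ∧ FMem x (v X) r ∧ FMem (opair x y) (v f) r := by
  simp only [forces_all, forces_imp, forces_ex, forces_vmem, Fin.snoc_last, Fin.snoc_castSucc]
  refine forall₂_congr fun x hx => ?_
  constructor
  · intro h q hq hm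
    obtain ⟨r, hr, y, hy, h'⟩ := h q hq hm q le_rfl
    simp only [forces_inf, forces_vmem, forces_pairMem (hs_snoc (hs_snoc hv hx) hy),
      Fin.snoc_last, Fin.snoc_castSucc] at h'
    exact ⟨r, hr, y, hy, h'⟩
  · intro h q hq hm q' hq'
    obtain ⟨r, hr, y, hy, h'⟩ := h q' (hq'.trans hq) (hm.mono hq')
    refine ⟨r, hr, y, hy, ?_⟩
    simp only [forces_inf, forces_vmem, forces_pairMem (hs_snoc (hs_snoc hv hx) hy),
      Fin.snoc_last, Fin.snoc_castSucc]
    exact h'

/-- The functionality clause. -/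
theorem forces_fnClause {v : Fin n → Name S.P} (hv : ∀ i, S.HS (v i)) (f X : Fin n) (p : S.P) :
    S.Forces (∀' ∀' ∀' ((vmem (Fin.last n).castSucc.castSucc X.castSucc.castSucc.castSucc ⊓
      pairMem f.castSucc.castSucc.castSucc (Fin.last n).castSucc.castSucc
        (Fin.last (n + 1)).castSucc ⊓
      pairMem f.castSucc.castSucc.castSucc (Fin.last n).castSucc.castSucc (Fin.last (n + 2))) ⟹
      veq (Fin.last (n + 1)).castSucc (Fin.last (n + 2)))) v p ↔
    ∀ x y y', S.HS x → S.HS y → S.HS y' → ∀ q ≤ p, FMem x (v X) q → FMem (opair x y) (v f) q →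
      FMem (opair x y') (v f) q → FEq y y' q := by
  simp only [forces_all]
  constructor
  · intro h x y y' hx hy hy' q hq h1 h2 h3
    have := h x hx y hy y' hy'
    simp only [forces_imp, forces_inf, forces_vmem, forces_veq,
      forces_pairMem (hs_snoc (hs_snoc (hs_snoc hv hx) hy) hy'), Fin.snoc_castSucc] at this
    simp only [Fin.snoc_last] at this
    exact this q hq ⟨⟨h1, h2⟩, h3⟩
  · intro h x hx y hy y' hy'
    simp only [forces_imp, forces_inf, forces_vmem, forces_veq,
      forces_pairMem (hs_snoc (hs_snoc (hs_snoc hv hx) hy) hy'), Fin.snoc_castSucc]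
    simp only [Fin.snoc_last]
    exact fun q hq h' => h x y y' hx hy hy' q hq h'.1.1 h'.1.2 h'.2

/-- The injectivity clause. -/
theorem forces_injClause {v : Fin n → Name S.P} (hv : ∀ i, S.HS (v i)) (g Y : Fin n) (p : S.P) :
    S.Forces (∀' ∀' ∀' ((vmem (Fin.last n).castSucc.castSucc Y.castSucc.castSucc.castSucc ⊓
      vmem (Fin.last (n + 1)).castSucc Y.castSucc.castSucc.castSucc ⊓
      pairMem g.castSucc.castSucc.castSucc (Fin.last n).castSucc.castSucc (Fin.last (n + 2)) ⊓
      pairMem g.castSucc.castSucc.castSucc (Fin.last (n + 1)).castSucc (Fin.last (n + 2))) ⟹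
      veq (Fin.last n).castSucc.castSucc (Fin.last (n + 1)).castSucc)) v p ↔
    ∀ y y' x, S.HS y → S.HS y' → S.HS x → ∀ q ≤ p, FMem y (v Y) q → FMem y' (v Y) q →
      FMem (opair y x) (v g) q → FMem (opair y' x) (v g) q → FEq y y' q := by
  simp only [forces_all]
  constructor
  · intro h x y y' hx hy hy' q hq h1 h2 h3 h4
    have := h x hx y hy y' hy'
    simp only [forces_imp, forces_inf, forces_vmem, forces_veq,
      forces_pairMem (hs_snoc (hs_snoc (hs_snoc hv hx) hy) hy'), Fin.snoc_castSucc] at this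
    simp only [Fin.snoc_last] at this
    exact this q hq ⟨⟨⟨h1, h2⟩, h3⟩, h4⟩
  · intro h x hx y hy y' hy'
    simp only [forces_imp, forces_inf, forces_vmem, forces_veq,
      forces_pairMem (hs_snoc (hs_snoc (hs_snoc hv hx) hy) hy'), Fin.snoc_castSucc]
    simp only [Fin.snoc_last]
    exact fun q hq h' => h x y y' hx hy hy' q hq h'.1.1.1 h'.1.1.2 h'.1.2 h'.2

theorem forces_surjGraph {v : Fin n → Name S.P} (hv : ∀ i, S.HS (v i)) (f X Y : Fin n) (p : S.P) :
    S.Forces (surjGraph f X Y) v p ↔ S.Surj (v f) (v X) (v Y) p := by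
  rw [surjGraph, forces_inf, forces_inf, forces_totClause hv, forces_fnClause hv,
    forces_ontoClause hv]
  exact ⟨fun h => ⟨h.1.1, h.1.2, h.2⟩, fun h => ⟨⟨h.1, h.2⟩, h.3⟩⟩

theorem forces_injGraph {v : Fin n → Name S.P} (hv : ∀ i, S.HS (v i)) (g Y X : Fin n) (p : S.P) :
    S.Forces (injGraph g Y X) v p ↔ S.Inj (v g) (v Y) (v X) p := by
  rw [injGraph, forces_inf, forces_inf, forces_totClause hv, forces_fnClause hv,
    forces_injClause hv]
  exact ⟨fun h => ⟨h.1.1, h.1.2, h.2⟩, fun h => ⟨⟨h.1, h.2⟩, h.3⟩⟩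

theorem Surj.mono {f X Y : Name S.P} {p q : S.P} (h : S.Surj f X Y p) (hq : q ≤ p) :
    S.Surj f X Y q :=
  ⟨fun x hx r hr => h.tot x hx r (hr.trans hq),
    fun x y y' hx hy hy' r hr => h.fn x y y' hx hy hy' r (hr.trans hq),
    fun y hy r hr => h.onto y hy r (hr.trans hq)⟩

theorem Inj.mono {g Y X : Name S.P} {p q : S.P} (h : S.Inj g Y X p) (hq : q ≤ p) :
    S.Inj g Y X q :=
  ⟨fun x hx r hr => h.tot x hx r (hr.trans hq),
    fun x y y' hx hy hy' r hr => h.fn x y y' hx hy hy' r (hr.trans hq),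
    fun x y y' hx hy hy' r hr => h.inj x y y' hx hy hy' r (hr.trans hq)⟩

end Sys

end Crest.Agent.R296
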