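import Crest.Agent.R296.PPA
import Crest.Agent.R296.Conj

/-!
Row 296: deciding the support filter of a name.
-/

set_option autoImplicit false

namespace Crest.Agent.R296

open Name Cond Sys

open _root_.Crest.Agent.R296.Frame

theorem stableStmt : StableStmt := by
  intro F api hinf c y hy t
  set π : Cond F → Set F.L := F.piSet c y with hπ
  have hne : ∀ r, (π r).Nonempty := by
    intro r
    obtain ⟨w, hw⟩ := hy.supp
    obtain ⟨z, h₁, h₂⟩ := F.directed w c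
    exact ⟨z, h₂.le, sup_self hy (supp_mono hw h₁.le) r⟩
  have hup : ∀ r, ∀ e ∈ π r, ∀ e', e ≤ e' → e' ∈ π r :=
    fun r e he e' h => ⟨he.1.trans h, he.2.up h⟩
  have hmeet : ∀ r, ∀ e ∈ π r, ∀ e' ∈ π r, e ⊓ e' ∈ π r :=
    fun r e he e' he' => ⟨le_inf he.1 he'.1, hinf _ _ _ _ he.2 he'.2⟩
  have hmono : ∀ {r r'}, r' ≤ r → π r ⊆ π r' := fun h => piSet_mono h
  obtain ⟨r₁, hr₁, hD⟩ := api.distrib (ULift.{1} ℕ)
    (fun n => {r | ∃ z ∈ π r, ∀ t' ≤ r, ∀ v ∈ π t', F.h z < F.h v + 1 / ((n.down : ℝ) + 1)})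
    (by
      rintro n p ⟨z, hz, h⟩ q hq
      exact ⟨z, hmono hq hz, fun t' ht' => h t' (ht'.trans hq)⟩)
    (by
      intro n p
      have hb : BddBelow {x : ℝ | ∃ t' ≤ p, ∃ v ∈ π t', F.h v = x} :=
        ⟨0, by rintro _ ⟨_, -, v, -, rfl⟩; exact (F.h_pos v).le⟩
      have hn : {x : ℝ | ∃ t' ≤ p, ∃ v ∈ π t', F.h v = x}.Nonempty := by
        obtain ⟨v, hv⟩ := hne p
        exact ⟨_, p, le_rfl, v, hv, rfl⟩
      obtain ⟨_, ⟨q, hq, z, hz, rfl⟩, hlt⟩ := exists_lt_of_csInf_lt hn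
        (lt_add_of_pos_right _ (Nat.one_div_pos_of_nat (n := n.down)))
      refine ⟨q, hq, z, hz, fun t' ht' v hv => hlt.trans_le ?_⟩
      have := csInf_le hb ⟨t', ht'.trans hq, v, hv, rfl⟩
      linarith) t
  choose z hz hzv using hD
  obtain ⟨α₀, hα₀⟩ : ∃ α₀, ∀ n, F.st (z n) < α₀ := by
    obtain ⟨β, hβ⟩ := Ordinal.bddAbove_of_small (s := Set.range fun n => F.st (z n))
    exact ⟨Order.succ β, fun n => Order.lt_succ_iff.2 (hβ ⟨n, rfl⟩)⟩
  have := F.small_st α₀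
  obtain ⟨r₂, hr₂, hdec⟩ := api.distrib {u : F.L // F.st u < α₀}
    (fun u => {r | u.1 ∈ π r ∨ ∀ t' ≤ r, u.1 ∉ π t'})
    (by
      rintro u p (h | h) q hq
      · exact Or.inl (hmono hq h)
      · exact Or.inr fun t' ht' => h t' (ht'.trans hq))
    (by
      intro u p
      by_cases h : ∃ t' ≤ p, u.1 ∈ π t'
      · obtain ⟨t', ht', h⟩ := h
        exact ⟨t', ht', Or.inl h⟩
      · push Not at h
        exact ⟨p, le_rfl, Or.inr h⟩) r₁
  by_cases hA : ∀ t' ≤ r₂, ∀ v ∈ π t', ∃ o ∈ π r₂, F.st o < α₀ ∧ o ≤ v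
  · refine ⟨r₂, hr₂.trans hr₁, fun t' ht' v hv => ?_, α₀, hne _, hup _, hmeet _,
      hA r₂ le_rfl⟩
    obtain ⟨o, ho, -, hle⟩ := hA t' ht' v hv
    exact hup _ o ho v hle
  · have hex : {β : Ordinal.{0} | ∃ t' ≤ r₂, ∃ v ∈ π t', F.st v = β ∧
        ¬ ∃ o ∈ π r₂, F.st o < α₀ ∧ o ≤ v}.Nonempty := by
      by_contra h
      apply hA
      intro t' ht' v hv
      by_contra h'
      exact h ⟨_, t', ht', v, hv, rfl, h'⟩
    obtain ⟨_, ⟨t', ht', v, hv, rfl, hno⟩, hmin⟩ := wellFounded_lt.has_min _ hex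
    have hα : α₀ ≤ F.st v := by
      by_contra h
      rcases hdec ⟨v, not_le.1 h⟩ with h' | h'
      · exact hno ⟨v, h', not_le.1 h, le_rfl⟩
      · exact h' t' ht' hv
    rcases F.filt (π t') (hmeet t') v hv with ⟨o, ho, hlt, hle⟩ | ⟨z', hz', hlow⟩
    · exfalso
      apply hmin (F.st o) _ hlt
      refine ⟨t', ht', o, ho, rfl, ?_⟩
      rintro ⟨o', ho', h₁, h₂⟩
      exact hno ⟨o', ho', h₁, h₂.trans hle⟩
    · have key : ∀ t'' ≤ t', ∀ u ∈ π t'', z' ≤ u := by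
        intro t'' ht'' u hu
        have hm : u ⊓ z' ∈ π t'' := hmeet _ u hu z' (hmono ht'' hz')
        have h₁ : F.h z' ≤ F.h (u ⊓ z') := by
          refine le_of_forall_pos_lt_add fun ε hε => ?_
          obtain ⟨n, hn⟩ := exists_nat_one_div_lt hε
          have h₂ := hzv ⟨n⟩ t'' (ht''.trans (ht'.trans hr₂)) _ hm
          have h₃ := F.h_mono.monotone
            (hlow (z ⟨n⟩) (hmono (ht'.trans hr₂) (hz ⟨n⟩)) ((hα₀ _).trans_le hα))
          simp only at h₂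
          linarith
        by_contra h
        exact absurd h₁ (not_le.2 (F.h_mono (lt_of_le_of_ne inf_le_right
          fun he => h (he ▸ inf_le_left))))
      refine ⟨t', ht'.trans (hr₂.trans hr₁), fun t'' ht'' u hu => hup _ z' hz' u (key t'' ht'' u hu),
        Order.succ (F.st z'), hne _, hup _, hmeet _,
        fun e he => ⟨z', hz', Order.lt_succ _, key t' le_rfl e he⟩⟩

theorem rigidStmt : RigidStmt := by
  intro F api hinf c a' y hy hya hca
  have ha : ∀ r, a' ∈ F.piSet c y r := fun r => ⟨hca, sup_self hy hya r⟩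
  have part₁ : ∀ r, F.Stable c y r → F.piSet c y (r.restrict (Set.Iic a')) = F.piSet c y r ∧
      F.Stable c y (r.restrict (Set.Iic a')) := by
    intro r hr
    have e : F.piSet c y (r.restrict (Set.Iic a')) = F.piSet c y r := by
      refine (piSet_mono (api.le_restrict _ _)).antisymm fun u hu => ⟨hu.1, ?_⟩
      obtain ⟨z, hz, hzs, he⟩ := hinf _ _ _ _ hu.2 (ha r).2
      refine Sup.up ⟨z, hz, hzs, ?_⟩ inf_le_left
      exact api.restrict_mem a' {r | FEq y z r} (fun _ h _ h' => FEq.mono h h')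
        (fun _ h => FEq.of_dense h)
        (fun k hk r h => (supp_feq hya hk _).symm.trans
          ((feq_smul' k h).trans (supp_feq hzs (F.fix_below k a' _ hk inf_le_right) _))) r he
    refine ⟨e, fun t ht u hu => ?_⟩
    rw [e]
    obtain ⟨k, hk, t', h₁, h₂⟩ := api.homog a' r t ht
    have h₃ : u ∈ F.piSet c (k • y) t' := by
      rw [piSet_congr (supp_feq hya hk t')]; exact piSet_mono h₂ hu
    have h₄ := (hr.mem_smul (F.fix_below k a' c hk hca) h₁ u).1 h₃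
    refine ⟨hu.1, Sup.up (hinf _ _ _ _ h₄.2 (ha r).2) ?_⟩
    rw [← F.fix_below k a' (k⁻¹ • u ⊓ a') hk inf_le_right, smul_inf', smul_inv_smul]
    exact inf_le_left
  refine ⟨part₁, fun r α hr hf => ?_⟩
  set α' := max α (Order.succ (F.st a')) with hα'
  have hsa : F.st a' < α' := lt_max_of_lt_right (Order.lt_succ _)
  have hf' : IsFilt F.st α' (F.piSet c y r) := ⟨hf.ne, hf.up, hf.inf,
    fun e he => (hf.gen e he).imp fun _ ho => ⟨ho.1, ho.2.1.trans_le (le_max_left _ _), ho.2.2⟩⟩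
  obtain ⟨r', hr', hsep⟩ := api.separate r {v | F.st v < α'} (F.small_st α')
  refine ⟨r', hr', fun k _ hk hc => ?_⟩
  rw [(part₁ r' (hr.mono hr')).1, hr.eq hr'] at hk ⊢
  obtain ⟨w, hw, h₁, h₂, h₃, h₄⟩ := api.old_pair k _ _ α' a' a' hf' hf' hk (ha r) (ha r) hsa hsa
  refine ⟨w, hw, ?_⟩
  by_contra hne
  obtain ⟨γ, b, hb, hb'⟩ := hsep (k • w) h₂ w h₁ hne
  have := (api.compat_iff _ _).1 hc (k • w, γ) b (!b)
    (by rw [restrict_val, if_pos (show k • w ∈ Set.Iic a' from h₄), hb])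
    (by rw [smul_val, inv_smul_smul, restrict_val, if_pos (show w ∈ Set.Iic a' from h₃), hb'])
  cases b <;> cases this

end Crest.Agent.R296
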