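import Crest.Agent.R296.SuccB

/-!
Row 296, the successor step, part C: height, smallness, tasks.
-/

set_option autoImplicit false

namespace Crest.Agent.R296

universe v

namespace Succ

open W

variable {M : Type v} [Monoid M]

/-- Lower end of the height window of a task. -/
noncomputable def lo (h : M → ℝ) (τ : T M) : ℝ := max (h τ.1.q₁) (h τ.1.q₂)

/-- Upper end of the height window of a task. -/
noncomputable def hi (h : M → ℝ) (τ : T M) : ℝ := sInf (h '' τ.1.E)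

/-- The height of a word. -/
noncomputable def wh (h : M → ℝ) : W M → ℝ
  | old m => h m
  | node τ _ s => lo h τ + (hi h τ - lo h τ) * wh h s / 2

variable {h : M → ℝ}

theorem h_lt_of_dvd (hG : Good M h) {a b : M} (hab : a ∣ b) (hne : a ≠ b) : h b < h a := by
  obtain ⟨c, rfl⟩ := hab
  exact hG.h_lt a c fun hc => hne (by rw [hc, mul_one])

theorem h_le_of_dvd (hG : Good M h) {a b : M} (hab : a ∣ b) : h b ≤ h a := by
  by_cases hne : a = b
  · rw [hne]
  · exact (h_lt_of_dvd hG hab hne).le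

theorem hi_le (hG : Good M h) (τ : T M) {e : M} (he : e ∈ τ.1.E) : hi h τ ≤ h e :=
  csInf_le ⟨0, by rintro _ ⟨a, -, rfl⟩; exact (hG.h_pos a).le⟩ ⟨e, he, rfl⟩

theorem lo_lt_hi (hG : Good M h) (τ : T M) : lo h τ < hi h τ := by
  obtain ⟨c, h1, h2, h3, h4, h5⟩ := τ.2.room
  have hc : h c ≤ hi h τ := le_csInf ⟨_, 1, τ.2.one_mem, rfl⟩ (by
    rintro _ ⟨e, he, rfl⟩; exact h_le_of_dvd hG (h1 e he))
  exact (max_lt (h_lt_of_dvd hG h2 h4) (h_lt_of_dvd hG h3 h5)).trans_le hc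

theorem qq_le_lo (τ : T M) (i : Bool) : h (qq τ i) ≤ lo h τ := by
  cases i
  · exact le_max_left _ _
  · exact le_max_right _ _

theorem wh_window (hG : Good M h) (τ : T M) {x : ℝ} (h0 : 0 < x) (h1 : x ≤ 1) :
    lo h τ < lo h τ + (hi h τ - lo h τ) * x / 2 ∧ lo h τ + (hi h τ - lo h τ) * x / 2 < hi h τ := by
  have := lo_lt_hi hG τ
  constructor <;> nlinarith

theorem wh_bounds (hG : Good M h) (s : W M) : 0 < wh h s ∧ wh h s ≤ 1 := by
  induction s with
  | old m => exact ⟨hG.h_pos m, hG.h_le m⟩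
  | node τ i s ih =>
    obtain ⟨h1, h2⟩ := wh_window hG τ ih.1 ih.2
    have h3 := (hG.h_pos _).trans_le (qq_le_lo (h := h) τ false)
    have h4 := (hi_le hG τ τ.2.one_mem).trans (hG.h_le 1)
    exact ⟨h3.trans h1, h2.le.trans h4⟩

/-- Coding of words. -/
def code : W M → List (T M × Bool) × M
  | old m => ([], m)
  | node τ i s => ((τ, i) :: (code s).1, (code s).2)

theorem code_inj : Function.Injective (code : W M → List (T M × Bool) × M) := by
  intro s
  induction s with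
  | old m =>
    intro t e
    cases t with
    | old m' => rw [(Prod.mk.inj e).2]
    | node τ i t => cases (Prod.mk.inj e).1
  | node τ i s ih =>
    intro t e
    cases t with
    | old m' => cases (Prod.mk.inj e).1
    | node τ' i' t =>
      obtain ⟨e1, e2⟩ := Prod.mk.inj e
      obtain ⟨e3, e4⟩ := List.cons.inj e1
      obtain ⟨rfl, rfl⟩ := Prod.mk.inj e3
      rw [ih (Prod.ext e4 e2)]

theorem small_N (hM : Small.{0} M) : Small.{0} (N M) := by
  have : Small.{0} (Task M) :=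
    small_of_injective (f := fun τ : Task M => (τ.p, τ.q, τ.q₁, τ.q₂, τ.E)) fun τ τ' e => by
      simp only [Prod.mk.injEq] at e
      exact Task.ext e.1 e.2.1 e.2.2.1 e.2.2.2.1 e.2.2.2.2
  have : Small.{0} (W M) := small_of_injective code_inj
  infer_instance

variable [Gd M]

/-- The height of a normal word. -/
noncomputable def nh (h : M → ℝ) (s : N M) : ℝ := wh h s.1

theorem nh_emb (m : M) : nh h (emb m) = h m := rfl

theorem nh_Phi {τ : T M} {s : N M} (hs : ¬ emb τ.1.q ∣ s) (i : Bool) :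
    nh h (Phi τ i s) = lo h τ + (hi h τ - lo h τ) * nh h s / 2 := by
  rw [nh, coe_Phi_not hs]; rfl

theorem nh_lt_of_emb_dvd (hG : Good M h) {o : M} {v : N M} (hd : emb o ∣ v) (hne : v ≠ emb o) :
    nh h v < h o := by
  rcases ncases v with ⟨m, rfl⟩ | ⟨τ, i, s, hs, rfl⟩
  · exact h_lt_of_dvd hG (emb_dvd_emb.1 hd) fun e => hne (by rw [e])
  · rw [nh_Phi hs]
    exact (wh_window hG τ (wh_bounds hG s.1).1 (wh_bounds hG s.1).2).2.trans_le
      (hi_le hG τ ((emb_dvd_Phi hs i).1 hd))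

theorem nh_le_of_emb_dvd (hG : Good M h) {o : M} {v : N M} (hd : emb o ∣ v) : nh h v ≤ h o := by
  by_cases hne : v = emb o
  · rw [hne, nh_emb]
  · exact (nh_lt_of_emb_dvd hG hd hne).le

theorem nh_mul_lt (hG : Good M h) (n : ℕ) : ∀ t s : N M, nlen t = n → s ≠ 1 →
    nh h (t * s) < nh h t := by
  induction n using Nat.strong_induction_on with
  | _ n ih =>
  intro t s hn hs1
  rcases ncases t with ⟨m, rfl⟩ | ⟨τ, i, t, ht, rfl⟩
  · exact nh_lt_of_emb_dvd hG (Dvd.intro _ rfl) fun e =>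
      hs1 (ncancel (emb m) _ _ (by rw [e, mul_one]))
  · rw [Phi_mul, nh_Phi ht]
    by_cases hq : emb τ.1.q ∣ t * s
    · exact ((nh_le_of_emb_dvd hG (qq_dvd_Phi hq i)).trans (qq_le_lo τ i)).trans_lt
        (wh_window hG τ (wh_bounds hG t.1).1 (wh_bounds hG t.1).2).1
    · rw [nh_Phi hq]
      rw [nlen_Phi_not ht] at hn
      have h1 := ih (nlen t) (by omega) t s rfl hs1
      have h2 := lo_lt_hi hG τ
      nlinarith

theorem good_N (hG : Good M h) : Good (N M) (nh h) where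
  cancel := ncancel
  unit := nunit
  meet s t := (exists_meet s t).imp fun _ hm => hm.1
  h_pos s := (wh_bounds hG s.1).1
  h_le s := (wh_bounds hG s.1).2
  h_lt t s hs := nh_mul_lt hG _ t s rfl hs

theorem not_q_dvd_one (τ : T M) : ¬ (emb τ.1.q : N M) ∣ 1 := by
  intro hd
  rw [← map_one emb, emb_dvd_emb] at hd
  obtain ⟨c, hc⟩ := hd
  exact τ.2.q_ne (Gd.unit _ c hc.symm)

theorem q_dvd_of_Phi_eq_emb {τ : T M} {i : Bool} {v : N M} {o : M} (e : emb o = Phi τ i v) :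
    emb τ.1.q ∣ v := by
  by_contra hq
  exact Phi_ne_emb hq i o e.symm

theorem qq_dvd_of_Phi_dvd {τ : T M} {i : Bool} {s : N M} {o : M} (hd : Phi τ i s ∣ emb o) :
    qq τ i ∣ o := by
  obtain ⟨v, -, e⟩ := exists_of_Phi_dvd hd
  rw [← emb_dvd_emb, e]
  exact qq_dvd_Phi (q_dvd_of_Phi_eq_emb e) i

theorem last_clause (τ : T M) (hq : τ.1.q₁ = τ.1.q₂) (n : ℕ) : ∀ (u z : N M) (o : M), nlen u = n →
    Phi τ false 1 ∣ z → u ∣ z → ¬ emb τ.1.q₁ ∣ z → u ∣ emb o → ¬ τ.1.q₁ ∣ o →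
    ∃ e ∈ τ.1.E, u ∣ emb e := by
  induction n using Nat.strong_induction_on with
  | _ n ih =>
  intro u z o hn h1 h2 h3 h4 h5
  obtain ⟨z₀, -, rfl⟩ := exists_of_Phi_dvd h1
  have hz : ¬ emb τ.1.q ∣ z₀ := fun hd => h3 (qq_dvd_Phi hd false)
  rcases ncases u with ⟨m, rfl⟩ | ⟨τ', i', s', hs', rfl⟩
  · exact ⟨m, (emb_dvd_Phi hz false).1 h2, dvd_rfl⟩
  · have hne : τ ≠ τ' := by
      rintro rfl
      apply h5
      have := qq_dvd_of_Phi_dvd h4
      cases i'
      · exact this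
      · rw [hq]; exact this
    obtain ⟨r, hr, hl⟩ := exists_core hs' i'
    obtain ⟨v, hv, e⟩ := exists_of_Phi_dvd h4
    obtain ⟨z', hz', e'⟩ := exists_of_Phi_dvd h2
    have d1 : Phi τ' i' r ∣ emb o := by
      rw [e]; exact core_dvd hr hv (q_dvd_of_Phi_eq_emb e)
    have d2 : Phi τ' i' r ∣ Phi τ false z₀ := by
      rw [e']
      refine core_dvd hr hz' ?_
      by_contra hd
      exact hne (Phi_node_inj hz hd e').1
    obtain ⟨e₀, he₀, d3⟩ := ih _ (hn ▸ hl) _ _ o rfl h1 d2 h3 d1 h5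
    exact ⟨e₀, he₀, (Phi_dvd_Phi τ' i' (meet_left hr)).trans d3⟩

theorem isSucc (hG : Good M h) : IsSucc h (nh h) (emb : M →* N M) nlen where
  good := good_N hG
  inj := emb_inj
  h_eq := nh_emb
  small := small_N
  right t s := by
    rintro ⟨m, hm⟩
    have h1 := le_nlen_mul t s
    rw [← hm, nlen_emb] at h1
    obtain ⟨m', rfl⟩ := exists_emb_of_nlen (Nat.le_zero.1 h1)
    exact ⟨m', rfl⟩
  meet_old _ _ _ := meet_emb
  step u hu := by
    rcases ncases u with ⟨m, rfl⟩ | ⟨τ, i, s, hs, rfl⟩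
    · exact absurd ⟨m, rfl⟩ hu
    · obtain ⟨r, hr, hl⟩ := exists_core hs i
      refine ⟨Phi τ i r, Phi_dvd_Phi τ i (meet_left hr), Or.inr hl, fun o => ?_⟩
      by_cases ho : o ∈ τ.1.E
      · exact Or.inl ((emb_dvd_Phi hs i).2 ho)
      · exact Or.inr (core_old hr ho)
  task τ₀ hτ := by
    let τ : T M := ⟨τ₀, hτ⟩
    have h1 := not_q_dvd_one τ
    have hx : ∀ i, Phi τ i 1 * emb τ₀.q = emb (qq τ i) := fun i => by
      rw [Phi_mul, one_mul, ← mul_one (emb τ₀.q)]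
      exact (Phi_q τ i 1).trans (mul_one _)
    refine ⟨Phi τ false 1, Phi τ true 1, fun ⟨m, hm⟩ => Phi_ne_emb h1 false m hm.symm,
      fun ⟨m, hm⟩ => Phi_ne_emb h1 true m hm.symm, hx false, hx true, ?_, ?_,
      fun e he => ⟨(emb_dvd_Phi h1 false).2 he, (emb_dvd_Phi h1 true).2 he⟩,
      fun o ho => qq_dvd_of_Phi_dvd ho, fun o ho => qq_dvd_of_Phi_dvd ho,
      fun hq u z o => last_clause τ hq _ u z o rfl⟩
    · rw [Phi_mul, Phi_mul, one_mul]
      exact Phi_p (τ := τ) dvd_rfl _ _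
    · intro v a b
      obtain ⟨v₀, -, rfl⟩ := exists_of_Phi_dvd a
      obtain ⟨v₀', -, e⟩ := exists_of_Phi_dvd b
      rw [Phi_mul, one_mul]
      exact Phi_dvd_Phi τ false ((Phi_eq_same e).2.resolve_left (by simp))

end Succ

theorem succStmt : SuccStmt := by
  intro M _ h hG
  have : Succ.Gd M := ⟨hG.cancel, hG.unit, hG.meet⟩
  exact ⟨Succ.N M, inferInstance, Succ.nh h, Succ.emb, Succ.nlen, Succ.isSucc hG⟩

end Crest.Agent.R296
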