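import Crest.Agent.R296.MonDefs

/-!
Row 296, the successor step, part A: tasks, raw words and their multiplication.
-/

set_option autoImplicit false

namespace Crest.Agent.R296

universe v

namespace Succ

/-- The height-free part of `Good`. -/
class Gd (M : Type v) [Monoid M] : Prop where
  cancel : ∀ t s s' : M, t * s = t * s' → s = s'
  unit : ∀ t s : M, t * s = 1 → t = 1
  meet : ∀ s t : M, ∃ m, IsMeet s t m

section basic
variable {M : Type v} [Monoid M]

theorem meet_left {s t m : M} (h : IsMeet s t m) : s ∣ m := ((h m).1 dvd_rfl).1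
theorem meet_right {s t m : M} (h : IsMeet s t m) : t ∣ m := ((h m).1 dvd_rfl).2
theorem meet_dvd {s t m v : M} (h : IsMeet s t m) (h1 : s ∣ v) (h2 : t ∣ v) : m ∣ v :=
  (h v).2 ⟨h1, h2⟩
theorem meet_symm {s t m : M} (h : IsMeet s t m) : IsMeet t s m :=
  fun v => (h v).trans and_comm
theorem meet_of {s t m : M} (h1 : s ∣ m) (h2 : t ∣ m) (h3 : ∀ v, s ∣ v → t ∣ v → m ∣ v) :
    IsMeet s t m :=
  fun v => ⟨fun h => ⟨h1.trans h, h2.trans h⟩, fun h => h3 v h.1 h.2⟩
theorem meet_red {t t₁ t' m : M} (h1 : t ∣ t₁) (h2 : ∀ v, t ∣ v → t' ∣ v → t₁ ∣ v)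
    (h : IsMeet t₁ t' m) : IsMeet t t' m :=
  meet_of (h1.trans (meet_left h)) (meet_right h) fun v a b => meet_dvd h (h2 v a b) b

theorem mul_dvd_mul_l (m : M) {a b : M} (h : a ∣ b) : m * a ∣ m * b := by
  obtain ⟨c, rfl⟩ := h
  exact ⟨c, (mul_assoc _ _ _).symm⟩

variable [Gd M]

theorem dvd_of_mul_dvd {m a b : M} (h : m * a ∣ m * b) : a ∣ b := by
  obtain ⟨c, hc⟩ := h
  exact ⟨c, Gd.cancel m _ _ (by rw [hc, mul_assoc])⟩

theorem dvd_antisymm' {a b : M} (h1 : a ∣ b) (h2 : b ∣ a) : a = b := by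
  obtain ⟨s, rfl⟩ := h1
  obtain ⟨t, ht⟩ := h2
  have : s * t = 1 := Gd.cancel a _ _ (by rw [← mul_assoc, ← ht, mul_one])
  rw [Gd.unit s t this, mul_one]

theorem meet_mul_iff {m s t x : M} : IsMeet (m * s) (m * t) (m * x) ↔ IsMeet s t x := by
  constructor
  · intro h
    exact meet_of (dvd_of_mul_dvd (meet_left h)) (dvd_of_mul_dvd (meet_right h)) fun v a b =>
      dvd_of_mul_dvd (meet_dvd h (mul_dvd_mul_l m a) (mul_dvd_mul_l m b))
  · intro h
    refine meet_of (mul_dvd_mul_l m (meet_left h)) (mul_dvd_mul_l m (meet_right h)) ?_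
    rintro v ⟨a, rfl⟩ hb
    rw [mul_assoc] at hb ⊢
    exact mul_dvd_mul_l m (meet_dvd h (Dvd.intro _ rfl) (dvd_of_mul_dvd hb))

end basic

/-- Valid tasks. -/
abbrev T (M : Type v) [Monoid M] : Type v := {τ : Task M // τ.Valid}

variable {M : Type v} [Monoid M]

/-- The target of the `i`-th new generator. -/
def qq (τ : T M) (i : Bool) : M := if i then τ.1.q₂ else τ.1.q₁

@[simp] theorem qq_true (τ : T M) : qq τ true = τ.1.q₂ := rfl
@[simp] theorem qq_false (τ : T M) : qq τ false = τ.1.q₁ := rfl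

theorem room_qq (τ : T M) : ∃ c, (∀ e ∈ τ.1.E, e ∣ c) ∧ ∀ i, c ∣ qq τ i ∧ c ≠ qq τ i := by
  obtain ⟨c, h1, h2, h3, h4, h5⟩ := τ.2.room
  exact ⟨c, h1, fun i => by cases i; exacts [⟨h2, h4⟩, ⟨h3, h5⟩]⟩

theorem mem_E_meet (τ : T M) {e e' x : M} (he : e ∈ τ.1.E) (he' : e' ∈ τ.1.E)
    (h : IsMeet e e' x) : x ∈ τ.1.E := by
  obtain ⟨e'', h1, h2, h3⟩ := τ.2.dir e he e' he'
  exact τ.2.up e'' h1 x (meet_dvd h h2 h3)

variable [Gd M]

theorem qq_notMem (τ : T M) (i : Bool) : qq τ i ∉ τ.1.E := by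
  intro h
  obtain ⟨c, h1, h2⟩ := room_qq τ
  exact (h2 i).2 (dvd_antisymm' (h2 i).1 (h1 _ h))

theorem qq_not_both (τ τ' : T M) (i i' : Bool) (h : qq τ' i' ∈ τ.1.E) : qq τ i ∉ τ'.1.E := by
  intro h'
  obtain ⟨c, h1, h2⟩ := room_qq τ
  obtain ⟨c', h1', h2'⟩ := room_qq τ'
  exact (h2 i).2 (dvd_antisymm' (h2 i).1 ((h1' _ h').trans ((h2' i').1.trans (h1 _ h))))

/-- Left translation of a task. -/
def act (m : M) (τ : T M) : T M :=
  ⟨⟨τ.1.p, τ.1.q, m * τ.1.q₁, m * τ.1.q₂, {e' | ∃ e ∈ τ.1.E, e' ∣ m * e}⟩,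
    { q_ne := τ.2.q_ne
      glue := by
        obtain ⟨w, h1, h2, h3⟩ := τ.2.glue
        refine ⟨w, h1, by simp only [mul_assoc, h2], ?_⟩
        simp only [mul_assoc]
        exact meet_mul_iff.2 h3
      one_mem := ⟨1, τ.2.one_mem, one_dvd _⟩
      up := fun e ⟨e₀, h0, h1⟩ e' h => ⟨e₀, h0, h.trans h1⟩
      dir := by
        rintro e ⟨a, ha, h1⟩ e' ⟨b, hb, h2⟩
        obtain ⟨c, hc, h3, h4⟩ := τ.2.dir a ha b hb
        exact ⟨m * c, ⟨c, hc, dvd_rfl⟩, h1.trans (mul_dvd_mul_l m h3),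
          h2.trans (mul_dvd_mul_l m h4)⟩
      room := by
        obtain ⟨c, h1, h2, h3, h4, h5⟩ := τ.2.room
        exact ⟨m * c, fun e ⟨a, ha, h⟩ => h.trans (mul_dvd_mul_l m (h1 a ha)),
          mul_dvd_mul_l m h2, mul_dvd_mul_l m h3, fun h => h4 (Gd.cancel m _ _ h),
          fun h => h5 (Gd.cancel m _ _ h)⟩ }⟩

@[simp] theorem act_p (m : M) (τ : T M) : (act m τ).1.p = τ.1.p := rfl
@[simp] theorem act_q (m : M) (τ : T M) : (act m τ).1.q = τ.1.q := rfl
theorem qq_act (m : M) (τ : T M) (i : Bool) : qq (act m τ) i = m * qq τ i := by cases i <;> rfl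
theorem mem_act {m : M} {τ : T M} {e' : M} : e' ∈ (act m τ).1.E ↔ ∃ e ∈ τ.1.E, e' ∣ m * e :=
  Iff.rfl

theorem mul_mem_act {m : M} {τ : T M} {e : M} : m * e ∈ (act m τ).1.E ↔ e ∈ τ.1.E :=
  ⟨fun ⟨a, ha, h⟩ => τ.2.up a ha e (dvd_of_mul_dvd h), fun h => ⟨e, h, dvd_rfl⟩⟩

theorem act_mul (m m' : M) (τ : T M) : act (m * m') τ = act m (act m' τ) := by
  refine Subtype.ext (Task.ext rfl rfl (mul_assoc _ _ _) (mul_assoc _ _ _) ?_)
  ext e
  rw [mem_act, mem_act]
  constructor
  · rintro ⟨a, ha, h⟩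
    exact ⟨m' * a, mul_mem_act.2 ha, by rwa [← mul_assoc]⟩
  · rintro ⟨b, ⟨a, ha, h1⟩, h2⟩
    exact ⟨a, ha, by rw [mul_assoc]; exact h2.trans (mul_dvd_mul_l m h1)⟩

theorem act_one (τ : T M) : act 1 τ = τ := by
  refine Subtype.ext (Task.ext rfl rfl (one_mul _) (one_mul _) ?_)
  ext e
  rw [← mul_mem_act (m := 1) (τ := τ), one_mul]

theorem act_inj {m : M} {τ τ' : T M} (h : act m τ = act m τ') : τ = τ' := by
  have h1 : (act m τ).1.p = (act m τ').1.p := by rw [h]
  have h2 : (act m τ).1.q = (act m τ').1.q := by rw [h]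
  have h3 : qq (act m τ) false = qq (act m τ') false := by rw [h]
  have h4 : qq (act m τ) true = qq (act m τ') true := by rw [h]
  rw [qq_act, qq_act] at h3 h4
  refine Subtype.ext (Task.ext h1 h2 (Gd.cancel m _ _ h3) (Gd.cancel m _ _ h4) ?_)
  ext e
  rw [← mul_mem_act (m := m), h, mul_mem_act]

theorem exists_act {τ : T M} {o : M} (ho : o ∈ τ.1.E) : ∃ τ', act o τ' = τ := by
  obtain ⟨c, hc1, hc2, hc3, hc4, hc5⟩ := τ.2.room
  obtain ⟨c', rfl⟩ := hc1 o ho
  obtain ⟨a, ha⟩ := (Dvd.intro c' rfl).trans hc2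
  obtain ⟨b, hb⟩ := (Dvd.intro c' rfl).trans hc3
  have hup : ∀ e ∈ τ.1.E, ∃ f, o * f ∈ τ.1.E ∧ e ∣ o * f := by
    intro e he
    obtain ⟨e'', h1, h2, f, rfl⟩ := τ.2.dir e he o ho
    exact ⟨f, h1, h2⟩
  refine ⟨⟨⟨τ.1.p, τ.1.q, a, b, {e | o * e ∈ τ.1.E}⟩, τ.2.q_ne, ?_, ?_, ?_, ?_, ?_⟩, ?_⟩
  · obtain ⟨w, h1, h2, h3⟩ := τ.2.glue
    rw [ha, hb, mul_assoc] at h3
    rw [ha, hb, mul_assoc, mul_assoc] at h2
    exact ⟨w, h1, Gd.cancel o _ _ h2, meet_mul_iff.1 h3⟩
  · show o * 1 ∈ τ.1.E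
    rwa [mul_one]
  · exact fun e he e' h => τ.2.up _ he _ (mul_dvd_mul_l o h)
  · intro e he e' he'
    obtain ⟨e'', h1, ⟨f, rfl⟩, h3⟩ := τ.2.dir _ he _ he'
    rw [mul_assoc] at h1 h3
    exact ⟨e * f, h1, Dvd.intro _ rfl, dvd_of_mul_dvd h3⟩
  · rw [ha] at hc2 hc4
    rw [hb] at hc3 hc5
    exact ⟨c', fun e he => dvd_of_mul_dvd (hc1 _ he), dvd_of_mul_dvd hc2, dvd_of_mul_dvd hc3,
      fun h => hc4 (by rw [h]), fun h => hc5 (by rw [h])⟩
  · refine Subtype.ext (Task.ext rfl rfl ha.symm hb.symm ?_)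
    ext e
    rw [mem_act]
    exact ⟨fun ⟨f, hf, h⟩ => τ.2.up _ hf _ h, hup e⟩

end Succ

/-- Raw words. -/
inductive Succ.W (M : Type v) [Monoid M] : Type v
  | old (m : M) : Succ.W M
  | node (τ : Succ.T M) (i : Bool) (s : Succ.W M) : Succ.W M

namespace Succ

open W

variable {M : Type v} [Monoid M]

/-- The number of new generators in a word. -/
def len : W M → ℕ
  | old _ => 0
  | node _ _ s => len s + 1

/-- The word lies below the old element `o`. -/
def below : W M → M → Prop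
  | old m, o => o ∣ m
  | node τ _ _, o => o ∈ τ.1.E

/-- Normal words. -/
def Normal : W M → Prop
  | old _ => True
  | node τ i s => Normal s ∧ ¬ below s τ.1.q ∧ (below s τ.1.p → i = false)

theorem below_meet {s : W M} {o o' x : M} (h : below s o) (h' : below s o') (hx : IsMeet o o' x) :
    below s x := by
  cases s with
  | old m => exact meet_dvd hx h h'
  | node τ i s => exact mem_E_meet τ h h' hx

variable [Gd M]

/-- Left multiplication by an old element. -/
def sm (m : M) : W M → W M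
  | old m' => old (m * m')
  | node τ i s => node (act m τ) i s

theorem sm_mul (m m' : M) (s : W M) : sm (m * m') s = sm m (sm m' s) := by
  cases s with
  | old a => simp only [sm, mul_assoc]
  | node τ i s => simp only [sm, act_mul]

theorem sm_one (s : W M) : sm 1 s = s := by
  cases s with
  | old a => simp only [sm, one_mul]
  | node τ i s => simp only [sm, act_one]

theorem sm_inj {m : M} {s s' : W M} (h : sm m s = sm m s') : s = s' := by
  cases s <;> cases s' <;> simp only [sm, old.injEq, node.injEq, reduceCtorEq] at h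
  · rw [Gd.cancel m _ _ h]
  · rw [act_inj h.1, h.2.1, h.2.2]

theorem len_sm (m : M) (s : W M) : len (sm m s) = len s := by cases s <;> rfl

theorem normal_sm (m : M) (s : W M) : Normal (sm m s) ↔ Normal s := by cases s <;> rfl

theorem below_iff {s : W M} {o : M} : below s o ↔ ∃ s', sm o s' = s := by
  constructor
  · intro h
    cases s with
    | old m =>
      obtain ⟨c, rfl⟩ := h
      exact ⟨old c, rfl⟩
    | node τ i s =>
      obtain ⟨τ', rfl⟩ := exists_act h
      exact ⟨node τ' i s, rfl⟩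
  · rintro ⟨s', rfl⟩
    cases s' with
    | old m => exact Dvd.intro m rfl
    | node τ i s => exact ⟨1, τ.2.one_mem, by rw [mul_one]⟩

theorem below_sm (o : M) (s : W M) : below (sm o s) o := below_iff.2 ⟨s, rfl⟩

open Classical in
/-- Application of the new generator `(τ, i)` to a word. -/
noncomputable def phi (τ : T M) (i : Bool) (s : W M) : W M :=
  if h : below s τ.1.q then sm (qq τ i) (below_iff.1 h).choose
  else node τ (if below s τ.1.p then false else i) s

theorem phi_sm (τ : T M) (i : Bool) (v : W M) : phi τ i (sm τ.1.q v) = sm (qq τ i) v := by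
  rw [phi, dif_pos (below_sm _ _)]
  congr 1
  exact sm_inj (below_iff.1 (below_sm τ.1.q v)).choose_spec

open Classical in
theorem phi_not {τ : T M} {s : W M} (h : ¬ below s τ.1.q) (i : Bool) :
    phi τ i s = node τ (if below s τ.1.p then false else i) s := by
  rw [phi, dif_neg h]

theorem phi_act (m : M) (τ : T M) (i : Bool) (v : W M) :
    phi (act m τ) i v = sm m (phi τ i v) := by
  by_cases h : below v τ.1.q
  · obtain ⟨v', rfl⟩ := below_iff.1 h
    rw [phi_sm, ← sm_mul, ← qq_act]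
    exact phi_sm (act m τ) i v'
  · rw [phi_not h, phi_not (τ := act m τ) h]; rfl

theorem phi_eq_of_below {τ : T M} {v : W M} (hp : below v τ.1.p) (i j : Bool) :
    phi τ i v = phi τ j v := by
  by_cases h : below v τ.1.q
  · obtain ⟨w, h1, h2, -⟩ := τ.2.glue
    obtain ⟨v', rfl⟩ := below_iff.1 (below_meet hp h h1)
    have : qq τ i * w = qq τ j * w := by cases i <;> cases j <;> simp [h2]
    rw [sm_mul, phi_sm, phi_sm, ← sm_mul, ← sm_mul, this]
  · rw [phi_not h, phi_not h, if_pos hp, if_pos hp]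

theorem normal_phi (τ : T M) (i : Bool) {s : W M} (hs : Normal s) : Normal (phi τ i s) := by
  by_cases h : below s τ.1.q
  · obtain ⟨v, rfl⟩ := below_iff.1 h
    rw [phi_sm, normal_sm]
    exact (normal_sm _ _).1 hs
  · rw [phi_not h]
    exact ⟨hs, h, fun hp => if_pos hp⟩

theorem phi_of_normal {τ : T M} {i : Bool} {s : W M} (h : Normal (node τ i s)) :
    phi τ i s = node τ i s := by
  rw [phi_not h.2.1]
  split_ifs with hp
  · rw [h.2.2 hp]
  · rfl

theorem phi_inj {τ : T M} {i : Bool} {s s' : W M} (h : phi τ i s = phi τ i s') : s = s' := by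
  by_cases h1 : below s τ.1.q <;> by_cases h2 : below s' τ.1.q
  · obtain ⟨v, rfl⟩ := below_iff.1 h1
    obtain ⟨v', rfl⟩ := below_iff.1 h2
    rw [phi_sm, phi_sm] at h
    rw [sm_inj h]
  · obtain ⟨v, rfl⟩ := below_iff.1 h1
    rw [phi_sm, phi_not h2] at h
    have := below_sm (qq τ i) v
    rw [h] at this
    exact absurd this (qq_notMem τ i)
  · obtain ⟨v, rfl⟩ := below_iff.1 h2
    rw [phi_sm, phi_not h1] at h
    have := below_sm (qq τ i) v
    rw [← h] at this
    exact absurd this (qq_notMem τ i)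
  · rw [phi_not h1, phi_not h2] at h
    exact (node.inj h).2.2

theorem le_len_phi (τ : T M) (i : Bool) (s : W M) : len s ≤ len (phi τ i s) := by
  by_cases h : below s τ.1.q
  · obtain ⟨v, rfl⟩ := below_iff.1 h
    rw [phi_sm, len_sm, len_sm]
  · rw [phi_not h]; exact Nat.le_succ _

/-- Multiplication of words. -/
noncomputable def mul : W M → W M → W M
  | old m, u => sm m u
  | node τ i s, u => phi τ i (mul s u)

theorem mul_sm (m : M) (t u : W M) : mul (sm m t) u = sm m (mul t u) := by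
  cases t with
  | old a => exact sm_mul m a u
  | node τ i s => exact phi_act m τ i _

theorem below_mul {t : W M} {o : M} (h : below t o) (u : W M) : below (mul t u) o := by
  obtain ⟨t', rfl⟩ := below_iff.1 h
  rw [mul_sm]
  exact below_sm _ _

theorem mul_phi (τ : T M) (i : Bool) (t u : W M) : mul (phi τ i t) u = phi τ i (mul t u) := by
  by_cases h : below t τ.1.q
  · obtain ⟨t', rfl⟩ := below_iff.1 h
    rw [phi_sm, mul_sm, mul_sm, phi_sm]
  · rw [phi_not h]
    show phi τ _ (mul t u) = _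
    split_ifs with hp
    · exact phi_eq_of_below (below_mul hp u) _ _
    · rfl

theorem wmul_assoc (s t u : W M) : mul (mul s t) u = mul s (mul t u) := by
  induction s with
  | old m => exact mul_sm m t u
  | node τ i s ih =>
    show mul (phi τ i (mul s t)) u = phi τ i (mul s (mul t u))
    rw [mul_phi, ih]

theorem normal_mul (t : W M) {u : W M} (hu : Normal u) : Normal (mul t u) := by
  induction t with
  | old m => exact (normal_sm m u).2 hu
  | node τ i s ih => exact normal_phi τ i ih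

theorem wmul_one {t : W M} (ht : Normal t) : mul t (old 1) = t := by
  induction t with
  | old m => simp only [mul, sm, mul_one]
  | node τ i s ih =>
    show phi τ i (mul s (old 1)) = _
    rw [ih ht.1, phi_of_normal ht]

theorem wmul_cancel (t : W M) {u u' : W M} (h : mul t u = mul t u') : u = u' := by
  induction t with
  | old m => exact sm_inj h
  | node τ i s ih => exact ih (phi_inj h)

theorem le_len_mul (t u : W M) : len u ≤ len (mul t u) := by
  induction t with
  | old m => exact (len_sm m u).ge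
  | node τ i s ih => exact ih.trans (le_len_phi τ i _)

end Succ

end Crest.Agent.R296
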