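import Crest.Agent.R296.SuccA

/-!
Row 296, the successor step, part B: the monoid of normal words and its meets.
-/

set_option autoImplicit false

namespace Crest.Agent.R296

universe v

namespace Succ

open W

/-- Normal words. -/
abbrev N (M : Type v) [Monoid M] : Type v := {w : W M // Normal w}

variable {M : Type v} [Monoid M] [Gd M]

noncomputable instance instMonoidN : Monoid (N M) where
  mul s t := ⟨mul s.1 t.1, normal_mul _ t.2⟩
  one := ⟨old 1, trivial⟩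
  mul_assoc s t u := Subtype.ext (wmul_assoc s.1 t.1 u.1)
  one_mul s := Subtype.ext (sm_one s.1)
  mul_one s := Subtype.ext (wmul_one s.2)

theorem coe_mul (s t : N M) : (s * t).1 = mul s.1 t.1 := rfl

/-- The embedding of the old monoid. -/
noncomputable def emb : M →* N M where
  toFun m := ⟨old m, trivial⟩
  map_one' := rfl
  map_mul' _ _ := rfl

theorem emb_inj : Function.Injective (emb : M → N M) := fun _ _ h =>
  old.inj (congrArg Subtype.val h)

theorem coe_emb_mul (m : M) (s : N M) : (emb m * s).1 = sm m s.1 := rfl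

theorem ncancel (t s s' : N M) (h : t * s = t * s') : s = s' :=
  Subtype.ext (wmul_cancel t.1 (congrArg Subtype.val h))

theorem emb_dvd_iff {o : M} {s : N M} : emb o ∣ s ↔ below s.1 o := by
  rw [below_iff]
  constructor
  · rintro ⟨c, rfl⟩
    exact ⟨c.1, rfl⟩
  · rintro ⟨c, hc⟩
    exact ⟨⟨c, (normal_sm o c).1 (hc ▸ s.2)⟩, Subtype.ext hc.symm⟩

theorem emb_dvd_emb {a b : M} : (emb a : N M) ∣ emb b ↔ a ∣ b := emb_dvd_iff

theorem meet_emb {x y m : M} (h : IsMeet x y m) : IsMeet (emb x : N M) (emb y) (emb m) :=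
  meet_of (emb_dvd_emb.2 (meet_left h)) (emb_dvd_emb.2 (meet_right h)) fun _ a b =>
    emb_dvd_iff.2 (below_meet (emb_dvd_iff.1 a) (emb_dvd_iff.1 b) h)

/-- The length of a normal word. -/
def nlen (s : N M) : ℕ := len s.1

theorem nlen_emb (m : M) : nlen (emb m : N M) = 0 := rfl

theorem nlen_emb_mul (m : M) (s : N M) : nlen (emb m * s) = nlen s := len_sm m s.1

theorem le_nlen_mul (t s : N M) : nlen s ≤ nlen (t * s) := le_len_mul t.1 s.1

/-- Application of a new generator. -/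
noncomputable def Phi (τ : T M) (i : Bool) (s : N M) : N M := ⟨phi τ i s.1, normal_phi τ i s.2⟩

theorem Phi_mul (τ : T M) (i : Bool) (s u : N M) : Phi τ i s * u = Phi τ i (s * u) :=
  Subtype.ext (mul_phi τ i s.1 u.1)

theorem Phi_inj {τ : T M} {i : Bool} {s s' : N M} (h : Phi τ i s = Phi τ i s') : s = s' :=
  Subtype.ext (phi_inj (congrArg Subtype.val h))

theorem Phi_q (τ : T M) (i : Bool) (v : N M) : Phi τ i (emb τ.1.q * v) = emb (qq τ i) * v :=
  Subtype.ext (phi_sm τ i v.1)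

theorem Phi_p {τ : T M} {v : N M} (h : emb τ.1.p ∣ v) (i j : Bool) : Phi τ i v = Phi τ j v :=
  Subtype.ext (phi_eq_of_below (emb_dvd_iff.1 h) i j)

theorem qq_dvd_Phi {τ : T M} {v : N M} (h : emb τ.1.q ∣ v) (i : Bool) :
    emb (qq τ i) ∣ Phi τ i v := by
  obtain ⟨c, rfl⟩ := h
  rw [Phi_q]
  exact Dvd.intro _ rfl

open Classical in
theorem coe_Phi_not {τ : T M} {s : N M} (h : ¬ emb τ.1.q ∣ s) (i : Bool) :
    (Phi τ i s).1 = node τ (if below s.1 τ.1.p then false else i) s.1 :=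
  phi_not (fun h' => h (emb_dvd_iff.2 h')) i

theorem ncases (t : N M) : (∃ m, t = emb m) ∨
    ∃ (τ : T M) (i : Bool) (s : N M), ¬ emb τ.1.q ∣ s ∧ t = Phi τ i s := by
  obtain ⟨t, ht⟩ := t
  cases t with
  | old m => exact Or.inl ⟨m, rfl⟩
  | node τ i s =>
    exact Or.inr ⟨τ, i, ⟨s, ht.1⟩, fun h => ht.2.1 (emb_dvd_iff.1 h),
      Subtype.ext (phi_of_normal ht).symm⟩

theorem emb_dvd_Phi {τ : T M} {s : N M} (h : ¬ emb τ.1.q ∣ s) (i : Bool) {o : M} :
    emb o ∣ Phi τ i s ↔ o ∈ τ.1.E := by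
  rw [emb_dvd_iff, coe_Phi_not h]; rfl

theorem Phi_ne_emb {τ : T M} {s : N M} (h : ¬ emb τ.1.q ∣ s) (i : Bool) (m : M) :
    Phi τ i s ≠ emb m := by
  intro e
  have := congrArg Subtype.val e
  rw [coe_Phi_not h] at this
  cases this

theorem Phi_node_inj {τ τ' : T M} {i i' : Bool} {s s' : N M} (h : ¬ emb τ.1.q ∣ s)
    (h' : ¬ emb τ'.1.q ∣ s') (e : Phi τ i s = Phi τ' i' s') :
    τ = τ' ∧ s = s' ∧ (i = i' ∨ emb τ.1.p ∣ s) := by
  have e1 := congrArg Subtype.val e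
  rw [coe_Phi_not h, coe_Phi_not h'] at e1
  obtain ⟨rfl, e2, e3⟩ := node.inj e1
  obtain rfl : s = s' := Subtype.ext e3
  refine ⟨rfl, rfl, ?_⟩
  by_cases hp : below s.1 τ.1.p
  · exact Or.inr (emb_dvd_iff.2 hp)
  · rw [if_neg hp, if_neg hp] at e2
    exact Or.inl e2

theorem nlen_Phi_not {τ : T M} {s : N M} (h : ¬ emb τ.1.q ∣ s) (i : Bool) :
    nlen (Phi τ i s) = nlen s + 1 := by
  rw [nlen, coe_Phi_not h]; rfl

theorem nlen_Phi_dvd {τ : T M} {s : N M} (h : emb τ.1.q ∣ s) (i : Bool) :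
    nlen (Phi τ i s) = nlen s := by
  obtain ⟨c, rfl⟩ := h
  rw [Phi_q, nlen_emb_mul, nlen_emb_mul]

theorem nlen_Phi_le (τ : T M) (i : Bool) (s : N M) : nlen (Phi τ i s) ≤ nlen s + 1 := by
  by_cases h : emb τ.1.q ∣ s
  · rw [nlen_Phi_dvd h]; exact Nat.le_succ _
  · exact (nlen_Phi_not h i).le

theorem exists_emb_of_nlen {s : N M} (h : nlen s = 0) : ∃ m, s = emb m := by
  rcases ncases s with h1 | ⟨τ, i, s, h1, rfl⟩
  · exact h1
  · rw [nlen_Phi_not h1] at h; cases h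

theorem Phi_dvd_Phi (τ : T M) (i : Bool) {a b : N M} (h : a ∣ b) : Phi τ i a ∣ Phi τ i b := by
  obtain ⟨c, rfl⟩ := h
  exact ⟨c, (Phi_mul τ i a c).symm⟩

theorem exists_of_Phi_dvd {τ : T M} {i : Bool} {s v : N M} (h : Phi τ i s ∣ v) :
    ∃ v₀, s ∣ v₀ ∧ v = Phi τ i v₀ := by
  obtain ⟨c, rfl⟩ := h
  exact ⟨s * c, Dvd.intro _ rfl, Phi_mul τ i s c⟩

theorem nunit (t s : N M) (h : t * s = 1) : t = 1 := by
  rcases ncases t with ⟨m, rfl⟩ | ⟨τ, i, t, -, rfl⟩
  · have h1 : m ∣ 1 := emb_dvd_emb.1 ⟨s, by rw [map_one, h]⟩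
    obtain ⟨c, hc⟩ := h1
    rw [Gd.unit m c hc.symm, map_one]
  · exfalso
    rw [Phi_mul] at h
    by_cases hq : emb τ.1.q ∣ t * s
    · have h1 := qq_dvd_Phi hq i
      rw [h, ← map_one emb, emb_dvd_emb] at h1
      exact qq_notMem τ i (τ.2.up 1 τ.2.one_mem _ h1)
    · exact Phi_ne_emb hq i 1 (by rw [h, map_one])

/-- Two applications of generators of the same task. -/
theorem Phi_eq_same {τ : T M} {i i' : Bool} {v v' : N M} (e : Phi τ i v = Phi τ i' v') :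
    v = v' ∧ (i = i' ∨ emb τ.1.p ∣ v) := by
  by_cases hi : i = i'
  · subst hi; exact ⟨Phi_inj e, Or.inl rfl⟩
  by_cases h : emb τ.1.q ∣ v <;> by_cases h' : emb τ.1.q ∣ v'
  · obtain ⟨w, h1, h2, h3⟩ := τ.2.glue
    have d1 := qq_dvd_Phi h i
    have d2 := qq_dvd_Phi h' i'
    rw [← e] at d2
    have d3 : emb (τ.1.q₁ * w) ∣ Phi τ i v := by
      cases i <;> cases i'
      · exact absurd rfl hi
      · exact meet_dvd (meet_emb h3) d1 d2
      · exact meet_dvd (meet_emb h3) d2 d1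
      · exact absurd rfl hi
    obtain ⟨b, hb⟩ := d3
    have hq : ∀ j, τ.1.q₁ * w = qq τ j * w := fun j => by cases j <;> simp [h2]
    have key : ∀ (j : Bool) (u : N M), Phi τ j u = emb (τ.1.q₁ * w) * b →
        u = emb (τ.1.q * w) * b := by
      intro j u hu
      apply Phi_inj (τ := τ) (i := j)
      rw [hu, hq j, map_mul, map_mul, mul_assoc, mul_assoc, Phi_q]
    have k1 := key i v hb
    have k2 := key i' v' (e ▸ hb)
    refine ⟨k1.trans k2.symm, Or.inr ?_⟩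
    rw [k1]
    exact (emb_dvd_emb.2 (meet_left h1)).trans (Dvd.intro _ rfl)
  · have d1 := qq_dvd_Phi h i
    rw [e, emb_dvd_Phi h'] at d1
    exact absurd d1 (qq_notMem τ i)
  · have d1 := qq_dvd_Phi h' i'
    rw [← e, emb_dvd_Phi h] at d1
    exact absurd d1 (qq_notMem τ i')
  · exact (Phi_node_inj h h' e).2

/-- Two applications of generators of different tasks. -/
theorem Phi_eq_diff {τ τ' : T M} {i i' : Bool} {v v' : N M} (hne : τ ≠ τ')
    (hq : qq τ' i' ∉ τ.1.E) (e : Phi τ i v = Phi τ' i' v') : emb τ.1.q ∣ v := by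
  by_contra h
  by_cases h' : emb τ'.1.q ∣ v'
  · have d1 := qq_dvd_Phi h' i'
    rw [← e, emb_dvd_Phi h] at d1
    exact hq d1
  · exact hne (Phi_node_inj h h' e).1

/-- The part of a node lying below the old target. -/
theorem core_dvd {τ : T M} {i : Bool} {s r v₀ : N M} (hr : IsMeet s (emb τ.1.q) r) (h1 : s ∣ v₀)
    (h2 : emb τ.1.q ∣ v₀) : Phi τ i r ∣ Phi τ i v₀ := Phi_dvd_Phi τ i (meet_dvd hr h1 h2)

theorem core_old {τ : T M} {i : Bool} {s r : N M} (hr : IsMeet s (emb τ.1.q) r) {o : M}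
    (ho : o ∉ τ.1.E) (v : N M) (h1 : Phi τ i s ∣ v) (h2 : emb o ∣ v) : Phi τ i r ∣ v := by
  obtain ⟨v₀, h3, rfl⟩ := exists_of_Phi_dvd h1
  refine core_dvd hr h3 ?_
  by_contra h
  exact ho ((emb_dvd_Phi h i).1 h2)

theorem core_diff {τ τ' : T M} {i i' : Bool} {s s' r : N M} (hr : IsMeet s (emb τ.1.q) r)
    (hne : τ ≠ τ') (hq : qq τ' i' ∉ τ.1.E) (v : N M) (h1 : Phi τ i s ∣ v) (h2 : Phi τ' i' s' ∣ v) :
    Phi τ i r ∣ v := by
  obtain ⟨v₀, h3, rfl⟩ := exists_of_Phi_dvd h1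
  obtain ⟨v₀', -, e⟩ := exists_of_Phi_dvd h2
  exact core_dvd hr h3 (Phi_eq_diff hne hq e)

theorem exists_meet_aux (n : ℕ) : ∀ t t' : N M, nlen t + nlen t' = n →
    ∃ m, IsMeet t t' m ∧ nlen m ≤ nlen t + nlen t' := by
  induction n using Nat.strong_induction_on with
  | _ n ih =>
  have IH : ∀ t t' : N M, nlen t + nlen t' < n → ∃ m, IsMeet t t' m ∧ nlen m ≤ nlen t + nlen t' :=
    fun t t' h => ih _ h t t' rfl
  -- reduction of a node to its core
  have red : ∀ (τ : T M) (i : Bool) (s t' : N M), ¬ emb τ.1.q ∣ s →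
      nlen (Phi τ i s) + nlen t' = n →
      (∀ r, IsMeet s (emb τ.1.q) r → ∀ v, Phi τ i s ∣ v → t' ∣ v → Phi τ i r ∣ v) →
      ∃ m, IsMeet (Phi τ i s) t' m ∧ nlen m ≤ nlen (Phi τ i s) + nlen t' := by
    intro τ i s t' hs hn hcore
    rw [nlen_Phi_not hs] at hn ⊢
    obtain ⟨r, hr, hlr⟩ := IH s (emb τ.1.q) (by rw [nlen_emb]; omega)
    rw [nlen_emb] at hlr
    have hl := nlen_Phi_dvd (meet_right hr) i
    obtain ⟨m, hm, hlm⟩ := IH (Phi τ i r) t' (by omega)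
    exact ⟨m, meet_red (Phi_dvd_Phi τ i (meet_left hr)) (hcore r hr) hm, by omega⟩
  have nodeold : ∀ (τ : T M) (i : Bool) (s : N M) (o : M), ¬ emb τ.1.q ∣ s →
      nlen (Phi τ i s) + nlen (emb o : N M) = n →
      ∃ m, IsMeet (Phi τ i s) (emb o) m ∧ nlen m ≤ nlen (Phi τ i s) + nlen (emb o : N M) := by
    intro τ i s o hs hn
    by_cases ho : o ∈ τ.1.E
    · exact ⟨_, meet_of dvd_rfl ((emb_dvd_Phi hs i).2 ho) fun v a _ => a, Nat.le_add_right _ _⟩
    · exact red τ i s _ hs hn fun r hr => core_old hr ho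
  intro t t' hn
  rcases ncases t with ⟨x, rfl⟩ | ⟨τ, i, s, hs, rfl⟩ <;>
    rcases ncases t' with ⟨y, rfl⟩ | ⟨τ', i', s', hs', rfl⟩
  · obtain ⟨m, hm⟩ := Gd.meet x y
    exact ⟨emb m, meet_emb hm, Nat.zero_le _⟩
  · obtain ⟨m, hm, hl⟩ := nodeold τ' i' s' x hs' (by omega)
    exact ⟨m, meet_symm hm, by omega⟩
  · exact nodeold τ i s y hs hn
  · by_cases hτ : τ = τ'
    · subst hτ
      rw [nlen_Phi_not hs, nlen_Phi_not hs'] at hn ⊢
      obtain ⟨r, hr, hlr⟩ := IH s s' (by omega)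
      by_cases hi : i = i'
      · subst hi
        refine ⟨Phi τ i r, meet_of (Phi_dvd_Phi τ i (meet_left hr))
          (Phi_dvd_Phi τ i (meet_right hr)) fun v a b => ?_, ?_⟩
        · obtain ⟨v₀, h1, rfl⟩ := exists_of_Phi_dvd a
          obtain ⟨v₀', h2, e⟩ := exists_of_Phi_dvd b
          rw [← Phi_inj e] at h2
          exact Phi_dvd_Phi τ i (meet_dvd hr h1 h2)
        · have := nlen_Phi_le τ i r
          omega
      · obtain ⟨r', hr', hlr'⟩ := IH r (emb τ.1.p) (by rw [nlen_emb]; omega)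
        rw [nlen_emb] at hlr'
        refine ⟨Phi τ i r', meet_of (Phi_dvd_Phi τ i ((meet_left hr).trans (meet_left hr'))) ?_
          fun v a b => ?_, ?_⟩
        · rw [Phi_p (meet_right hr') i i']
          exact Phi_dvd_Phi τ i' ((meet_right hr).trans (meet_left hr'))
        · obtain ⟨v₀, h1, rfl⟩ := exists_of_Phi_dvd a
          obtain ⟨v₀', h2, e⟩ := exists_of_Phi_dvd b
          obtain ⟨e1, e2⟩ := Phi_eq_same e
          rw [← e1] at h2
          exact Phi_dvd_Phi τ i (meet_dvd hr' (meet_dvd hr h1 h2) (e2.resolve_left hi))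
        · have := nlen_Phi_le τ i r'
          omega
    · by_cases hq : qq τ' i' ∈ τ.1.E
      · obtain ⟨m, hm, hl⟩ := red τ' i' s' (Phi τ i s) hs' (by omega) fun r hr =>
          core_diff hr (Ne.symm hτ) (qq_not_both τ τ' i i' hq)
        exact ⟨m, meet_symm hm, by omega⟩
      · exact red τ i s _ hs hn fun r hr => core_diff hr hτ hq

theorem exists_meet (t t' : N M) : ∃ m, IsMeet t t' m ∧ nlen m ≤ nlen t + nlen t' :=
  exists_meet_aux _ t t' rfl

theorem exists_core {τ : T M} {s : N M} (hs : ¬ emb τ.1.q ∣ s) (i : Bool) :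
    ∃ r, IsMeet s (emb τ.1.q) r ∧ nlen (Phi τ i r) < nlen (Phi τ i s) := by
  obtain ⟨r, hr, hl⟩ := exists_meet s (emb τ.1.q)
  rw [nlen_emb] at hl
  exact ⟨r, hr, by rw [nlen_Phi_dvd (meet_right hr), nlen_Phi_not hs]; omega⟩

end Succ

end Crest.Agent.R296
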