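import Crest.Agent.R296.PPA
import Crest.Agent.R296.Conj

/-!
Row 296: the supports of a value are closed under meets.
-/

set_option autoImplicit false

namespace Crest.Agent.R296

open Name Cond Sys

namespace Frame

variable {F : Frame}

/-- Group elements agreeing at a point agree below it. -/
theorem inv_agree {g g' : F.G} {w u : F.L} (h : g • w = g' • w) (hu : u ≤ g • w) :
    g⁻¹ • u = g'⁻¹ • u := by
  have h₁ : g⁻¹ • u ≤ w := by simpa using F.smul_le g⁻¹ _ _ hu
  have h₂ : (g'⁻¹ * g) • w = w := by rw [mul_smul, h, inv_smul_smul]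
  have := F.fix_below _ _ _ h₂ h₁
  rw [mul_smul, smul_inv_smul] at this
  exact this.symm

theorem feq_agree {g g' : F.G} {w : F.L} {z : Name (Cond F)} (hz : F.sys.Supp w z)
    (h : g • w = g' • w) (t : Cond F) : FEq (g • z) (g' • z) t := by
  have h₂ : (g'⁻¹ * g) • w = w := by rw [mul_smul, h, inv_smul_smul]
  have := Sys.feq_smul_top (S := F.sys) g' (supp_feq hz h₂ ⊤) t
  simpa [mul_smul] using this

theorem le_of_val {w : F.L} {s : Cond F} (hs : Lives (Set.Iic w) s) (g : F.G) {u : F.L}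
    {γ : Ordinal.{0}} {b : Bool} (h : (g • s).val (u, γ) = some b) : u ≤ g • w := by
  have := F.smul_le g _ _ (hs (g⁻¹ • u) γ (by rw [← smul_val, h]; simp))
  simpa using this

theorem zigzag (api : CondAPI F) {p q x : F.L} {z₁ z₂ : Name (Cond F)} {s : Cond F}
    (h₁ : F.sys.Supp p z₁) (h₂ : F.sys.Supp q z₂) (hp : p < x) (hq : q < x)
    (hs : Lives (Set.Iic x) s) (he : FEq z₁ z₂ s) {g : F.G} (hg : g • (p ⊓ q) = p ⊓ q)
    {t : Cond F} (ht : t ≤ s) (ht' : t ≤ g • s) : ∃ r ≤ t, FEq z₁ (g • z₁) r := by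
  obtain ⟨β, hβ⟩ := api.bound t
  obtain ⟨ε, hε₁, hε₂⟩ := F.directed (g • x) q
  have hgp : g • p < g • x := lt_of_le_not_ge (F.smul_le g _ _ hp.le)
    (fun h => hp.not_ge ((smul_le_iff' g).1 h))
  obtain ⟨α, hβα, hs₁, hs₂, hs₃, hs₄⟩ : ∃ α, β ≤ α ∧ F.st (g • x) < α ∧ F.st (g • p) < α ∧
      F.st ε < α ∧ F.st q < α := by
    refine ⟨max β (max (max (Order.succ (F.st (g • x))) (Order.succ (F.st (g • p))))
      (max (Order.succ (F.st ε)) (Order.succ (F.st q)))), le_max_left _ _, ?_, ?_, ?_, ?_⟩ <;>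
      simp only [lt_max_iff, Order.lt_succ_iff, le_refl, true_or, or_true]
  obtain ⟨k, hk, -, -, hnot, J⟩ := F.ext (g • x) (g • p) ε (Set.Ici ε) α hgp
    ⟨⟨ε, le_rfl⟩, fun _ h _ h' => le_trans h h', fun _ h _ h' => le_inf h h',
      fun e h => ⟨ε, le_rfl, hs₃, h⟩⟩ (hgp.trans hε₁) (fun _ h => h) hs₁ hs₂ hs₃
  rw [← mul_smul] at hnot J hk
  set g' := k * g with hg'
  have hW : g' • (p ⊓ q) = p ⊓ q := by
    have := inv_agree hk.symm (u := p ⊓ q) (hg ▸ F.smul_le g _ _ inf_le_left)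
    rw [inv_fix hg] at this
    exact inv_fix (g := g'⁻¹) this.symm |> fun h => by simpa using h
  have hqx : ∀ u, u ≤ q → u ≤ g' • x → u ≤ g • p := by
    intro u hu hu'
    by_contra h
    exact hε₂.not_ge (J u q q hu' h hs₄ (fun h' => h (hu.trans h')) hu le_rfl)
  have hqq : q ⊓ g' • q = p ⊓ q := by
    apply le_antisymm
    · have := hqx (q ⊓ g' • q) inf_le_left (inf_le_right.trans (F.smul_le _ _ _ hq.le))
      rw [← hW, smul_inf', hk]
      exact le_inf this inf_le_right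
    · exact le_inf inf_le_right (hW ▸ F.smul_le _ _ _ inf_le_right)
  obtain ⟨β', hβ'⟩ := api.bound (g' • s)
  obtain ⟨g₁, g₂, e₁, e₂, e₃, e₄, o₁, o₂⟩ := F.digon x p q g' (max α β') hp.le hq hW hqq
  have c₀₁ : ∀ y b b', t.val y = some b → (g' • s).val y = some b' → b = b' := by
    rintro ⟨u, γ⟩ b b' hb hb'
    have hu := (hβ u γ (by rw [hb]; simp)).1.trans_le hβα
    have hux := le_of_val hs g' hb'
    have hup : u ≤ g • p := by
      by_contra h
      exact hnot (le_trans (J u u u hux h hu h le_rfl le_rfl) hux)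
    rw [smul_val, ← inv_agree hk.symm hup, ← smul_val] at hb'
    exact Option.some.inj (hb.symm.trans (ht' _ _ hb'))
  have c₀₂ : ∀ y b b', t.val y = some b → (g₁ • s).val y = some b' → b = b' := by
    rintro ⟨u, γ⟩ b b' hb hb'
    have hu := ((hβ u γ (by rw [hb]; simp)).1.trans_le hβα).trans_le (le_max_left α β')
    have huq := o₁ u hu (le_of_val hs g₁ hb')
    rw [smul_val, F.fix_below _ _ _ (inv_fix e₁) huq] at hb'
    exact Option.some.inj (hb.symm.trans (ht _ _ hb'))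
  have c₀₃ : ∀ y b b', t.val y = some b → (g₂ • s).val y = some b' → b = b' := by
    rintro ⟨u, γ⟩ b b' hb hb'
    have hu := ((hβ u γ (by rw [hb]; simp)).1.trans_le hβα).trans_le (le_max_left α β')
    have huq := o₂ u hu (le_of_val hs g₂ hb')
    rw [smul_val, ← inv_agree e₂.symm huq, ← smul_val] at hb'
    exact c₀₁ _ _ _ hb hb'
  have c₁₂ : ∀ y b b', (g' • s).val y = some b → (g₁ • s).val y = some b' → b = b' := by
    rintro ⟨u, γ⟩ b b' hb hb'
    have hu := (hβ' u γ (by rw [hb]; simp)).1.trans_le (le_max_right α β')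
    have huq := o₁ u hu (le_of_val hs g₁ hb')
    have hup := hqx u huq (le_of_val hs g' hb)
    rw [smul_val, F.fix_below _ _ _ (inv_fix e₁) huq] at hb'
    rw [smul_val, ← inv_agree hk.symm hup, ← smul_val] at hb
    exact Option.some.inj ((ht' _ _ hb).symm.trans (ht _ _ hb'))
  have c₁₃ : ∀ y b b', (g' • s).val y = some b → (g₂ • s).val y = some b' → b = b' := by
    rintro ⟨u, γ⟩ b b' hb hb'
    have hu := (hβ' u γ (by rw [hb]; simp)).1.trans_le (le_max_right α β')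
    have huq := o₂ u hu (le_of_val hs g₂ hb')
    rw [smul_val, ← inv_agree e₂.symm huq, ← smul_val] at hb'
    exact Option.some.inj (hb.symm.trans hb')
  have c₂₃ : ∀ y b b', (g₁ • s).val y = some b → (g₂ • s).val y = some b' → b = b' := by
    rintro ⟨u, γ⟩ b b' hb hb'
    have hu : u ≤ g₁ • p := e₄ ▸ le_inf (le_of_val hs g₁ hb) (le_of_val hs g₂ hb')
    rw [smul_val, ← inv_agree e₃ hu, ← smul_val] at hb'
    exact Option.some.inj (hb.symm.trans hb')
  have crefl : ∀ (c : Cond F) y b b', c.val y = some b → c.val y = some b' → b = b' :=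
    fun c y b b' hb hb' => Option.some.inj (hb.symm.trans hb')
  obtain ⟨r, hr, -⟩ := api.glb (ULift.{1} (Fin 4)) (fun i => ![t, g' • s, g₁ • s, g₂ • s] i.down)
    (by
      rintro ⟨i⟩ ⟨j⟩
      rw [api.compat_iff]
      intro y b b'
      fin_cases i <;> fin_cases j
      all_goals first
        | exact crefl _ y b b'
        | exact c₀₁ y b b'
        | exact c₀₂ y b b'
        | exact c₀₃ y b b'
        | exact c₁₂ y b b'
        | exact c₁₃ y b b'
        | exact c₂₃ y b b'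
        | exact fun h h' => (c₀₁ y b' b h' h).symm
        | exact fun h h' => (c₀₂ y b' b h' h).symm
        | exact fun h h' => (c₀₃ y b' b h' h).symm
        | exact fun h h' => (c₁₂ y b' b h' h).symm
        | exact fun h h' => (c₁₃ y b' b h' h).symm
        | exact fun h h' => (c₂₃ y b' b h' h).symm)
  have r₀ : r ≤ t := hr ⟨0⟩
  have r₁ : r ≤ g' • s := hr ⟨1⟩
  have r₂ : r ≤ g₁ • s := hr ⟨2⟩
  have r₃ : r ≤ g₂ • s := hr ⟨3⟩
  refine ⟨r, r₀, (he.mono (r₀.trans ht)).trans ((supp_feq h₂ e₁ r).symm.trans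
    (((feq_smul' g₁ he).mono r₂).symm.trans ((feq_agree h₁ e₃ r).trans
      (((feq_smul' g₂ he).mono r₃).trans ((feq_agree h₂ e₂ r).trans
        (((feq_smul' g' he).mono r₁).symm.trans (feq_agree h₁ hk r)))))))⟩

end Frame

open _root_.Crest.Agent.R296.Frame

theorem supInfStmt : SupInfStmt := by
  rintro F api p q y t ⟨z₁, hz₁, s₁, e₁⟩ ⟨z₂, -, s₂, e₂⟩
  obtain ⟨x, hp, hq⟩ := F.directed p q
  set s := t.restrict (Set.Iic x) with hs
  have he : FEq z₁ z₂ s :=
    api.restrict_mem x {r | FEq z₁ z₂ r} (fun _ h _ h' => FEq.mono h h')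
      (fun _ h => FEq.of_dense h)
      (fun k hk r h => (supp_feq s₁ (F.fix_below k x p hk hp.le) _).symm.trans
        ((feq_smul' k h).trans (supp_feq s₂ (F.fix_below k x q hk hq.le) _))) t (e₁.symm.trans e₂)
  have claim : ∀ g : F.G, g • (p ⊓ q) = p ⊓ q → ∀ r, r ≤ s → r ≤ g • s → FEq z₁ (g • z₁) r :=
    fun g hg r h h' => FEq.of_dense fun r' hr' =>
      zigzag api s₁ s₂ hp hq (api.lives_restrict _ _) he hg (hr'.trans h) (hr'.trans h')
  let ι : Type 1 := Σ (g : {g : F.G // g • (p ⊓ q) = p ⊓ q}) (i : z₁.idx),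
    {r : Cond F // r ≤ g.1 • s ∧ r ≤ g.1 • z₁.cond i}
  let w : Name (Cond F) := Name.mk ι (fun j => j.1.1 • z₁.fn j.2.1) (fun j => j.2.2.1)
  have hw : F.sys.Supp (p ⊓ q) w := by
    refine supp_mk (S := F.sys) ?_
    rintro k hk ⟨⟨g, hg⟩, i, r, hr₁, hr₂⟩ c hc
    have hk' : k • (p ⊓ q) = p ⊓ q := hk
    refine FMem.of_idx (y := w) (⟨⟨k * g, by rw [mul_smul, hg, hk']⟩, i, k • r, ?_, ?_⟩ : ι) hc ?_
    · rw [mul_smul]; exact Cond.smul_mono _ _ _ hr₁
    · rw [mul_smul]; exact Cond.smul_mono _ _ _ hr₂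
    · exact FEq.of_eq (mul_smul k g _).symm _
  refine ⟨w, ⟨⟨_, hw⟩, fun j => hs_smul _ (hz₁.fn _)⟩, hw,
    e₁.trans (FEq.mono ?_ (api.le_restrict t (Set.Iic x)))⟩
  rw [feq_iff]
  constructor
  · intro i r h h'
    exact FMem.of_idx (y := w) (⟨⟨1, one_smul _ _⟩, i, r, by simpa using h, by simpa using h'⟩ : ι)
      le_rfl (FEq.of_eq (one_smul _ _).symm _)
  · rintro ⟨⟨g, hg⟩, i, r, hr₁, hr₂⟩ c h h'
    have h' : c ≤ r := h'
    exact ((fmem_smul' g (FMem.fn_mem z₁ i le_rfl)).mono (h'.trans hr₂)).congr_right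
      (claim g hg c h (h'.trans hr₁)).symm

end Crest.Agent.R296
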