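import Crest.Agent.R296.PairForm

/-!
Row 296: the partition principle and the negation of choice, from semantic to syntactic form.
-/

set_option autoImplicit false

open FirstOrder FirstOrder.Language Crest.LogicCS.SetTheory

namespace Crest.Agent.R296

open Name

namespace Sys

variable {S : Sys}

theorem hs_elim0 : ∀ i, S.HS ((Fin.elim0 : Fin 0 → Name S.P) i) := fun i => i.elim0

theorem valid_pp (h : S.PPSem) : S.Valid ppAx := by
  intro X hX Y hY q _ hq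
  rw [forces_ex] at hq ⊢
  intro q' hq'
  obtain ⟨r, hr, f, hf, h1⟩ := hq q' hq'
  rw [forces_surjGraph (hs_snoc (hs_snoc (hs_snoc hs_elim0 hX) hY) hf)] at h1
  obtain ⟨s, hs, g, hg, h2⟩ := h f X Y hf hX hY r h1
  refine ⟨s, hs.trans hr, g, hg, ?_⟩
  rw [forces_injGraph (hs_snoc (hs_snoc (hs_snoc hs_elim0 hX) hY) hg)]
  exact h2

theorem valid_not_ac (h : S.NotACSem) : S.Valid (∼acAx) := by
  obtain ⟨F, hF, h1, h2, h3⟩ := h
  intro q _ hq
  have h4 := hq F hF q le_rfl (by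
    simp only [forces_inf, forces_all, forces_imp, forces_ex, forces_vmem, forces_veq]
    refine ⟨fun x hx r _ hm s hs => h1 x s hx (FMem.mono hm hs),
      fun x hx x' hx' r _ hm => FEq.of_dense fun s hs => ?_⟩
    obtain ⟨⟨m1, m2⟩, m3⟩ := hm
    obtain ⟨t, ht, y, hy, m4, m5⟩ := m3 s hs
    exact ⟨t, ht, h2 x x' y t hx hx' hy (FMem.mono m1 (ht.trans hs)) (FMem.mono m2 (ht.trans hs))
      m4 m5⟩)
  simp only [forces_inf, forces_all, forces_imp, forces_ex, forces_vmem, forces_veq] at h4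
  obtain ⟨r, -, c, hc, h5⟩ := h4 q le_rfl
  obtain ⟨s, hs, x, hx, hm, h6⟩ := h3 c r hc
  obtain ⟨t, ht, y, hy, ⟨m1, m2⟩, m3⟩ := h5 x hx s hs hm s le_rfl
  rcases h6 with h6 | ⟨y1, y2, hy1, hy2, a1, a2, a3, a4, a5⟩
  · exact h6 t ht y hy ⟨m1, m2⟩
  · have b1 : FEq y1 y t := m3 y1 hy1 t le_rfl ⟨a1.mono ht, a2.mono ht⟩
    have b2 : FEq y2 y t := m3 y2 hy2 t le_rfl ⟨a3.mono ht, a4.mono ht⟩
    exact a5 t ht (b1.trans b2.symm)

end Sys

theorem syntaxStmt : SyntaxStmt := fun _ => ⟨Sys.valid_pp, Sys.valid_not_ac⟩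

end Crest.Agent.R296
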