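import Crest.Agent.R296.PairForm

/-!
Row 296: names for ordinals; choice along ordinals from semantic to syntactic form.
-/

set_option autoImplicit false

open FirstOrder FirstOrder.Language Crest.LogicCS.SetTheory

namespace Crest.Agent.R296

open Name

namespace SyntaxWO

section names

variable {P : Type 1} [Preorder P] [OrderTop P]

variable (P) in
/-- The canonical name of an ordinal. -/
noncomputable def ordN (a : Ordinal.{1}) : Name P :=
  Name.mk (Shrink.{1} (Set.Iio a)) (fun i => ordN ((equivShrink (Set.Iio a)).symm i).1)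
    (fun _ => ⊤)
termination_by a
decreasing_by exact ((equivShrink (Set.Iio a)).symm i).2

theorem ordN_eq (a : Ordinal.{1}) : ordN P a =
    Name.mk (Shrink.{1} (Set.Iio a)) (fun i => ordN P ((equivShrink (Set.Iio a)).symm i).1)
      (fun _ => ⊤) := by
  rw [ordN]

theorem fmem_ordN_of {x : Name P} {a b : Ordinal.{1}} {p : P} (hb : b < a)
    (h : FEq x (ordN P b) p) : FMem x (ordN P a) p := by
  rw [ordN_eq a, fmem_mk]
  intro q hq
  refine ⟨q, le_rfl, equivShrink (Set.Iio a) ⟨b, hb⟩, le_top, ?_⟩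
  rw [Equiv.symm_apply_apply]
  exact h.mono hq

theorem ordN_mem {a b : Ordinal.{1}} (hb : b < a) (p : P) : FMem (ordN P b) (ordN P a) p :=
  fmem_ordN_of hb (FEq.refl _ _)

theorem ordN_inj {a b : Ordinal.{1}} {p : P} (h : FEq (ordN P a) (ordN P b) p) : a = b := by
  rcases lt_trichotomy a b with hab | hab | hab
  · exact absurd (ordN_mem hab p) (not_fmem_of_feq h.symm)
  · exact hab
  · exact absurd (ordN_mem hab p) (not_fmem_of_feq h)

/-- The ordinals that can be forced into a name are bounded. -/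
theorem exists_bound (x : Name P) :
    ∃ Γ : Ordinal.{1}, ∀ g q, FMem (ordN P g) x q → g < Γ := by
  classical
  let F : x.idx × P → Ordinal.{1} := fun t =>
    if h : ∃ g, FEq (ordN P g) (x.fn t.1) t.2 then h.choose else 0
  obtain ⟨Γ, hΓ⟩ := Ordinal.bddAbove_of_small (s := Set.range F)
  refine ⟨Order.succ Γ, fun g q h => Order.lt_succ_iff.2 ?_⟩
  obtain ⟨r, -, j, -, he⟩ := h q le_rfl
  have hex : ∃ g, FEq (ordN P g) (x.fn j) r := ⟨g, he⟩
  have h1 : F (j, r) = g := by
    simp only [F, dif_pos hex]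
    exact ordN_inj (hex.choose_spec.trans he.symm)
  exact h1 ▸ hΓ ⟨(j, r), rfl⟩

end names

variable {S : Sys}

open Sys

theorem smul_ordN (hT : ∀ g : S.G, g • (⊤ : S.P) = ⊤) (g : S.G) (a : Ordinal.{1}) :
    g • ordN S.P a = ordN S.P a := by
  induction a using WellFoundedLT.induction with
  | ind a ih =>
    rw [ordN_eq a, smul_mk]
    congr 1
    · funext i
      exact ih _ ((equivShrink (Set.Iio a)).symm i).2
    · funext i
      exact hT g

theorem hs_ordN (hT : ∀ g : S.G, g • (⊤ : S.P) = ⊤) (a : Ordinal.{1}) : S.HS (ordN S.P a) := by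
  induction a using WellFoundedLT.induction with
  | ind a ih =>
    obtain ⟨w⟩ := S.ne
    have h : S.Supp w (ordN S.P a) := fun k _ => FEq.of_eq (smul_ordN hT k a) _
    rw [ordN_eq a] at h ⊢
    exact ⟨⟨w, h⟩, fun i => ih _ ((equivShrink (Set.Iio a)).symm i).2⟩

variable (S) in
/-- `p` forces `x` to be transitive. -/
def Tr (x : Name S.P) (p : S.P) : Prop :=
  ∀ y, S.HS y → ∀ z, S.HS z → ∀ q ≤ p, FMem z y q ∧ FMem y x q → FMem z x q

variable (S) in
/-- `p` forces `x` to be an ordinal. -/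
def Or (x : Name S.P) (p : S.P) : Prop :=
  Tr S x p ∧ ∀ y, S.HS y → ∀ q ≤ p, FMem y x q → Tr S y q

theorem Or.mem {x y : Name S.P} {p q : S.P} (h : Or S x p) (hy : S.HS y) (hq : q ≤ p)
    (hm : FMem y x q) : Or S y q :=
  ⟨h.2 y hy q hq hm, fun z hz r hr hz' =>
    h.2 z hz r (hr.trans hq) (h.1 y hy z hz r (hr.trans hq) ⟨hz', hm.mono hr⟩)⟩

/-- A name forced to be an ordinal is densely equal to a canonical ordinal name. -/
theorem exists_ordN (hT : ∀ g : S.G, g • (⊤ : S.P) = ⊤) (x : Name S.P) :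
    S.HS x → ∀ p, Or S x p → ∃ r ≤ p, ∃ g, FEq x (ordN S.P g) r := by
  induction x with
  | mk ι A c ih =>
    intro hx p hp
    obtain ⟨Γ, hΓ⟩ := exists_bound (Name.mk ι A c)
    have hne : ({g | ¬ FMem (ordN S.P g) (Name.mk ι A c) p} : Set Ordinal.{1}).Nonempty :=
      ⟨Γ, fun h => lt_irrefl _ (hΓ _ _ h)⟩
    obtain ⟨g, hg, hmin⟩ := wellFounded_lt.has_min _ hne
    have h1 : ∃ r ≤ p, ∀ s ≤ r, ¬ FMem (ordN S.P g) (Name.mk ι A c) s := by
      by_contra hc
      push Not at hc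
      exact hg (FMem.of_dense hc)
    obtain ⟨r, hr, h2⟩ := h1
    refine ⟨r, hr, g, feq_iff.2 ⟨fun i q hq hc => FMem.of_dense fun q' hq' => ?_, ?_⟩⟩
    · have hm : FMem (A i) (Name.mk ι A c) q' := FMem.fn_mem (Name.mk ι A c) i (hq'.trans hc)
      obtain ⟨s, hs, g', he⟩ := ih i (hx.fn i) q'
        (hp.mem (hx.fn i) (hq'.trans (hq.trans hr)) hm)
      have hsr : s ≤ r := hs.trans (hq'.trans hq)
      have hm' : FMem (ordN S.P g') (Name.mk ι A c) s := FMem.congr_left he (hm.mono hs)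
      refine ⟨s, hs, fmem_ordN_of ?_ he⟩
      rcases lt_trichotomy g' g with h | h | h
      · exact h
      · exact absurd (h ▸ hm') (h2 s hsr)
      · exact absurd (hp.1 _ (hs_ordN hT g') _ (hs_ordN hT g) s (hsr.trans hr)
          ⟨ordN_mem h s, hm'⟩) (h2 s hsr)
    · rw [ordN_eq g]
      intro j q hq _
      have h3 : FMem (ordN S.P ((equivShrink (Set.Iio g)).symm j).1) (Name.mk ι A c) p := by
        by_contra h4
        exact hmin _ h4 ((equivShrink (Set.Iio g)).symm j).2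
      exact h3.mono (hq.trans hr)

theorem forces_isTrans {n : ℕ} (v : Fin n → Name S.P) (a : Fin n) (p : S.P) :
    S.Forces (isTrans a) v p ↔ Tr S (v a) p := by
  simp only [isTrans, forces_all, forces_imp, forces_inf, forces_vmem, Fin.snoc_last,
    Fin.snoc_castSucc, Tr]

theorem forces_isOrd {n : ℕ} (v : Fin n → Name S.P) (a : Fin n) (p : S.P) :
    S.Forces (isOrd a) v p ↔ Or S (v a) p := by
  simp only [isOrd, forces_all, forces_imp, forces_inf, forces_vmem, forces_isTrans, Fin.snoc_last,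
    Fin.snoc_castSucc, Or]

theorem valid_acwo (hT : ∀ g : S.G, g • (⊤ : S.P) = ⊤) (h : S.ACWOSem) : S.Valid acwoAx := by
  intro a ha f hf q _ hq
  have hv : ∀ i, S.HS ((Fin.snoc (Fin.snoc Fin.elim0 a : Fin 1 → Name S.P) f :
      Fin 2 → Name S.P) i) := hs_snoc (hs_snoc (fun i => i.elim0) ha) hf
  rw [forces_inf, forces_isOrd] at hq
  obtain ⟨hO, hq⟩ := hq
  change Or S a q at hO
  obtain ⟨Γ, hΓ⟩ := exists_bound a
  obtain ⟨g, hg, g1, g2⟩ := h (Shrink.{1} (Set.Iio Γ))
    (fun i => ordN S.P ((equivShrink (Set.Iio Γ)).symm i).1) (fun i => hs_ordN hT _)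
    (fun i g => smul_ordN hT g _)
    (fun i j p he => (equivShrink (Set.Iio Γ)).symm.injective (Subtype.ext (ordN_inj he))) f hf
  refine forces_ex_of g hg fun x hx q' hq' hm => ?_
  rw [forces_vmem] at hm
  change FMem x a q' at hm
  rw [forces_ex]
  intro r hr
  obtain ⟨r₁, hr₁, b, he⟩ := exists_ordN hT x hx r (hO.mem hx (hr.trans hq') (hm.mono hr))
  have hm₁ : FMem x a r₁ := hm.mono (hr₁.trans hr)
  have hb : b < Γ := hΓ b r₁ (FMem.congr_left he hm₁)
  have h1 := hq x hx r₁ (hr₁.trans (hr.trans hq')) ((forces_vmem _ _ _ _).2 hm₁)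
  rw [forces_ex] at h1
  obtain ⟨r₂, hr₂, y, hy, h2⟩ := h1 r₁ le_rfl
  rw [forces_pairMem (hs_snoc (hs_snoc hv hx) hy)] at h2
  change FMem (opair x y) f r₂ at h2
  have g1' := g1 (equivShrink (Set.Iio Γ) ⟨b, hb⟩)
  have g2' := g2 (equivShrink (Set.Iio Γ) ⟨b, hb⟩)
  simp only [Equiv.symm_apply_apply] at g1' g2'
  obtain ⟨r₃, hr₃, y', hy', m1, m2⟩ := g1' y r₂ hy
    (FMem.congr_left ((he.mono hr₂).opair (FEq.refl _ _)) h2)
  have he₃ : FEq x (ordN S.P b) r₃ := he.mono (hr₃.trans hr₂)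
  refine ⟨r₃, hr₃.trans (hr₂.trans hr₁), y', hy', ?_⟩
  have hv' := hs_snoc (hs_snoc (hs_snoc hv hg) hx) hy'
  rw [forces_inf, forces_inf, forces_pairMem hv', forces_pairMem hv']
  refine ⟨⟨FMem.congr_left (he₃.symm.opair (FEq.refl _ _)) m1,
    FMem.congr_left (he₃.symm.opair (FEq.refl _ _)) m2⟩, fun y'' hy'' t ht h3 => ?_⟩
  rw [forces_pairMem (hs_snoc hv' hy'')] at h3
  change FMem (opair x y'') g t at h3
  rw [forces_veq]
  exact g2' y'' y' t (FMem.congr_left ((he₃.mono ht).opair (FEq.refl _ _)) h3) (m1.mono ht)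

end SyntaxWO

theorem syntaxWOStmt : SyntaxWOStmt := fun _ hT h => SyntaxWO.valid_acwo hT h

end Crest.Agent.R296
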