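import Crest.Agent.R296.Defs

/-!
Row 296: extensionality, pairing, union, infinity and foundation are forced in every symmetric
system.
-/

set_option autoImplicit false

open FirstOrder FirstOrder.Language Crest.LogicCS.SetTheory

namespace Crest.Agent.R296

open Name

namespace ZFBasic

section names

variable {P : Type 1} [Preorder P]

/-- The union of a name. -/
def unionN (a : Name P) : Name P :=
  Name.mk (Σ i : a.idx, Σ j : (a.fn i).idx, {q : P // q ≤ a.cond i ∧ q ≤ (a.fn i).cond j})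
    (fun t => (a.fn t.1).fn t.2.1) (fun t => t.2.2.1)

theorem fmem_unionN_of {a y z : Name P} {p : P} (hy : FMem y a p) (hz : FMem z y p) :
    FMem z (unionN a) p := by
  intro q hq
  obtain ⟨s, hs, i, hi, he⟩ := hy q hq
  obtain ⟨t, ht, j, hj, he'⟩ := (FMem.congr_right he (hz.mono (hs.trans hq))) s le_rfl
  exact ⟨t, ht.trans hs, ⟨i, j, ⟨t, ht.trans hi, hj⟩⟩, le_rfl, he'⟩

theorem exists_of_fmem_unionN {a z : Name P} {p : P} (h : FMem z (unionN a) p) :
    ∃ r ≤ p, ∃ i : a.idx, FMem (a.fn i) a r ∧ FMem z (a.fn i) r := by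
  obtain ⟨r, hr, ⟨i, j, ⟨q, h₁, h₂⟩⟩, hq, he⟩ := h p le_rfl
  exact ⟨r, hr, i, FMem.fn_mem a i (le_trans hq h₁), FMem.of_idx j (le_trans hq h₂) he⟩

variable [OrderTop P]

/-- The successor of a name. -/
def succN (y : Name P) : Name P :=
  Name.mk (Option y.idx) (fun o => o.elim y y.fn) (fun o => o.elim ⊤ y.cond)

theorem fmem_succN_self {y z : Name P} {p : P} (h : FEq z y p) : FMem z (succN y) p :=
  FMem.of_idx (y := succN y) none le_top h

theorem fmem_succN_of {y z : Name P} {p : P} (h : FMem z y p) : FMem z (succN y) p := by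
  intro q hq
  obtain ⟨r, hr, j, hj, he⟩ := h q hq
  exact ⟨r, hr, some j, hj, he⟩

theorem fmem_succN {y z : Name P} {p : P} :
    FMem z (succN y) p ↔ ∀ q ≤ p, ∃ r ≤ q, FMem z y r ∨ FEq z y r := by
  constructor
  · intro h q hq
    obtain ⟨r, hr, o, ho, he⟩ := h q hq
    cases o with
    | none => exact ⟨r, hr, Or.inr he⟩
    | some j => exact ⟨r, hr, Or.inl (FMem.of_idx j ho he)⟩
  · intro h
    refine FMem.of_dense fun q hq => ?_
    obtain ⟨r, hr, h' | h'⟩ := h q hq
    · exact ⟨r, hr, fmem_succN_of h'⟩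
    · exact ⟨r, hr, fmem_succN_self h'⟩

theorem feq_succN {y y' : Name P} {p : P} (h : FEq y y' p) : FEq (succN y) (succN y') p := by
  rw [feq_iff]
  constructor
  · intro o q hq hc
    cases o with
    | none => exact fmem_succN_self (h.mono hq)
    | some j => exact fmem_succN_of (FMem.congr_right (h.mono hq) (FMem.fn_mem y j hc))
  · intro o q hq hc
    cases o with
    | none => exact fmem_succN_self (h.mono hq).symm
    | some j => exact fmem_succN_of (FMem.congr_right (h.mono hq).symm (FMem.fn_mem y' j hc))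

end names

variable {S : Sys}

open Sys

theorem supp_unionN {w : S.L} {a : Name S.P} (ha : S.Supp w a) : S.Supp w (unionN a) := by
  refine supp_mk ?_
  rintro k hk ⟨i, j, ⟨q₀, h₁, h₂⟩⟩ q hq
  have e₁ : FMem (k • a.fn i) a q :=
    FMem.congr_right (ha.feq hk q) ((fmem_smul k (FMem.fn_mem a i h₁)).mono hq)
  have e₂ : FMem (k • (a.fn i).fn j) (k • a.fn i) q :=
    (fmem_smul k (FMem.fn_mem (a.fn i) j h₂)).mono hq
  exact fmem_unionN_of e₁ e₂

theorem hs_unionN {a : Name S.P} (ha : S.HS a) : S.HS (unionN a) := by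
  obtain ⟨w, hw⟩ := ha.supp
  exact (hs_iff _).2 ⟨⟨w, supp_unionN hw⟩, fun t => (ha.fn t.1).fn t.2.1⟩

theorem supp_succN {w : S.L} {y : Name S.P} (hy : S.Supp w y) : S.Supp w (succN y) := by
  refine supp_mk ?_
  intro k hk o q hq
  cases o with
  | none => exact fmem_succN_self (hy.feq hk q)
  | some j =>
    exact fmem_succN_of
      (FMem.congr_right (hy.feq hk q) ((fmem_smul k (FMem.fn_mem y j le_rfl)).mono hq))

theorem hs_succN {y : Name S.P} (hy : S.HS y) : S.HS (succN y) := by
  obtain ⟨w, hw⟩ := hy.supp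
  refine (hs_iff _).2 ⟨⟨w, supp_succN hw⟩, fun o => ?_⟩
  cases o with
  | none => exact hy
  | some j => exact hy.fn j

/-- Names for the natural numbers. -/
def natN (S : Sys) : ℕ → Name S.P
  | 0 => S.emptyN
  | k + 1 => succN (natN S k)

theorem supp_natN (w : S.L) (k : ℕ) : S.Supp w (natN S k) := by
  induction k with
  | zero => exact supp_emptyN w
  | succ k ih => exact supp_succN ih

theorem hs_natN (k : ℕ) : S.HS (natN S k) := by
  induction k with
  | zero => exact hs_emptyN
  | succ k ih => exact hs_succN ih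

/-- A name for the set of natural numbers. -/
def omegaN (S : Sys) : Name S.P :=
  Name.mk (ULift.{1} ℕ) (fun k => natN S k.down) (fun _ => ⊤)

theorem fmem_omegaN_of {z : Name S.P} {p : S.P} (k : ℕ) (h : FEq z (natN S k) p) :
    FMem z (omegaN S) p :=
  FMem.of_idx (y := omegaN S) ⟨k⟩ le_top h

theorem hs_omegaN : S.HS (omegaN S) := by
  obtain ⟨w⟩ := S.ne
  refine (hs_iff _).2 ⟨⟨w, supp_mk ?_⟩, fun k => hs_natN k.down⟩
  intro g hg k q _
  exact fmem_omegaN_of k.down ((supp_natN w k.down).feq hg q)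

theorem succN_mem_omegaN {y : Name S.P} {p : S.P} (h : FMem y (omegaN S) p) :
    FMem (succN y) (omegaN S) p := by
  refine FMem.of_dense fun q hq => ?_
  obtain ⟨r, hr, k, -, he⟩ := h q hq
  exact ⟨r, hr, fmem_omegaN_of (k.down + 1) (feq_succN he)⟩

theorem exists_minimal (x z : Name S.P) : S.HS z → ∀ p, FMem z x p →
    ∃ q ≤ p, ∃ y, S.HS y ∧ FMem y x q ∧ ∀ r ≤ q, ∀ w, ¬ (FMem w y r ∧ FMem w x r) := by
  induction z with
  | mk ι A c ih =>
    intro hz p hp
    by_cases h : ∀ r ≤ p, ∀ w, ¬ (FMem w (Name.mk ι A c) r ∧ FMem w x r)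
    · exact ⟨p, le_rfl, _, hz, hp, h⟩
    · push Not at h
      obtain ⟨r, hr, w, h₁, h₂⟩ := h
      obtain ⟨s, hs, j, -, he⟩ := h₁ r le_rfl
      obtain ⟨q, hq, h'⟩ := ih j (hz.fn j) s (FMem.congr_left he (h₂.mono hs))
      exact ⟨q, hq.trans (hs.trans hr), h'⟩

theorem valid_ext (S : Sys) : S.Valid extAx := by
  unfold Sys.Valid extAx
  simp only [forces_all, forces_imp, forces_iff, forces_vmem, forces_veq]
  intro x hx y hy q _ h
  exact feq_of_hs_ext hx hy h

theorem valid_pair (S : Sys) : S.Valid pairAx := by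
  unfold Sys.Valid pairAx
  simp only [forces_all]
  intro x hx y hy
  refine forces_ex_of (upair x y) (hx.upair hy) ?_
  simp only [forces_all, forces_iff, forces_sup, forces_vmem, forces_veq]
  intro z _ q _
  exact fmem_upair

theorem valid_union (S : Sys) : S.Valid unionAx := by
  unfold Sys.Valid unionAx
  simp only [forces_all]
  intro a ha
  refine forces_ex_of (unionN a) (hs_unionN ha) ?_
  simp only [forces_all, forces_iff, forces_ex, forces_inf, forces_vmem]
  intro z _ q _
  change FMem z (unionN a) q ↔ ∀ r ≤ q, ∃ s ≤ r, ∃ y, S.HS y ∧ FMem y a s ∧ FMem z y s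
  constructor
  · intro h r hr
    obtain ⟨s, hs, i, h₁, h₂⟩ := exists_of_fmem_unionN (h.mono hr)
    exact ⟨s, hs, a.fn i, ha.fn i, h₁, h₂⟩
  · intro h
    refine FMem.of_dense fun r hr => ?_
    obtain ⟨s, hs, y, -, h₁, h₂⟩ := h r hr
    exact ⟨s, hs, fmem_unionN_of h₁ h₂⟩

theorem valid_inf (S : Sys) : S.Valid infAx := by
  unfold Sys.Valid infAx
  refine forces_ex_of (omegaN S) hs_omegaN ?_
  rw [forces_inf]
  constructor
  · refine forces_ex_of S.emptyN hs_emptyN ?_
    simp only [forces_all, forces_inf, forces_not, forces_vmem]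
    exact ⟨fun z _ q _ => not_fmem_emptyN z q, fmem_omegaN_of 0 (FEq.refl _ _)⟩
  · simp only [forces_all, forces_imp, forces_vmem]
    intro y hy q _ h
    refine forces_ex_of (succN y) (hs_succN hy) ?_
    simp only [forces_all, forces_inf, forces_iff, forces_sup, forces_vmem, forces_veq]
    exact ⟨succN_mem_omegaN h, fun z _ r _ => fmem_succN⟩

theorem valid_found (S : Sys) : S.Valid foundAx := by
  unfold Sys.Valid foundAx
  simp only [forces_all, forces_imp, forces_ex, forces_inf, forces_not, forces_vmem]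
  intro x _ p _ h q hq
  obtain ⟨r, hr, z, hz, hm⟩ := h q hq
  obtain ⟨s, hs, y, hy, h₁, h₂⟩ := exists_minimal x z hz r hm
  refine ⟨s, hs.trans hr, y, hy, h₁, fun t ht h' => ?_⟩
  obtain ⟨u, hu, w, -, h₃⟩ := h' t le_rfl
  exact h₂ u (hu.trans ht) w h₃

end ZFBasic

theorem zfBasicStmt : ZFBasicStmt := fun S =>
  ⟨ZFBasic.valid_ext S, ZFBasic.valid_pair S, ZFBasic.valid_union S, ZFBasic.valid_inf S,
    ZFBasic.valid_found S⟩

end Crest.Agent.R296
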