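import Crest.Agent.R296.Defs

/-! Row 296: power set, separation and collection are forced. -/

set_option autoImplicit false

open FirstOrder FirstOrder.Language Crest.LogicCS.SetTheory

namespace Crest.Agent.R296

open Name

namespace ZFS

theorem snoc_lt {α : Type 2} {m : ℕ} (f : Fin m → α) (x : α) (i : Fin (m + 1)) (h : i.val < m) :
    (Fin.snoc f x : Fin (m + 1) → α) i = f ⟨i, h⟩ :=
  Fin.snoc_castSucc (α := fun _ => α) x f ⟨i, h⟩

theorem snoc_eq {α : Type 2} {m : ℕ} (f : Fin m → α) (x : α) (i : Fin (m + 1)) (h : i.val = m) :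
    (Fin.snoc f x : Fin (m + 1) → α) i = x := by
  rw [show i = Fin.last m from Fin.ext h, Fin.snoc_last]

theorem lift_sep {α : Type 2} {k : ℕ} (v : Fin k → α) (a b x : α) :
    ((Fin.snoc (Fin.snoc (Fin.snoc v a : Fin (k + 1) → α) b : Fin (k + 2) → α) x :
      Fin (k + 3) → α) ∘ fun i : Fin (k + 1) => if ↑i < k then Fin.castAdd 2 i else Fin.addNat i 2)
      = Fin.snoc v x := by
  funext i
  rw [Function.comp_apply]
  split_ifs with h
  · rw [snoc_lt _ _ _ (by simp; omega), snoc_lt _ _ _ (by simp; omega), snoc_lt _ _ _ (by simpa),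
      snoc_lt _ _ _ h]
    rfl
  · rw [snoc_eq _ _ _ (by simp; omega), snoc_eq _ _ _ (by omega)]

theorem lift_repl1 {α : Type 2} {k : ℕ} (v : Fin k → α) (a x y : α) :
    ((Fin.snoc (Fin.snoc (Fin.snoc v a : Fin (k + 1) → α) x : Fin (k + 2) → α) y :
      Fin (k + 3) → α) ∘ fun i : Fin (k + 2) => if ↑i < k then Fin.castAdd 1 i else Fin.addNat i 1)
      = Fin.snoc (Fin.snoc v x : Fin (k + 1) → α) y := by
  funext i
  rw [Function.comp_apply]
  split_ifs with h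
  · rw [snoc_lt _ _ _ (by simp), snoc_lt _ _ _ (by simp; omega), snoc_lt _ _ _ (by simpa),
      snoc_lt _ _ i (by omega), snoc_lt _ _ _ h]
    rfl
  · by_cases h' : i.val = k
    · rw [snoc_lt _ _ _ (by simp; omega), snoc_eq _ _ _ (by simpa), snoc_lt _ _ i (by omega),
        snoc_eq _ _ _ h']
    · rw [snoc_eq _ _ _ (by simp; omega), snoc_eq _ _ _ (by omega)]

theorem lift_repl2 {α : Type 2} {k : ℕ} (v : Fin k → α) (a b x y : α) :
    ((Fin.snoc (Fin.snoc (Fin.snoc (Fin.snoc v a : Fin (k + 1) → α) b : Fin (k + 2) → α) x :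
      Fin (k + 3) → α) y : Fin (k + 4) → α) ∘
        fun i : Fin (k + 2) => if ↑i < k then Fin.castAdd 2 i else Fin.addNat i 2)
      = Fin.snoc (Fin.snoc v x : Fin (k + 1) → α) y := by
  funext i
  rw [Function.comp_apply]
  split_ifs with h
  · rw [snoc_lt _ _ _ (by simp; omega), snoc_lt _ _ _ (by simp), snoc_lt _ _ _ (by simp; omega),
      snoc_lt _ _ _ (by simpa), snoc_lt _ _ i (by omega), snoc_lt _ _ _ h]
    rfl
  · by_cases h' : i.val = k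
    · rw [snoc_lt _ _ _ (by simp; omega), snoc_eq _ _ _ (by simpa), snoc_lt _ _ i (by omega),
        snoc_eq _ _ _ h']
    · rw [snoc_eq _ _ _ (by simp; omega), snoc_eq _ _ _ (by omega)]

variable {S : Sys}

theorem snoc_congr {n : ℕ} {v v' : Fin n → Name S.P} {x x' : Name S.P} {p : S.P}
    (hv : ∀ i, FEq (v i) (v' i) p) (hx : FEq x x' p) (i : Fin (n + 1)) :
    FEq ((Fin.snoc v x : Fin (n + 1) → Name S.P) i) ((Fin.snoc v' x' : Fin (n + 1) → Name S.P) i) p := by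
  refine Fin.lastCases ?_ (fun j => ?_) i
  · simpa using hx
  · simpa using hv j

/-- The translates of the names `A i`, labelled by the conditions at which `Ψ` holds. -/
def cl (S : Sys) {ι : Type 1} (A : ι → Name S.P) (Ψ : Name S.P → S.P → Prop) : Name S.P :=
  Name.mk (Σ (g : S.G) (i : ι), {q : S.P // Ψ (g • A i) q}) (fun s => s.1 • A s.2.1)
    (fun s => s.2.2.1)

variable {ι : Type 1} {A : ι → Name S.P} {Ψ : Name S.P → S.P → Prop}

theorem hs_cl (hA : ∀ i, S.HS (A i)) (w : S.L)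
    (h : ∀ k ∈ S.K w, ∀ x p, Ψ x p → Ψ (k • x) (k • p)) : S.HS (cl S A Ψ) := by
  refine ⟨⟨w, Sys.supp_mk ?_⟩, fun s => (hA s.2.1).smul s.1⟩
  rintro k hk ⟨g, i, q, hq⟩ r hr
  exact FMem.of_idx (y := cl S A Ψ) ⟨k * g, i, k • q, by rw [mul_smul]; exact h k hk _ _ hq⟩ hr
    (FEq.of_eq (mul_smul k g (A i)).symm r)

theorem fmem_cl (i : ι) {q : S.P} (h : Ψ (A i) q) : FMem (A i) (cl S A Ψ) q :=
  FMem.of_idx (y := cl S A Ψ) ⟨1, i, q, by rwa [one_smul]⟩ le_rfl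
    (FEq.of_eq (one_smul S.G (A i)).symm q)

theorem of_fmem_cl {x : Name S.P} {p : S.P} (h : FMem x (cl S A Ψ) p) :
    ∀ q ≤ p, ∃ r ≤ q, ∃ z q', FEq x z r ∧ r ≤ q' ∧ Ψ z q' := by
  intro q hq
  obtain ⟨r, hr, ⟨g, i, q', hq'⟩, h1, h2⟩ := h q hq
  exact ⟨r, hr, _, q', h2, h1, hq'⟩

/-- The part of `a` selected by `T`. -/
def part (a : Name S.P) (T : Set (a.idx × S.P)) : Name S.P :=
  Name.mk T (fun t => a.fn t.1.1) (fun t => t.1.2)

theorem fmem_part {a x z : Name S.P} {q : S.P} :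
    FMem z (part a {t | t.2 ≤ a.cond t.1 ∧ FMem (a.fn t.1) x t.2}) q ↔ FMem z a q ∧ FMem z x q := by
  constructor
  · intro h
    constructor
    · intro s hs
      obtain ⟨r, hr, ⟨⟨j, t⟩, h1, _⟩, h3, h4⟩ := h s hs
      exact ⟨r, hr, j, le_trans h3 h1, h4⟩
    · refine FMem.of_dense fun s hs => ?_
      obtain ⟨r, hr, ⟨⟨j, t⟩, _, h2⟩, h3, h4⟩ := h s hs
      exact ⟨r, hr, FMem.congr_left h4.symm (h2.mono h3)⟩
  · rintro ⟨h1, h2⟩ s hs
    obtain ⟨r, hr, j, h3, h4⟩ := h1 s hs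
    exact ⟨r, hr, ⟨(j, r), h3, FMem.congr_left h4 (h2.mono (hr.trans hs))⟩, le_rfl, h4⟩

theorem hs_part {a x : Name S.P} (ha : S.HS a) (hx : S.HS x) :
    S.HS (part a {t | t.2 ≤ a.cond t.1 ∧ FMem (a.fn t.1) x t.2}) := by
  obtain ⟨w, h1, h2⟩ := Sys.exists_supp₂ ha hx
  refine ⟨⟨w, Sys.supp_mk ?_⟩, fun t => ha.fn _⟩
  rintro k hk ⟨⟨i, r⟩, h3, h4⟩ q hq
  exact fmem_part.2 ⟨((Sys.fmem_smul k (FMem.fn_mem a i h3)).mono hq).congr_right (h1.feq hk q),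
    ((Sys.fmem_smul k h4).mono hq).congr_right (h2.feq hk q)⟩

theorem exists_pow {a : Name S.P} (ha : S.HS a) : ∃ b, S.HS b ∧ ∀ x, S.HS x → ∀ q,
    (FMem x b q ↔ ∀ z, S.HS z → ∀ r ≤ q, FMem z x r → FMem z a r) := by
  obtain ⟨w, hw⟩ := ha.supp
  refine ⟨cl S (fun T : {T : Set (a.idx × S.P) // S.HS (part a T)} => part a T.1)
    fun x q => ∀ z, S.HS z → ∀ r ≤ q, FMem z x r → FMem z a r,
    hs_cl (fun T => T.2) w ?_, fun x hx q => ⟨fun h z hz r hr hm => ?_, fun h => ?_⟩⟩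
  · intro k hk x p h z hz r hr hm
    have h1 := Sys.fmem_smul k⁻¹ hm
    rw [inv_smul_smul] at h1
    have h2 := Sys.fmem_smul k (h _ (hz.smul k⁻¹) _ ((Sys.le_smul_iff k).1 hr) h1)
    rw [smul_inv_smul, smul_inv_smul] at h2
    exact h2.congr_right (hw.feq hk r)
  · refine FMem.of_dense fun s hs => ?_
    obtain ⟨t, ht, y, q', h1, h2, h3⟩ := of_fmem_cl h s (hs.trans hr)
    exact ⟨t, ht, h3 z hz t h2 ((hm.mono (ht.trans hs)).congr_right h1)⟩
  · refine FMem.congr_left ?_ (fmem_cl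
      (A := fun T : {T : Set (a.idx × S.P) // S.HS (part a T)} => part a T.1) ⟨_, hs_part ha hx⟩
      fun z _ r _ hm => (fmem_part.1 hm).1)
    exact Sys.feq_of_hs_ext (hs_part ha hx) hx fun z hz r hr =>
      ⟨fun hm => (fmem_part.1 hm).2, fun hm => fmem_part.2 ⟨h z hz r hr hm, hm⟩⟩

theorem exists_sep {k : ℕ} (φ : setL.BoundedFormula Empty (k + 1)) {v : Fin k → Name S.P}
    (hv : ∀ i, S.HS (v i)) {a : Name S.P} (ha : S.HS a) : ∃ b, S.HS b ∧ ∀ x q,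
    (FMem x b q ↔ FMem x a q ∧ S.Forces φ (Fin.snoc v x) q) := by
  obtain ⟨w₁, h₁⟩ := ha.supp
  obtain ⟨w₂, h₂⟩ := Sys.exists_supp_fin v hv
  obtain ⟨w, h₃, h₄⟩ := S.dir w₁ w₂
  refine ⟨cl S a.fn fun x q => FMem x a q ∧ S.Forces φ (Fin.snoc v x) q, hs_cl ha.fn w ?_,
    fun x q => ⟨fun h => ⟨FMem.of_dense fun s hs => ?_, Sys.Forces.of_dense fun s hs => ?_⟩,
      fun h => FMem.of_dense fun s hs => ?_⟩⟩
  · rintro g hg x p ⟨h5, h6⟩
    refine ⟨(Sys.fmem_smul g h5).congr_right (h₁.feq (h₃ hg) _), ?_⟩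
    have h7 := (Sys.forces_smul_iff g).2 h6
    rw [Sys.smul_snoc] at h7
    exact h7.congr (snoc_congr (fun i => (h₂ i).feq (h₄ hg) _) (FEq.refl _ _))
  · obtain ⟨t, ht, y, q', h1, h2, h3, -⟩ := of_fmem_cl h s hs
    exact ⟨t, ht, (h3.mono h2).congr_left h1.symm⟩
  · obtain ⟨t, ht, y, q', h1, h2, -, h3⟩ := of_fmem_cl h s hs
    exact ⟨t, ht, (h3.mono h2).congr (snoc_congr (fun i => FEq.refl _ _) h1.symm)⟩
  · obtain ⟨r, hr, j, h1, h2⟩ := h.1 s hs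
    exact ⟨r, hr, FMem.congr_left h2.symm (fmem_cl j ⟨FMem.fn_mem a j h1,
      (h.2.mono (hr.trans hs)).congr (snoc_congr (fun i => FEq.refl _ _) h2)⟩)⟩

theorem exists_coll (Φ : Name S.P → Name S.P → S.P → Prop) (a : Name S.P) :
    ∃ b, S.HS b ∧ ∀ (j : a.idx) (q : S.P), (∃ y, S.HS y ∧ Φ (a.fn j) y q) →
      ∃ y, S.HS y ∧ FMem y b q ∧ Φ (a.fn j) y q := by
  obtain ⟨w⟩ := S.ne
  refine ⟨cl S (fun t : {t : a.idx × S.P // ∃ y, S.HS y ∧ Φ (a.fn t.1) y t.2} => t.2.choose)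
    fun _ _ => True, hs_cl (fun t => t.2.choose_spec.1) w fun _ _ _ _ _ => trivial,
    fun j q h => ⟨h.choose, h.choose_spec.1, ?_, h.choose_spec.2⟩⟩
  exact fmem_cl
    (A := fun t : {t : a.idx × S.P // ∃ y, S.HS y ∧ Φ (a.fn t.1) y t.2} => t.2.choose)
    ⟨(j, q), h⟩ trivial

theorem valid_power (S : Sys) : S.Valid powerAx := by
  intro a ha
  obtain ⟨b, hb, h⟩ := exists_pow ha
  refine Sys.forces_ex_of b hb fun x hx => ?_
  rw [Sys.forces_iff]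
  exact fun q _ => h x hx q

theorem valid_sep (S : Sys) (k : ℕ) (φ : setL.BoundedFormula Empty (k + 1)) :
    S.Valid (sepAx k φ) := by
  refine (Sys.forces_alls _ _).2 fun v hv a ha => ?_
  obtain ⟨b, hb, h⟩ := exists_sep φ hv ha
  refine Sys.forces_ex_of b hb fun x _ => ?_
  rw [Sys.forces_iff]
  intro q _
  rw [Sys.forces_inf, Sys.forces_vmem, Sys.forces_vmem,
    Sys.forces_liftAt (n := k + 1) (n' := 2) (Nat.le_succ k), lift_sep,
    snoc_eq _ _ _ rfl, snoc_lt _ _ _ (Nat.lt_succ_self _), snoc_eq _ _ _ rfl,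
    snoc_lt _ _ _ (by simp), snoc_lt _ _ _ (Nat.lt_succ_self _), snoc_eq _ _ _ rfl]
  exact h x q

theorem valid_repl (S : Sys) (k : ℕ) (φ : setL.BoundedFormula Empty (k + 2)) :
    S.Valid (replAx k φ) := by
  refine (Sys.forces_alls _ _).2 fun v hv a ha p _ hp => ?_
  obtain ⟨b, hb, h⟩ := exists_coll
    (fun x y q => S.Forces φ (Fin.snoc (Fin.snoc v x : Fin (k + 1) → Name S.P) y) q) a
  refine Sys.forces_ex_of b hb fun x _ r hr hx => ?_
  rw [Sys.forces_vmem, snoc_eq _ _ _ rfl, snoc_lt _ _ _ (by simp),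
    snoc_lt _ _ _ (Nat.lt_succ_self _), snoc_eq _ _ _ rfl] at hx
  rw [Sys.forces_ex]
  intro s hs
  obtain ⟨t, ht, j, h1, h2⟩ := hx s hs
  have h3 := hp (a.fn j) (ha.fn j) t (ht.trans (hs.trans hr)) (by
    rw [Sys.forces_vmem, snoc_eq _ _ _ rfl, snoc_lt _ _ _ (Nat.lt_succ_self _), snoc_eq _ _ _ rfl]
    exact FMem.fn_mem a j h1)
  obtain ⟨u, hu, y, hy, h4⟩ := (Sys.forces_ex _ _ _).1 h3 t le_rfl
  have h5 := ((Sys.forces_inf _ _ _ _).1 h4).1
  rw [Sys.forces_liftAt (n := k + 2) (n' := 1) (by omega), lift_repl1] at h5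
  obtain ⟨y', hy', h6, h7⟩ := h j u ⟨y, hy, h5⟩
  refine ⟨u, hu.trans ht, y', hy', ?_⟩
  rw [Sys.forces_inf, Sys.forces_vmem, Sys.forces_liftAt (n := k + 2) (n' := 2) (by omega),
    lift_repl2, snoc_eq _ _ _ rfl, snoc_lt _ _ _ (by simp), snoc_lt _ _ _ (Nat.lt_succ_self _),
    snoc_eq _ _ _ rfl]
  exact ⟨h6, h7.congr (snoc_congr (snoc_congr (fun i => FEq.refl _ _) (h2.mono hu).symm)
    (FEq.refl _ _))⟩

end ZFS

theorem zfSchemeStmt : ZFSchemeStmt := fun S =>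
  ⟨ZFS.valid_power S, ZFS.valid_sep S, ZFS.valid_repl S⟩

end Crest.Agent.R296
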